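import Mathlib

namespace Vale.Agent.P099

open Filter Topology Finset
open scoped RealInnerProductSpace

lemma tendsto_shift {f : ℤ → ℝ} (hf : Summable f) (m : ℤ) :
    Tendsto (fun n : ℕ => f (m + n)) atTop (𝓝 0) ∧ Tendsto (fun n : ℕ => f (m - n)) atTop (𝓝 0) := by
  have h := hf.tendsto_cofinite_zero
  constructor
  · refine h.comp ?_
    rw [← Nat.cofinite_eq_atTop]
    exact Function.Injective.tendsto_cofinite fun a b hab => by simpa using hab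
  · refine h.comp ?_
    rw [← Nat.cofinite_eq_atTop]
    exact Function.Injective.tendsto_cofinite fun a b hab => by simpa using hab

lemma convex_seq {α : ℤ → ℝ} (hs : Summable α) (h : ∀ k, 2 * α k ≤ α (k - 1) + α (k + 1)) (k : ℤ) :
    α k = 0 := by
  have hm : Monotone fun k => α (k + 1) - α k := monotone_int_of_le_succ fun k => by
    have := h (k + 1)
    rw [add_sub_cancel_right] at this
    linarith
  have h0 : ∀ k, α (k + 1) = α k := by
    intro k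
    have a1 := (tendsto_shift hs (k + 1)).1.sub (tendsto_shift hs k).1
    have a2 := (tendsto_shift hs (k + 1)).2.sub (tendsto_shift hs k).2
    rw [sub_zero] at a1 a2
    have b1 : α (k + 1) - α k ≤ 0 := ge_of_tendsto' a1 fun n => by
      have := hm (show k ≤ k + n by omega)
      simp only at this
      rwa [add_right_comm k n 1] at this
    have b2 : 0 ≤ α (k + 1) - α k := le_of_tendsto' a2 fun n => by
      have := hm (show k - n ≤ k by omega)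
      simp only at this
      rwa [show k - n + 1 = k + 1 - n by ring] at this
    linarith
  have h1 : ∀ n : ℕ, α (k + n) = α k := fun n => by
    induction n with
    | zero => simp
    | succ n ih => rw [Nat.cast_succ, ← add_assoc, h0, ih]
  have := (tendsto_shift hs k).1
  simp only [h1] at this
  exact tendsto_nhds_unique tendsto_const_nhds this

variable {E : Type*} [NormedAddCommGroup E] [InnerProductSpace ℝ E]

lemma sum_inner_le {g y : ℤ → E} {γ υ : ℝ} (hγ : 0 ≤ γ) (hυ : 0 ≤ υ)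
    (Hg : ∀ s : Finset ℤ, ∑ k ∈ s, ‖g k‖ ^ 2 ≤ γ ^ 2)
    (Hy : ∀ s : Finset ℤ, ∑ k ∈ s, ‖y k‖ ^ 2 ≤ υ ^ 2) {φ : ℕ → ℤ} (hφ : Function.Injective φ)
    (n : ℕ) : |∑ i ∈ range n, ⟪g (φ i), y (φ i)⟫| ≤ γ * υ := by
  refine (abs_sum_le_sum_abs _ _).trans ((sum_le_sum fun i _ =>
    abs_real_inner_le_norm _ _).trans (abs_le_of_sq_le_sq' ?_ (by positivity)).2)
  refine (sum_mul_sq_le_sq_mul_sq _ _ _).trans ?_
  rw [mul_pow]
  have h1 := Hg ((range n).image φ)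
  have h2 := Hy ((range n).image φ)
  rw [sum_image hφ.injOn] at h1 h2
  gcongr

theorem virial_alg (dp dm a g : ℤ → E) {γ υ : ℝ} (hγ : 0 ≤ γ) (hυ : 0 ≤ υ)
    (H1 : ∀ k, dp (k - 1) + dm (k + 1) = (2 : ℝ) • (a k + g k))
    (H3 : ∀ m, ‖dp m‖ ^ 2 - ‖dm m‖ ^ 2 = ‖dp (-m)‖ ^ 2 - ‖dm (-m)‖ ^ 2)
    (H4 : ∀ k, ⟪a k, dm (k + 1)⟫ + ⟪a (-k), dp (-k - 1)⟫ =
      ⟪a (k + 1), dp k⟫ + ⟪a (-k - 1), dm (-k)⟫)
    (Sp : Summable fun m => ‖dp m‖ ^ 2) (Sm : Summable fun m => ‖dm m‖ ^ 2)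
    (Sa : Summable fun m => ‖a m‖ ^ 2)
    (Hg : ∀ s : Finset ℤ, ∑ k ∈ s, ‖g k‖ ^ 2 ≤ γ ^ 2)
    (Hy : ∀ s : Finset ℤ, ∑ k ∈ s, ‖dp (k - 1) - dm (k + 1)‖ ^ 2 ≤ υ ^ 2) (k : ℤ) :
    ‖dp k‖ ^ 2 + ‖dm (-k)‖ ^ 2 ≤ ‖a k‖ ^ 2 + ‖a (-k)‖ ^ 2 + 4 * (γ * υ) ∧
    2 * (‖a k‖ ^ 2 + ‖a (-k)‖ ^ 2) ≤ (‖a (k - 1)‖ ^ 2 + ‖a (-(k - 1))‖ ^ 2) +
      (‖a (k + 1)‖ ^ 2 + ‖a (-(k + 1))‖ ^ 2) + 8 * (γ * υ) + 4 * γ * (‖a k‖ + ‖a (-k)‖) := by
  set B : ℤ → ℝ := fun m => ‖dp m‖ ^ 2 + ‖dm (-m)‖ ^ 2 with hB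
  set z : ℤ → ℝ := fun m => ⟪a (m + 1), dp m⟫ + ⟪a (-m - 1), dm (-m)⟫ with hz
  set y : ℤ → E := fun k => dp (k - 1) - dm (k + 1) with hy
  set C : ℤ → ℝ := fun m => B m + B (m + 1) - 2 * z m with hC
  have e0 : ∀ k, ‖dp (k - 1)‖ ^ 2 - ‖dm (k + 1)‖ ^ 2 =
      2 * ⟪a k, dp (k - 1)⟫ - 2 * ⟪a k, dm (k + 1)⟫ + 2 * ⟪g k, y k⟫ := by
    intro k
    have : ‖dp (k - 1)‖ ^ 2 - ‖dm (k + 1)‖ ^ 2 = ⟪dp (k - 1) + dm (k + 1), y k⟫ := by
      simp only [hy]
      rw [inner_add_left, inner_sub_right, inner_sub_right, real_inner_self_eq_norm_sq,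
        real_inner_self_eq_norm_sq, real_inner_comm (dm (k + 1))]
      ring
    rw [this, H1, inner_smul_left, inner_add_left, hy, inner_sub_right]
    simp; ring
  have e1 : ∀ k, C (k - 1) - C k = 2 * ⟪g k, y k⟫ - 2 * ⟪g (-k), y (-k)⟫ := by
    intro k
    have a1 := e0 k
    have a2 := e0 (-k)
    have a3 := H3 (k + 1)
    have a4 := H4 k
    simp only [hC, hB, hz, sub_add_cancel, neg_sub, neg_add_rev] at *
    rw [show -k + 1 = 1 - k by ring] at a2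
    rw [show -1 + -k = -k - 1 by ring] at *
    rw [show 1 - k - 1 = -k by ring, show -1 + (1 - k) = -k by ring]
    linarith
  have e2 : ∀ m (n : ℕ), C m = C (m + n) + (2 * ∑ i ∈ range n, ⟪g (m + 1 + i), y (m + 1 + i)⟫ -
      2 * ∑ i ∈ range n, ⟪g (-(m + 1 + i)), y (-(m + 1 + i))⟫) := by
    intro m n
    induction n with
    | zero => simp
    | succ n ih =>
      have := e1 (m + 1 + n)
      rw [show m + 1 + n - 1 = m + n by ring] at this
      rw [sum_range_succ, sum_range_succ, Nat.cast_succ, show m + (n + 1) = m + 1 + n by ring]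
      linarith
  have e3 : ∀ m, C m ≤ 4 * (γ * υ) := by
    intro m
    have t1 := (tendsto_shift Sp m).1
    have t2 := (tendsto_shift Sm (-m)).2
    have t3 := (tendsto_shift Sp (m + 1)).1
    have t4 := (tendsto_shift Sm (-(m + 1))).2
    have t5 := (tendsto_shift Sa (m + 1)).1
    have t6 := (tendsto_shift Sa (-(m + 1))).2
    have t7 := (((((t1.add t2).const_mul 2).add (t3.add t4)).add (t5.add t6)).add_const
      (4 * (γ * υ)))
    simp only [add_zero, mul_zero, zero_add] at t7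
    refine ge_of_tendsto' t7 fun n => ?_
    have b1 := abs_le.1 (sum_inner_le hγ hυ Hg Hy (φ := fun i => m + 1 + i)
      (fun a b h => by simpa using h) n)
    have b2 := abs_le.1 (sum_inner_le hγ hυ Hg Hy (φ := fun i => -(m + 1 + i))
      (fun a b h => by simpa using h) n)
    have b3 := abs_le.1 (abs_real_inner_le_norm (a (m + n + 1)) (dp (m + n)))
    have b4 := abs_le.1 (abs_real_inner_le_norm (a (-(m + n) - 1)) (dm (-(m + n))))
    have b5 := two_mul_le_add_sq ‖a (m + n + 1)‖ ‖dp (m + n)‖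
    have b6 := two_mul_le_add_sq ‖a (-(m + n) - 1)‖ ‖dm (-(m + n))‖
    rw [e2 m n]
    simp only [hC, hB, hz, hy] at *
    rw [show -m - n = -(m + n) by ring, show m + 1 + n = m + n + 1 by ring,
      show -(m + 1) - n = -(m + n + 1) by ring]
    rw [show -(m + n) - 1 = -(m + n + 1) by ring] at *
    linarith
  have e4 : ∀ k, ⟪a k, dp (k - 1)⟫ + ⟪a k, dm (k + 1)⟫ = 2 * ‖a k‖ ^ 2 + 2 * ⟪a k, g k⟫ ∧
      2 * ‖a k‖ ^ 2 + 4 * ⟪a k, g k⟫ ≤ ‖dp (k - 1)‖ ^ 2 + ‖dm (k + 1)‖ ^ 2 := by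
    intro k
    constructor
    · rw [← inner_add_right, H1, inner_smul_right, inner_add_right, real_inner_self_eq_norm_sq]
      ring
    · have b1 := parallelogram_law_with_norm ℝ (dp (k - 1)) (dm (k + 1))
      rw [H1, norm_smul, Real.norm_two] at b1
      have b2 := norm_add_sq_real (a k) (g k)
      nlinarith [sq_nonneg ‖g k‖, sq_nonneg ‖dp (k - 1) - dm (k + 1)‖]
  have e5 : ∀ k, 2 * (‖a k‖ ^ 2 + ‖a (-k)‖ ^ 2) + 4 * (⟪a k, g k⟫ + ⟪a (-k), g (-k)⟫) ≤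
      B (k - 1) + B (k + 1) ∧ B k ≤ ‖a k‖ ^ 2 + ‖a (-k)‖ ^ 2 + 4 * (γ * υ) := by
    intro k
    have a1 := e4 k
    have a2 := e4 (-k)
    have a3 := H3 (k + 1)
    have a4 := H4 k
    have a5 := e3 (k - 1)
    have a6 := e3 k
    simp only [hC, hB, hz, sub_add_cancel, neg_sub, neg_add_rev] at *
    rw [show -k + 1 = 1 - k by ring] at a2
    rw [show -1 + -k = -k - 1 by ring] at *
    rw [show 1 - k - 1 = -k by ring, show -1 + (1 - k) = -k by ring] at a5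
    constructor <;> linarith [a1.1, a1.2, a2.1, a2.2]
  have e6 : ∀ k, -(γ * ‖a k‖) ≤ ⟪a k, g k⟫ := by
    intro k
    have b1 := Hg {k}
    rw [sum_singleton] at b1
    have b2 := (abs_le_of_sq_le_sq' b1 hγ).2
    have b3 := (abs_le.1 (abs_real_inner_le_norm (a k) (g k))).1
    nlinarith [norm_nonneg (a k)]
  refine ⟨(e5 k).2, ?_⟩
  have a1 := (e5 k).1
  have a2 := (e5 (k - 1)).2
  have a3 := (e5 (k + 1)).2
  linarith [e6 k, e6 (-k)]

end Vale.Agent.P099
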