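import Vale.Agent.P099.Smooth

namespace Vale.Agent.P099

open MeasureTheory Set Complex Filter Topology
open scoped ComplexConjugate InnerProductSpace NNReal Interval

set_option linter.unusedSectionVars false

variable {H : Type*} [NormedAddCommGroup H] [InnerProductSpace ℂ H] [CompleteSpace H]
  [MeasurableSpace H] [BorelSpace H] [SecondCountableTopology H]

/-- Bounded equivariant functions invariant under the unfolding. -/
structure Eqv (V : Fin 3 → ℂ) (G : UGroup H) (v : Phase → H) : Prop where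
  meas : Measurable v
  bdd : ∀ p, ‖v p‖ ≤ 1
  mv : ∀ t p, v (move t p) = G.U (-t) (v p)
  rf : ∀ᵐ p ∂nu, ∀ j, Ex V j p → v (sig V j p) = v p

lemma sh_split (z : ℂ) (p : Phase) : sh z p = move z.re (sh (z.im * I) p) := by
  rw [move_eq_sh, sh_sh, re_add_im]

lemma mp_frame : MeasurePreserving (fun p : Phase => sh p.1 (0, p.2)) nu nu := by
  have := mp_skew (φ := fun θ x => dir θ * x) (by fun_prop) fun θ => mp_mul (norm_dir θ)
  simpa [sh, mul_comm] using this

lemma ae_lines {P : Phase → Prop} (hP : ∀ t p, P p → P (move t p)) (h : ∀ᵐ p ∂nu, P p) :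
    ∀ᵐ θ ∂hr, ∀ x, ∀ᵐ s : ℝ, P (sh (s * I) (x, θ)) := by
  have h1 := Measure.ae_ae_of_ae_prod
    ((mp_frame.comp Measure.measurePreserving_swap).quasiMeasurePreserving.ae h)
  filter_upwards [h1] with θ hθ x
  have h2 := Measure.ae_ae_of_ae_prod ((Complex.volume_preserving_equiv_real_prod.symm
    _).quasiMeasurePreserving.ae hθ)
  obtain ⟨ξ, hξ⟩ := h2.exists
  filter_upwards [(measurePreserving_add_right volume (x * conj (dir θ)).im).quasiMeasurePreserving.ae
    hξ] with s hs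
  convert hP ((x * conj (dir θ)).re - ξ) _ hs using 1
  rw [← sh_rel 0 x θ]
  simp only [move_eq_sh, Function.comp, Prod.swap, sh_sh]
  congr 1
  apply Complex.ext <;> simp [measurableEquivRealProd]

lemma lip_smul {E : Type*} [NormedAddCommGroup E] [NormedSpace ℝ E] {ψ : ℂ → ℝ} {g : ℂ → E}
    {K₁ K₂ : ℝ≥0} (h1 : LipschitzWith K₁ ψ) (h2 : LipschitzWith K₂ g) (b1 : ∀ x, |ψ x| ≤ 1)
    (b2 : ∀ x, ‖g x‖ ≤ 1) : LipschitzWith (K₁ + K₂) fun x => ψ x • g x := by
  refine LipschitzWith.of_dist_le_mul fun x y => ?_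
  have a1 := h1.norm_sub_le x y
  have a2 := h2.norm_sub_le x y
  have a3 := b1 y
  have a4 := b2 x
  rw [dist_eq_norm, dist_eq_norm, show ψ x • g x - ψ y • g y = (ψ x - ψ y) • g x +
    ψ y • (g x - g y) by module]
  refine (norm_add_le _ _).trans ?_
  rw [norm_smul, norm_smul, Real.norm_eq_abs (ψ y)]
  calc _ ≤ K₁ * ‖x - y‖ * 1 + 1 * (K₂ * ‖x - y‖) := by gcongr
    _ = _ := by push_cast; ring

/-- The scalar cut-off on the whole plane. -/
noncomputable def ps (V : Fin 3 → ℂ) (T η : ℝ) (L : ℕ) (p : Phase) : ℝ :=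
  cut V p.1 * chi V T η L (ret V p.1, p.2)

variable {V : Fin 3 → ℂ} {G : UGroup H} {v : Phase → H} {T η τ : ℝ} {L : ℕ}

lemma abs_ps_le (hV : area V ≠ 0) (hT : 0 < T) (hη : 0 < η) (p : Phase) :
    |ps V T η L p| ≤ 1 := by
  rw [ps, abs_of_nonneg (mul_nonneg (cut_nonneg _) (chi_nonneg hT hη _))]
  exact mul_le_one₀ (cut_le_one hV _) (chi_nonneg hT hη _) (chi_le_one _)

lemma ps_of_mem (hV : area V ≠ 0) {p : Phase} (h : p.1 ∈ tri V) :
    ps V T η L p = chi V T η L p := by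
  rw [ps, cut_of_mem hV h, ret_of_mem hV h, one_mul]

lemma lip_ps (hV : area V ≠ 0) (hL : 1 ≤ L) (hT : dm V ≤ T) (hT0 : 0 < T) (hη : 0 < η) :
    ∃ K : ℝ≥0, ∀ θ, LipschitzWith K fun x => ps V T η L (x, θ) := by
  obtain ⟨K₁, h1⟩ := lip_cut (V := V)
  obtain ⟨K₂, h2⟩ := lip_ret hV
  refine ⟨_, fun θ => lip_smul (g := fun x => chi V T η L (ret V x, θ)) h1
    (LipschitzWith.of_dist_le' (K := (1 / T + 2 / η) * K₂) fun x y => ?_)
    (fun x => abs_le.2 ⟨by linarith [cut_nonneg (V := V) x], cut_le_one hV x⟩)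
    fun x => abs_le.2 ⟨by linarith [chi_nonneg (V := V) (L := L) hT0 hη (ret V x, θ)],
      chi_le_one _⟩⟩
  refine (chi_lip hV hL hT hT0 hη (ret_mem hV y) (ret_mem hV x) θ).trans ?_
  rw [mul_assoc, dist_eq_norm]
  gcongr
  exact h2.norm_sub_le x y

lemma measurable_retp (hV : area V ≠ 0) : Measurable fun p : Phase => (ret V p.1, p.2) :=
  let ⟨_, h⟩ := lip_ret hV
  (h.continuous.measurable.comp measurable_fst).prodMk measurable_snd

lemma measurable_ps (hV : area V ≠ 0) : Measurable (ps V T η L) :=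
  let ⟨_, h⟩ := lip_cut (V := V)
  (h.continuous.measurable.comp measurable_fst).mul (measurable_chi.comp (measurable_retp hV))

namespace Eqv

lemma bm (h : Eqv V G v) : BM v := ⟨h.meas, 1, h.bdd⟩

lemma bdd2 (h : Eqv V G v) (hη : 0 < η) (p : Phase) : ‖sa η (sa η v) p‖ ≤ 1 :=
  norm_sa_le hη (norm_sa_le hη h.bdd) p

lemma sh_eq (h : Eqv V G v) (z : ℂ) (p : Phase) : G.tk τ (sa η (sa η v) (sh z p)) =
    G.U (-z.re) (G.tk τ (sa η (sa η v) (sh (z.im * I) p))) := by
  rw [sh_split, sa_move (sa_move h.mv η), G.U_tk]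

lemma fderiv_hh (h : Eqv V G v) (hη : 0 < η) (x : ℂ) (θ : UnitAddCircle) :
    ∃ L : ℂ →L[ℝ] H, HasFDerivAt (fun x => G.tk τ (sa η (sa η v) (x, θ))) L x ∧
      L (dir θ) = -(G.U τ (sa η (sa η v) (x, θ)) - sa η (sa η v) (x, θ)) ∧
      L (I * dir θ) = G.tk τ (sd η v (x, θ)) := by
  have h1 := ((G.tk τ).restrictScalars ℝ).hasFDerivAt.comp_hasDerivAt (0 : ℝ)
    (hasDerivAt_sa h.bm hη (x, θ) 0)
  have h2 := G.hasFDerivAt h1 (G.hasDerivAt_tk τ _ 0)
  have h3 : HasFDerivAt (fun y : ℂ => (y - x) * conj (dir θ))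
      (ContinuousLinearMap.mul ℝ ℂ (conj (dir θ))) x := by
    simpa [mul_comm, Function.comp_def] using ((ContinuousLinearMap.mul ℝ ℂ (conj (dir θ))).hasFDerivAt).comp x
      ((hasFDerivAt_id x).sub_const x)
  rw [show (0 : ℂ) = (x - x) * conj (dir θ) by simp] at h2
  refine ⟨_, (h2.comp x h3).congr_of_eventuallyEq (Eventually.of_forall fun y => ?_), ?_, ?_⟩
  · change G.tk τ (sa η (sa η v) (y, θ)) = _
    rw [← sh_rel x y θ, h.sh_eq]; rfl
  · simp [conj_mul_dir, G.zero]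
  · simp [mul_left_comm _ I, conj_mul_dir]

lemma lip_hh (h : Eqv V G v) (hη : 0 < η) (h0 : 0 ≤ τ) (h1 : τ ≤ 1) (θ : UnitAddCircle) :
    LipschitzWith (2 + 1 / η).toNNReal fun x => G.tk τ (sa η (sa η v) (x, θ)) := by
  refine LipschitzWith.of_dist_le' fun y x => ?_
  set z := (y - x) * conj (dir θ) with hz
  have hn : ‖z‖ = ‖y - x‖ := by simp [hz, norm_dir]
  rw [dist_eq_norm, dist_eq_norm, ← sh_rel x y θ, ← hz, h.sh_eq, ← hn]
  have a1 := G.norm_U_tk_sub τ (sa η (sa η v) (sh (z.im * I) (x, θ))) (-z.re)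
  have a2 := convex_univ.norm_image_sub_le_of_norm_hasDerivWithin_le (C := 1 / η)
    (fun t _ => (hasDerivAt_sa h.bm hη (x, θ) t).hasDerivWithinAt)
    (fun t _ => norm_sd_le hη h.bdd _) (mem_univ 0) (mem_univ z.im)
  simp only [ofReal_zero, zero_mul, sh_zero, sub_zero, Real.norm_eq_abs] at a2
  have a3 := (G.norm_tk_le h0 h1 _).trans a2
  rw [map_sub] at a3
  have a4 := h.bdd2 hη (sh (z.im * I) (x, θ))
  have a5 := abs_re_le_norm z
  have a6 := abs_im_le_norm z
  rw [abs_neg] at a1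
  calc _ ≤ _ := norm_sub_le_norm_sub_add_norm_sub _ _ _
    _ ≤ _ := add_le_add a1 a3
    _ ≤ 2 * 1 * ‖z‖ + 1 / η * ‖z‖ := by gcongr
    _ = _ := by ring

lemma good (h : Eqv V G v) : ∀ᵐ θ ∂hr, ∀ x, ∀ᵐ s : ℝ, ∀ j, Ex V j (sh (s * I) (x, θ)) →
    v (sig V j (sh (s * I) (x, θ))) = v (sh (s * I) (x, θ)) :=
  ae_lines (P := fun p => ∀ j, Ex V j p → v (sig V j p) = v p)
    (fun t p hp j hj => by rw [sig_move, h.mv, h.mv, hp j (ex_move.1 hj)]) h.rf

end Eqv

lemma sa_sig {w : Phase → H} (hη : 0 < η) {j : Fin 3} {p : Phase}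
    (h : ∀ᵐ s : ℝ, |s| ≤ η → w (sig V j (sh (s * I) p)) = w (sh (s * I) p)) :
    sa η w (sig V j p) = sa η w p := by
  have e := intervalIntegral.integral_comp_neg (a := -η) (b := η)
    fun s : ℝ => w (sh (s * I) (sig V j p))
  rw [neg_neg] at e
  rw [sa, sa, ← e]
  congr 1
  refine intervalIntegral.integral_congr_ae (h.mono fun s hs hs' => ?_)
  rw [uIoc_of_le (neg_le_self hη.le)] at hs'
  rw [← hs (abs_le.2 ⟨hs'.1.le, hs'.2⟩), sig_sh]; simp

lemma compat_ex (hT : 0 < T) (hη : 0 < η) {j : Fin 3} {x : ℂ} {θ : UnitAddCircle}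
    (hx : x ∈ segment ℝ (V (j + 1)) (V (j + 2))) (hj : Ex V j (x, θ))
    (hg : ∀ x, ∀ᵐ s : ℝ, ∀ j, Ex V j (sh (s * I) (x, θ)) →
      v (sig V j (sh (s * I) (x, θ))) = v (sh (s * I) (x, θ))) (F : H → H) :
    chi V T (2 * η) L (sig V j (x, θ)) • F (sa η (sa η v) (sig V j (x, θ))) =
      chi V T (2 * η) L (x, θ) • F (sa η (sa η v) (x, θ)) := by
  have hη2 : 0 < 2 * η := by positivity
  have h0 : bb V (x, θ) = 0 := by
    obtain ⟨a, b, -, -, hab, rfl⟩ := hx
    have := lam_affine (V := V) j (V (j + 1)) (V (j + 2)) a b hab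
    have h1 := hj.lam_move 0
    rw [move_zero, this, lam_one, lam_two] at h1
    rw [hj.bb_eq]
    rw [mul_zero, mul_zero, add_zero, sub_zero] at h1
    exact (mul_eq_zero.1 h1.symm).resolve_right hj.ratio_pos.ne'
  have h1 : chi V T (2 * η) L (sig V j (x, θ)) = chi V T (2 * η) L (x, θ) := by
    rw [chi, ← hj.gam_eq, rho_gam hT hη2 hj h0, chi]
  rw [h1]
  by_cases hd : dv V (x, θ) ≤ 2 * η
  · rw [chi_eq_zero hT hη2 hd, zero_smul, zero_smul]
  congr 2
  refine sa_sig hη (Eventually.of_forall fun y hy => sa_sig hη ?_)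
  filter_upwards [hg (sh (y * I) (x, θ)).1] with s hs hs'
  refine hs j ?_
  change Ex V j (sh (s * I) (sh (y * I) (x, θ)))
  rw [sh_sh]
  exact (hj.sh hη2 (not_le.1 hd) (by simpa using (abs_add_le _ _).trans (by linarith))).1

lemma compat (h : Eqv V G v) (hV : area V ≠ 0) (hT : 0 < T) (hη : 0 < η) {j : Fin 3} {x : ℂ}
    (hx : x ∈ segment ℝ (V (j + 1)) (V (j + 2))) (F : H → H) : ∀ᵐ θ ∂hr,
    chi V T (2 * η) L (x, mirror V j θ) • F (sa η (sa η v) (x, mirror V j θ)) =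
      chi V T (2 * η) L (x, θ) • F (sa η (sa η v) (x, θ)) := by
  have e : ∀ θ, sig V j (x, θ) = (x, mirror V j θ) := fun θ => Prod.ext (rf_segment hx) rfl
  filter_upwards [h.good, (mp_mirror j).quasiMeasurePreserving.ae h.good] with θ g1 g2
  by_cases h1 : Ex V j (x, θ)
  · rw [← e]; exact compat_ex hT hη hx h1 g1 F
  by_cases h2 : En V j (x, θ)
  · have := compat_ex (L := L) hT hη hx (by rw [← e]; exact ex_sig.2 h2) g2 F
    rw [← e, sig_sig] at this
    rw [← e]; exact this.symm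
  have h3 : (rel V (j + 1) (x, θ)).im = 0 ∨ (rel V (j + 2) (x, θ)).im = 0 := by
    obtain ⟨a, b, ha, hb, hab, hx⟩ := hx
    have h4 : a * (rel V (j + 1) (x, θ)).im + b * (rel V (j + 2) (x, θ)).im = 0 := by
      have : (a : ℂ) * rel V (j + 1) (x, θ) + b * rel V (j + 2) (x, θ) = 0 := by
        have hab' : (a : ℂ) + b = 1 := by exact_mod_cast hab
        simp only [rel, real_smul] at hx ⊢
        linear_combination conj (dir θ) * hx - x * conj (dir θ) * hab'
      simpa using congrArg im this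
    by_contra h5
    push Not at h5
    have h6 : a * (area V * (rel V (j + 1) (x, θ)).im) +
      b * (area V * (rel V (j + 2) (x, θ)).im) = 0 := by linear_combination area V * h4
    rcases lt_or_gt_of_ne (mul_ne_zero hV h5.1) with c | c <;>
    rcases lt_or_gt_of_ne (mul_ne_zero hV h5.2) with d | d
    · have a1 := mul_nonneg ha (neg_pos.2 c).le
      have a2 := mul_nonneg hb (neg_pos.2 d).le
      have e0 : a = 0 := by nlinarith
      have e1 : b = 0 := by nlinarith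
      linarith
    · exact h1 ⟨c, d⟩
    · exact h2 ⟨d, c⟩
    · have a1 := mul_nonneg ha c.le
      have a2 := mul_nonneg hb d.le
      have e0 : a = 0 := by nlinarith
      have e1 : b = 0 := by nlinarith
      linarith
  have hη2 : 0 < 2 * η := by positivity
  rw [← e, chi_eq_zero hT hη2, chi_eq_zero hT hη2, zero_smul, zero_smul]
  · rcases h3 with h3 | h3
    · exact (dv_le (j + 1) _).trans (by simp [h3, hη.le])
    · exact (dv_le (j + 2) _).trans (by simp [h3, hη.le])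
  · rcases h3 with h3 | h3
    · exact (dv_le (j + 1) _).trans (by simp [rel_sig_one, h3, hη.le])
    · exact (dv_le (j + 2) _).trans (by simp [rel_sig_two, h3, hη.le])

/-- The approximant. -/
noncomputable def ff (V : Fin 3 → ℂ) (T η : ℝ) (L : ℕ) (v : Phase → H) (F : H → H) (p : Phase) :
    H := ps V T (2 * η) L p • F (sa η (sa η v) (ret V p.1, p.2))

lemma bm_ff (h : Eqv V G v) (hV : area V ≠ 0) (hT : 0 < T) (hη : 0 < η) {F : H → H}
    (hF : Continuous F) {C : ℝ} (hC : ∀ w, ‖w‖ ≤ 1 → ‖F w‖ ≤ C) : BM (ff V T η L v F) := by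
  refine ⟨(measurable_ps hV).smul (hF.measurable.comp (((h.bm.sa hη).sa hη).meas.comp
    (measurable_retp hV))), C, fun p => ?_⟩
  rw [ff, norm_smul]
  exact (mul_le_of_le_one_left (norm_nonneg _) (abs_ps_le hV hT (by positivity) p)).trans
    (hC _ (h.bdd2 hη _))

lemma norm_U_sub (G : UGroup H) (τ : ℝ) (w : H) : ‖G.U τ w - w‖ ≤ 2 * ‖w‖ :=
  (norm_sub_le _ _).trans (by simp [two_mul])

theorem appx_ff (h : Eqv V G v) (hV : area V ≠ 0) (hL : 1 ≤ L) (hT : dm V ≤ T) (hT0 : 0 < T)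
    (hη : 0 < η) (h0 : 0 ≤ τ) (h1 : τ ≤ 1) : ∃ K R,
    Appx V G (ff V T η L v (G.tk τ)) (ff V T η L v fun w => G.U τ w - w) K R := by
  have hη2 : 0 < 2 * η := by positivity
  obtain ⟨K₁, l1⟩ := lip_ps hV hL hT hT0 hη2
  obtain ⟨K₂, l2⟩ := lip_ret hV
  have bd : ∀ p, ‖G.tk τ (sa η (sa η v) p)‖ ≤ 1 := fun p =>
    (G.norm_tk_le h0 h1 _).trans (h.bdd2 hη p)
  refine ⟨max (K₁ + (2 + 1 / η).toNNReal * K₂) 2, 2 * ∑ j, ‖V j‖,
    bm_ff h hV hT0 hη (G.tk τ).continuous fun w hw => (G.norm_tk_le h0 h1 _).trans hw,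
    bm_ff h hV hT0 hη (C := 2) (by fun_prop) fun w hw => (norm_U_sub G τ w).trans (by linarith),
    fun θ => ?_, fun p hp => ?_, fun θ => ?_, fun p => ?_, fun p t => ?_, fun j x hx => ?_⟩
  · exact (lip_smul (l1 θ) ((h.lip_hh hη h0 h1 θ).comp l2) (fun x => abs_ps_le hV hT0 hη2 _)
      fun x => bd _).weaken (le_max_left _ _)
  · simp [ff, ps, cut_eq_zero hV hp]
  · filter_upwards [(l1 θ).ae_differentiableAt (μ := volume), l2.ae_differentiableAt (μ := volume)]
      with x a b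
    obtain ⟨L, hL, -⟩ := h.fderiv_hh (τ := τ) hη (ret V x) θ
    exact a.smul (hL.differentiableAt.comp x b)
  · have := (G.hasDerivAt_tk τ (sa η (sa η v) (ret V p.1, p.2)) 0).const_smul
      (ps V T (2 * η) L p)
    rw [G.zero] at this
    refine this.congr_of_eventuallyEq (Eventually.of_forall fun t => ?_)
    simp only [ff, ← Complex.coe_smul, map_smul, Pi.smul_apply]
  · have a := G.norm_U_tk_sub τ (sa η (sa η v) (ret V p.1, p.2)) t
    have b := h.bdd2 hη (ret V p.1, p.2)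
    have c := abs_ps_le (L := L) hV hT0 hη2 p
    simp only [ff, ← Complex.coe_smul, map_smul, ← smul_sub, norm_smul, norm_real,
      Real.norm_eq_abs]
    calc _ ≤ 1 * (2 * 1 * |t|) := by gcongr; exact a.trans (by gcongr)
      _ ≤ _ := by
        rw [one_mul, mul_one]; gcongr; exact_mod_cast le_max_right _ _
  · filter_upwards [compat (L := L) h hV hT0 hη (ret_segment hV hx) (G.tk τ)] with θ hθ
    simp only [ff, ps, mul_smul, hθ]

theorem bound_ff (h : Eqv V G v) (hV : area V ≠ 0) (hL : 1 ≤ L) (hT : dm V ≤ T) (hT0 : 0 < T)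
    (hη : 0 < η) (h0 : 0 ≤ τ) (h1 : τ ≤ 1) (θ : UnitAddCircle) :
    ∀ᵐ x, x ∈ interior (tri V) → ∀ D : ℂ →L[ℝ] H,
      HasFDerivAt (fun x => ff V T η L v (G.tk τ) (x, θ)) D x →
      ‖D (dir θ) + ff V T η L v (fun w => G.U τ w - w) (x, θ)‖ ≤ wt V T (2 * η) L (x, θ) / T ∧
      ‖D (I * dir θ)‖ ≤ wt V T (2 * η) L (x, θ) / η + ‖sd η v (x, θ)‖ := by
  have hη2 : 0 < 2 * η := by positivity
  obtain ⟨K₁, l1⟩ := lip_ps hV hL hT hT0 hη2
  filter_upwards [(l1 θ).ae_differentiableAt (μ := volume)] with x a hx D hD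
  obtain ⟨D', hD', e1, e2⟩ := h.fderiv_hh (τ := τ) hη x θ
  have hr : ∀ᶠ y in 𝓝 x, y ∈ tri V := mem_interior_iff_mem_nhds.1 hx
  have hD2 := (a.hasFDerivAt.smul hD').congr_of_eventuallyEq
    (f₁ := fun x => ff V T η L v (G.tk τ) (x, θ))
    (hr.mono fun y hy => by simp [ff, ret_of_mem hV hy])
  have b : ∀ z : ℂ, |fderiv ℝ (fun x => ps V T (2 * η) L (x, θ)) x (z * dir θ)| ≤
      wt V T (2 * η) L (x, θ) * (|z.re| / T + 2 * |z.im| / (2 * η)) := fun z => by
    refine chi_deriv hV hL hT hT0 hη2 (p := (x, θ)) hx z ?_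
    have c : HasDerivAt (fun s : ℝ => x + s * z * dir θ) (z * dir θ) 0 := by
      simpa [mul_assoc] using ((hasDerivAt_id (0 : ℝ)).ofReal_comp.mul_const
        (z * dir θ)).const_add x
    have d := a.hasFDerivAt.comp_hasDerivAt_of_eq 0 c (by simp)
    refine d.congr_of_eventuallyEq ?_
    filter_upwards [c.continuousAt.tendsto.eventually (show ∀ᶠ y in 𝓝 _, y ∈ tri V by simpa using hr)]
      with s hs
    exact (ps_of_mem hV (p := sh (s * z) (x, θ)) hs).symm
  have b1 := b 1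
  have b2 := b I
  have c1 := (G.norm_tk_le h0 h1 _).trans (h.bdd2 hη (x, θ))
  have c2 := G.norm_tk_le h0 h1 (sd η v (x, θ))
  have c3 := abs_ps_le (L := L) hV hT0 hη2 (x, θ)
  have c4 := wt_nonneg (V := V) (L := L) hT0 hη2 (x, θ)
  rw [hD.unique hD2]
  simp only [add_apply, smul_apply, ContinuousLinearMap.smulRight_apply, e1,
    e2, ff, ret_of_mem hV (interior_subset hx)]
  simp only [one_mul, one_re, one_im, abs_one, abs_zero, mul_zero, zero_div, add_zero, I_re, I_im,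
    zero_add, mul_one] at b1 b2
  constructor
  · rw [smul_neg, add_right_comm, neg_add_cancel, zero_add, norm_smul, Real.norm_eq_abs]
    calc _ ≤ wt V T (2 * η) L (x, θ) * (1 / T) * 1 := by gcongr
      _ = _ := by ring
  · refine (norm_add_le _ _).trans ?_
    rw [norm_smul, norm_smul, Real.norm_eq_abs, Real.norm_eq_abs]
    calc _ ≤ 1 * ‖sd η v (x, θ)‖ + wt V T (2 * η) L (x, θ) * (2 / (2 * η)) * 1 := by gcongr
      _ = _ := by field_simp; ring

end Vale.Agent.P099
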