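import Vale.Agent.P099.Cut

namespace Vale.Agent.P099

open MeasureTheory Set Complex Filter Topology
open scoped ComplexConjugate

variable {V : Fin 3 → ℂ} {T η : ℝ} {L : ℕ}

/-- Logarithmic cut-off near the vertices. -/
noncomputable def chi (V : Fin 3 → ℂ) (T η : ℝ) (L : ℕ) (p : Phase) : ℝ :=
  min 1 (Real.log (1 + rho V T η p) / L)

/-- Weight bounding the gradient of the cut-off. -/
noncomputable def wt (V : Fin 3 → ℂ) (T η : ℝ) (L : ℕ) (p : Phase) : ℝ :=
  if 1 + rho V T η p ≤ Real.exp L then 1 / (L * (1 + rho V T η p)) else 0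

lemma chi_nonneg (hT : 0 < T) (hη : 0 < η) (p : Phase) : 0 ≤ chi V T η L p :=
  le_min zero_le_one (div_nonneg (Real.log_nonneg (by linarith [rho_nonneg (V := V) hT hη p]))
    (Nat.cast_nonneg _))

lemma chi_le_one (p : Phase) : chi V T η L p ≤ 1 := min_le_left _ _

lemma chi_eq_zero (hT : 0 < T) (hη : 0 < η) {p : Phase} (h : dv V p ≤ η) : chi V T η L p = 0 := by
  simp [chi, rho_eq_zero hT hη h]

lemma measurable_chi : Measurable (chi V T η L) :=
  measurable_const.min ((measurable_const.add measurable_rho).log.div_const _)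

lemma measurable_wt : Measurable (wt V T η L) :=
  Measurable.ite (measurableSet_le (measurable_const.add measurable_rho) measurable_const)
    (measurable_const.div (measurable_const.mul (measurable_const.add measurable_rho)))
    measurable_const

lemma wt_nonneg (hT : 0 < T) (hη : 0 < η) (p : Phase) : 0 ≤ wt V T η L p := by
  have := rho_nonneg (V := V) hT hη p
  unfold wt; split_ifs <;> positivity

lemma wt_le_one (hL : 1 ≤ L) (hT : 0 < T) (hη : 0 < η) (p : Phase) : wt V T η L p ≤ 1 := by
  have := rho_nonneg (V := V) hT hη p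
  have hL' : (1 : ℝ) ≤ L := by exact_mod_cast hL
  unfold wt; split_ifs
  · rw [div_le_one (by positivity)]; nlinarith
  · exact zero_le_one

lemma abs_log_sub {a b : ℝ} (ha : 0 ≤ a) (hb : 0 ≤ b) :
    |Real.log (1 + a) - Real.log (1 + b)| ≤ |a - b| / (1 + min a b) := by
  wlog h : b ≤ a generalizing a b
  · rw [abs_sub_comm, abs_sub_comm a, min_comm]; exact this hb ha (not_le.1 h).le
  rw [min_eq_right h, abs_of_nonneg (sub_nonneg.2 h), abs_of_nonneg
    (sub_nonneg.2 (Real.log_le_log (by positivity) (by linarith))),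
    ← Real.log_div (by positivity) (by positivity)]
  refine (Real.log_le_sub_one_of_pos (by positivity)).trans (le_of_eq ?_)
  field_simp; ring

lemma abs_chi_sub (hT : 0 < T) (hη : 0 < η) (p q : Phase) :
    |chi V T η L p - chi V T η L q| ≤
      |rho V T η p - rho V T η q| / (1 + min (rho V T η p) (rho V T η q)) / L := by
  refine (abs_min_sub_min_le_max _ _ _ _).trans ?_
  rw [sub_self, abs_zero, max_eq_right (abs_nonneg _), ← sub_div, abs_div, Nat.abs_cast]
  gcongr
  exact abs_log_sub (rho_nonneg hT hη p) (rho_nonneg hT hη q)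

lemma sh_rel (x y : ℂ) (θ : UnitAddCircle) : sh ((y - x) * conj (dir θ)) (x, θ) = (y, θ) := by
  refine Prod.ext ?_ rfl
  simp only [sh]; linear_combination (y - x) * conj_mul_dir θ

lemma chi_lip (hV : area V ≠ 0) (hL : 1 ≤ L) (hT : dm V ≤ T) (hT0 : 0 < T) (hη : 0 < η)
    {x y : ℂ} (hx : x ∈ tri V) (hy : y ∈ tri V) (θ : UnitAddCircle) :
    |chi V T η L (y, θ) - chi V T η L (x, θ)| ≤ (1 / T + 2 / η) * ‖y - x‖ := by
  set z := (y - x) * conj (dir θ) with hz
  have hn : ‖z‖ = ‖y - x‖ := by simp [hz, norm_dir]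
  have h1 := abs_re_le_norm z
  have h2 := abs_im_le_norm z
  rw [← hn]
  by_cases h : |z.im| ≤ η
  · have h3 := abs_rho_sh hV hT hT0 hη (p := (x, θ)) hx (z := z) (by rwa [sh_rel]) h
    rw [sh_rel] at h3
    have hL' : (1 : ℝ) ≤ L := by exact_mod_cast hL
    have h4 := le_min (rho_nonneg (V := V) hT0 hη (y, θ)) (rho_nonneg (V := V) hT0 hη (x, θ))
    refine (abs_chi_sub hT0 hη _ _).trans ((div_le_self (by positivity) hL').trans
      ((div_le_self (by positivity) (by linarith)).trans (h3.trans ?_)))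
    calc _ ≤ ‖z‖ / T + 2 * ‖z‖ / η := by gcongr
      _ = _ := by ring
  · have a1 := chi_nonneg (V := V) (L := L) hT0 hη (y, θ)
    have a2 := chi_nonneg (V := V) (L := L) hT0 hη (x, θ)
    have a3 := chi_le_one (V := V) (L := L) (T := T) (η := η) (y, θ)
    have a4 := chi_le_one (V := V) (L := L) (T := T) (η := η) (x, θ)
    have a5 : 1 ≤ ‖z‖ / η := (one_le_div hη).2 (by linarith [not_le.1 h])
    have a6 : 0 ≤ ‖z‖ / T := by positivity
    calc _ ≤ 1 := abs_le.2 ⟨by linarith, by linarith⟩
      _ ≤ ‖z‖ / T + 2 * (‖z‖ / η) := by linarith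
      _ = _ := by ring

lemma chi_deriv (hV : area V ≠ 0) (hL : 1 ≤ L) (hT : dm V ≤ T) (hT0 : 0 < T) (hη : 0 < η)
    {p : Phase} (hp : p.1 ∈ interior (tri V)) (z : ℂ) {d : ℝ}
    (hd : HasDerivAt (fun s : ℝ => chi V T η L (sh (s * z) p)) d 0) :
    |d| ≤ wt V T η L p * (|z.re| / T + 2 * |z.im| / η) := by
  set c := |z.re| / T + 2 * |z.im| / η with hc
  have hL' : (0 : ℝ) < L := by exact_mod_cast hL
  have hr := rho_nonneg (V := V) hT0 hη p
  have h1 : ∀ᶠ s : ℝ in 𝓝 0, |rho V T η (sh (s * z) p) - rho V T η p| ≤ |s| * c := by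
    have a1 : ContinuousAt (fun s : ℝ => (sh (s * z) p).1) 0 := by unfold sh; fun_prop
    have a2 : ContinuousAt (fun s : ℝ => |((s : ℂ) * z).im|) 0 := by fun_prop
    filter_upwards [a1.eventually (isOpen_interior.mem_nhds (by simpa using hp)),
      a2.eventually (gt_mem_nhds (by simpa using hη))] with s h1 h2
    refine (abs_rho_sh hV hT hT0 hη (interior_subset hp) (interior_subset h1) h2.le).trans
      (le_of_eq ?_)
    simp [hc, abs_mul]; ring
  have h2 : Tendsto (fun s : ℝ => rho V T η (sh (s * z) p)) (𝓝 0) (𝓝 (rho V T η p)) := by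
    rw [tendsto_iff_norm_sub_tendsto_zero]
    refine squeeze_zero' (Eventually.of_forall fun _ => norm_nonneg _) h1 ?_
    have : Continuous fun s : ℝ => |s| * c := by fun_prop
    simpa using this.tendsto 0
  unfold wt
  split_ifs with h
  · have h3 := (hasDerivAt_iff_tendsto_slope_zero.1 hd).abs
    have h4 : Tendsto (fun s : ℝ => c / (1 + min (rho V T η (sh (s * z) p)) (rho V T η p)) / L)
        (𝓝[≠] 0) (𝓝 (c / (1 + min (rho V T η p) (rho V T η p)) / L)) :=
      ((tendsto_const_nhds.div ((h2.min tendsto_const_nhds).const_add 1)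
        (by simp only [min_self]; positivity)).div_const _).mono_left nhdsWithin_le_nhds
    refine (le_of_tendsto_of_tendsto h3 h4 ?_).trans (le_of_eq (by simp; field_simp))
    filter_upwards [h1.filter_mono nhdsWithin_le_nhds, self_mem_nhdsWithin] with s h1 hs
    have hs' : 0 < |s| := abs_pos.2 hs
    have h5 := le_min (rho_nonneg (V := V) hT0 hη (sh (s * z) p)) hr
    simp only [zero_add, ofReal_zero, zero_mul, sh_zero, smul_eq_mul, abs_mul, abs_inv]
    rw [inv_mul_le_iff₀ hs']
    refine (abs_chi_sub hT0 hη _ _).trans ?_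
    calc _ ≤ |s| * c / (1 + min (rho V T η (sh (s * z) p)) (rho V T η p)) / L := by gcongr
      _ = _ := by ring
  · have h3 : (fun s : ℝ => chi V T η L (sh (s * z) p)) =ᶠ[𝓝 0] fun _ => 1 := by
      filter_upwards [(h2.const_add 1).eventually (lt_mem_nhds (not_le.1 h))] with s hs
      refine min_eq_left ((one_le_div hL').2 ?_)
      rw [Real.le_log_iff_exp_le ((Real.exp_pos _).trans hs)]; exact hs.le
    rw [(hd.congr_of_eventuallyEq h3.symm).unique (hasDerivAt_const _ _)]
    simp

lemma integral_indicator_le (hV : area V ≠ 0) (hT : dm V ≤ T) (hT0 : 0 < T) (hη : 0 < η) {a : ℝ}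
    (ha : 0 ≤ a) : ∫ p, {p | rho V T η p < Real.exp a - 1}.indicator (fun _ => (1 : ℝ)) p ∂mq V ≤
      48 * Real.exp a ^ 2 * (T * η) := by
  rw [integral_indicator_const _ (measurableSet_lt measurable_rho measurable_const), smul_eq_mul,
    mul_one]
  simpa using measure_rho hV hT hT0 hη (l := Real.exp a - 1) (by simpa using ha)

lemma integrable_ind (a : ℝ) :
    Integrable ({p | rho V T η p < a}.indicator (fun _ => (1 : ℝ))) (mq V) :=
  (integrable_const _).indicator (measurableSet_lt measurable_rho measurable_const)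

lemma integral_one_sub_chi (hV : area V ≠ 0) (hL : 1 ≤ L) (hT : dm V ≤ T) (hT0 : 0 < T)
    (hη : 0 < η) : ∫ p, (1 - chi V T η L p) ∂mq V ≤ 48 * Real.exp L ^ 2 * (T * η) := by
  refine le_trans (integral_mono_of_nonneg (Eventually.of_forall fun p =>
    sub_nonneg.2 (chi_le_one p)) (integrable_ind _) (Eventually.of_forall fun p => ?_))
    (integral_indicator_le hV hT hT0 hη (Nat.cast_nonneg L))
  have hL' : (0 : ℝ) < L := by exact_mod_cast hL
  by_cases h : rho V T η p < Real.exp L - 1
  · simp [h, chi_nonneg hT0 hη]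
  · have : chi V T η L p = 1 := by
      refine min_eq_left ((one_le_div hL').2 ?_)
      rw [Real.le_log_iff_exp_le (by linarith [rho_nonneg (V := V) hT0 hη p])]; linarith
    simp [h, this]

lemma integral_wt_sq (hV : area V ≠ 0) (hL : 1 ≤ L) (hT : dm V ≤ T) (hT0 : 0 < T) (hη : 0 < η) :
    ∫ p, wt V T η L p ^ 2 ∂mq V ≤ 96 * Real.exp 1 ^ 2 * (T * η) / L := by
  have hL' : (1 : ℝ) ≤ L := by exact_mod_cast hL
  have h1 : ∀ p, wt V T η L p ^ 2 ≤ ∑ i ∈ Finset.range (L + 1), (1 / (L * Real.exp i)) ^ 2 *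
      {p | rho V T η p < Real.exp (i + 1) - 1}.indicator (fun _ => (1 : ℝ)) p := by
    intro p
    have hr := rho_nonneg (V := V) hT0 hη p
    have hn : ∀ i ∈ Finset.range (L + 1), 0 ≤ (1 / (L * Real.exp i)) ^ 2 *
        {p | rho V T η p < Real.exp (i + 1) - 1}.indicator (fun _ => (1 : ℝ)) p := fun i _ =>
      mul_nonneg (by positivity) (indicator_nonneg (fun _ _ => zero_le_one) _)
    unfold wt
    split_ifs with h
    · have h0 : 0 ≤ Real.log (1 + rho V T η p) := Real.log_nonneg (by linarith)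
      have h2 : ⌊Real.log (1 + rho V T η p)⌋₊ ∈ Finset.range (L + 1) := by
        rw [Finset.mem_range, Nat.lt_succ_iff]
        exact Nat.floor_le_of_le ((Real.log_le_iff_le_exp (by linarith)).2 h)
      refine le_trans ?_ (Finset.single_le_sum hn h2)
      have h3 := (Real.log_lt_iff_lt_exp (by linarith)).1
        (Nat.lt_floor_add_one (Real.log (1 + rho V T η p)))
      have h4 := (Real.le_log_iff_exp_le (by linarith)).1 (Nat.floor_le h0)
      rw [indicator_of_mem (by simp only [mem_ofPred_eq]; linarith), mul_one]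
      gcongr
    · simpa using Finset.sum_nonneg hn
  refine le_trans (integral_mono_of_nonneg (Eventually.of_forall fun p => sq_nonneg _)
    (integrable_finsetSum _ fun i _ => (integrable_ind _).const_mul _)
    (Eventually.of_forall h1)) ?_
  rw [integral_finsetSum _ fun i _ => (integrable_ind _).const_mul _]
  have h2 : ∀ i ∈ Finset.range (L + 1), ∫ p, (1 / (L * Real.exp i)) ^ 2 *
      {p | rho V T η p < Real.exp (i + 1) - 1}.indicator (fun _ => (1 : ℝ)) p ∂mq V ≤
      48 * Real.exp 1 ^ 2 * (T * η) / L ^ 2 := by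
    intro i _
    rw [integral_const_mul]
    refine (mul_le_mul_of_nonneg_left (integral_indicator_le hV hT hT0 hη (by positivity))
      (by positivity)).trans (le_of_eq ?_)
    rw [Real.exp_add]; field_simp
  refine (Finset.sum_le_sum h2).trans ?_
  rw [Finset.sum_const, Finset.card_range, nsmul_eq_mul]
  calc _ ≤ (2 * L : ℝ) * (48 * Real.exp 1 ^ 2 * (T * η) / L ^ 2) := by
        gcongr; push_cast; linarith
    _ = _ := by field_simp; ring

end Vale.Agent.P099
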