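import Vale.Agent.P099.Limit

namespace Vale.Agent.P099

open MeasureTheory Set Complex Filter Topology
open scoped ComplexConjugate InnerProductSpace NNReal Interval EuclideanGeometry

set_option linter.unusedSectionVars false

variable {H : Type*} [NormedAddCommGroup H] [InnerProductSpace ℂ H] [CompleteSpace H]
  [MeasurableSpace H] [BorelSpace H] [SecondCountableTopology H]

variable {V : Fin 3 → ℂ} {G : UGroup H} {v : Phase → H} {τ : ℝ}

lemma Eqv.tk (h : Eqv V G v) (h0 : 0 ≤ τ) (h1 : τ ≤ 1) : Eqv V G fun p => G.tk τ (v p) where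
  meas := (h.bm_tk h0 h1).meas
  bdd p := (G.norm_tk_le h0 h1 _).trans (h.bdd p)
  mv t p := by rw [h.mv, G.U_tk]
  rf := h.rf.mono fun p hp j hj => by rw [hp j hj]

lemma dir_only (hV : area V ≠ 0) {w : Phase → H} (bw : BM w) (h : ∀ k a,
    ∫ x in interior (tri V) ∩ {x | x + a ∈ interior (tri V)}, ‖md w k (x + a) - md w k x‖ = 0) :
    ∃ c : UnitAddCircle → H, Measurable c ∧ ∀ᵐ p ∂nu, p ∈ DD V → w p = c p.2 := by
  have mQ : MeasurableSet (interior (tri V)) := isOpen_interior.measurableSet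
  have h1 : ∀ k a, ∀ᵐ x, x ∈ interior (tri V) → x + a ∈ interior (tri V) →
      md w k (x + a) = md w k x := fun k a => by
    have fin : IsFiniteMeasure (volume.restrict
        (interior (tri V) ∩ {x | x + a ∈ interior (tri V)})) :=
      isFiniteMeasure_restrict.2 (ne_top_of_le_ne_top vol_fin (measure_mono inter_subset_left))
    have i1 : Integrable (fun x => ‖md w k (x + a) - md w k x‖)
        (volume.restrict (interior (tri V) ∩ {x | x + a ∈ interior (tri V)})) :=
      ((((bw.md k).comp (measurable_add_const a)).sub (bw.md k)).integrable _).norm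
    filter_upwards [(ae_restrict_iff' (mQ.inter (measurable_add_const a mQ))).1
      ((integral_eq_zero_iff_of_nonneg (fun _ => norm_nonneg _) i1).1 (h k a))] with x hx a1 a2
    simpa [sub_eq_zero] using hx ⟨a1, a2⟩
  have h2 : ∀ k, ∀ᵐ x, ∀ᵐ a, x ∈ interior (tri V) → x + a ∈ interior (tri V) →
      md w k (x + a) = md w k x := fun k => by
    refine (Measure.ae_ae_comm ?_).2 (Eventually.of_forall (h1 k))
    have m := (bw.md k).meas
    exact MeasurableSet.imp (measurable_fst mQ) (MeasurableSet.imp (measurable_add mQ)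
      (measurableSet_eq_fun (m.comp measurable_add) (m.comp measurable_fst)))
  obtain ⟨x, hx, h3⟩ := Measure.exists_mem_of_measure_ne_zero_of_ae (vol_pos hV)
    (ae_restrict_of_ae (ae_all_iff.2 h2))
  have h4 : ∀ᵐ y, y ∈ interior (tri V) → ∀ᵐ θ ∂hr, w (y, θ) = w (x, θ) := by
    filter_upwards [(measurePreserving_sub_right volume x).quasiMeasurePreserving.ae
      (ae_all_iff.2 h3)] with y hy hy'
    simp only [add_sub_cancel] at hy
    have := ae_eq_zero_of_coeff (((bw.slice y).sub (bw.slice x)).memLp hr) fun k => by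
      have e1 := md_sub bw (bw.comp (g := fun p : Phase => (x, p.2)) (by fun_prop)) k y
      exact e1.trans (sub_eq_zero.2 (hy k hx hy'))
    exact this.mono fun θ hθ => sub_eq_zero.1 hθ
  refine ⟨fun θ => w (x, θ), (bw.slice x).meas, ?_⟩
  have h5 : ∀ᵐ p ∂nu, p.1 ∈ interior (tri V) → w p = w (x, p.2) := by
    refine (Measure.ae_prod_iff_ae_ae (MeasurableSet.imp (measurable_fst mQ)
      (measurableSet_eq_fun bw.meas (bw.meas.comp (by fun_prop))))).2 ?_
    filter_upwards [h4] with y hy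
    by_cases h : y ∈ interior (tri V)
    · exact (hy h).mono fun θ hθ _ => hθ
    · exact Eventually.of_forall fun θ hθ => absurd hθ h
  filter_upwards [h5, ae_dd_iff hV] with p a b hp using a (b.1 hp)

lemma fixed_of_small {w : H} {ε : ℝ} (hε : 0 < ε)
    (h : ∀ t : ℚ, 0 ≤ (t : ℝ) → t < ε → G.U (-t) w = w) {t : ℚ} (ht : 0 ≤ (t : ℝ)) :
    G.U (-t) w = w := by
  obtain ⟨n, hn⟩ := exists_nat_gt (t / ε)
  have hn0 : (0 : ℝ) < n := lt_of_le_of_lt (by positivity) hn
  have h1 := h (t / n) (by push_cast; positivity) (by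
    push_cast; rw [div_lt_iff₀ hn0]; rw [div_lt_iff₀ hε] at hn; linarith)
  have h2 : ∀ k : ℕ, G.U (-(k * (t / n : ℚ))) w = w := fun k => by
    induction k with
    | zero => simp [G.zero]
    | succ k ih => rw [Nat.cast_succ, add_mul, one_mul, neg_add, ← G.add, h1, ih]
  have := h2 n
  push_cast at this
  rwa [mul_div_cancel₀ _ hn0.ne'] at this

lemma move_mem_dd {p : Phase} (h : p ∈ GG V) {t : ℝ} (h1 : -bb V (rev p) ≤ t) (h2 : t < bb V p) :
    move t p ∈ DD V := by
  obtain ⟨⟨i, hi⟩, j, hj⟩ := GG.cr h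
  refine ⟨move_mem_gg.2 h, ?_, ?_⟩
  · rw [rev_move, hj.bb_move]; linarith
  · rw [hi.bb_move]; linarith

lemma dir_injective : Function.Injective dir := fun _ _ h =>
  AddCircle.injective_toCircle one_ne_zero (Subtype.ext h)

lemma side_ne (hV : area V ≠ 0) (j : Fin 3) : V (j + 2) - V (j + 1) ≠ 0 := by
  intro h
  have h1 := lam_self hV (j + 1)
  have h2 := lam_two (V := V) (j + 2)
  have h3 := lam_one (V := V) (j + 1)
  rw [(f3 j).1, sub_eq_zero.1 h] at h3
  rw [h3] at h1; simp at h1

lemma mirror_inv (h : Eqv V G v) (hV : area V ≠ 0) {c : UnitAddCircle → H}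
    (hc : ∀ᵐ p ∂nu, p ∈ DD V → v p = c p.2) (j : Fin 3) :
    ∀ᵐ θ ∂hr, c (mirror V j θ) = c θ := by
  have h1 : ∀ᵐ p ∂nu, p.1 ∈ interior (tri V) → Ex V j p → c (mirror V j p.2) = c p.2 := by
    filter_upwards [ae_all_iff.2 fun t : ℚ => (mp_move t).quasiMeasurePreserving.ae hc,
      ae_all_iff.2 fun t : ℚ => ((mp_move t).comp (mp_sig (V := V) j)).quasiMeasurePreserving.ae hc,
      hc, h.rf, ae_dd_iff hV] with p a1 a2 a3 a4 a5 hp hj
    have hd := a5.2 hp
    have hg := GG.gam_mem hd.1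
    obtain ⟨t, t1, t2⟩ := exists_rat_btwn ((GG.cr hd.1).bb_lt hV (GG.cr hg))
    have b1 := move_mem_dd hg (by rw [hj.bb_rev_gam, neg_neg]; exact t1.le) t2
    rw [hj.gam_eq] at b1
    have b2 := a2 t b1
    simp only [Function.comp, h.mv, a4 j hj, a3 hd] at b2
    rw [fixed_of_small hd.2.2 (fun s s0 s1 => ?_) (hd.2.2.trans t1).le] at b2
    · exact b2.symm
    · have := a1 s (move_mem_dd hd.1 (by linarith [hd.2.1]) s1)
      rwa [h.mv, a3 hd] at this
  obtain ⟨m, hm⟩ : ∃ m : ℂ, m = (1 / 2 : ℝ) • V (j + 1) + (1 / 2 : ℝ) • V (j + 2) := ⟨_, rfl⟩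
  have ms : m ∈ openSegment ℝ (V (j + 1)) (V (j + 2)) :=
    ⟨1 / 2, 1 / 2, by norm_num, by norm_num, by norm_num, hm.symm⟩
  have h2 : ∀ᵐ θ ∂hr, Ex V j (m, θ) → c (mirror V j θ) = c θ := by
    filter_upwards [Measure.ae_ae_of_ae_prod
      (Measure.measurePreserving_swap.quasiMeasurePreserving.ae h1)] with θ hθ he
    have o : IsOpen {x | Ex V j (x, θ)} := (isOpen_ex j).preimage (Continuous.prodMk_left θ)
    have cl : m ∈ closure (interior (tri V)) := by
      rw [convex_tri.closure_interior_eq_closure_of_nonempty_interior (interior_tri_nonempty hV)]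
      exact subset_closure (side_subset j ms)
    obtain ⟨x, hx, hx'⟩ := Measure.exists_mem_of_measure_ne_zero_of_ae
      ((o.inter isOpen_interior).measure_pos volume (mem_closure_iff.1 cl _ o he)).ne'
      (ae_restrict_of_ae hθ)
    exact hx' hx.2 hx.1
  have e : ∀ θ, sig V j (m, θ) = (m, mirror V j θ) := fun θ =>
    Prod.ext (rf_segment (openSegment_subset_segment _ _ _ ms)) rfl
  filter_upwards [h2, (mp_mirror (V := V) j).quasiMeasurePreserving.ae h2] with θ a1 a2
  have r1 : (rel V (j + 1) (m, θ)).im = -(rel V (j + 2) (m, θ)).im := by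
    simp [rel, hm]; ring
  rcases lt_trichotomy (area V * (rel V (j + 2) (m, θ)).im) 0 with h0 | h0 | h0
  · have : mirror V j (mirror V j θ) = θ := by simp [mirror]
    rw [← e, ex_sig, this] at a2
    exact (a2 ⟨h0, by rw [r1]; linarith⟩).symm
  · congr 1
    refine dir_injective (mul_right_cancel₀ (side_ne hV j) ?_)
    have r2 : (V (j + 2) - V (j + 1)) * conj (dir θ) = 2 * rel V (j + 2) (m, θ) := by
      simp only [rel, hm, real_smul]; push_cast; ring
    have r3 : conj (rel V (j + 2) (m, θ)) = rel V (j + 2) (m, θ) :=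
      conj_eq_iff_im.2 ((mul_eq_zero.1 h0).resolve_left hV)
    have r4 := congrArg conj r2
    simp only [map_mul, conj_conj, r3, map_ofNat] at r4
    rw [dir_mirror]
    linear_combination dir (ang V j) * (r2 - r4) + dir θ * ang_mul_conj (V := V) j
  · exact a1 ⟨by rw [r1]; linarith, h0⟩

lemma arg_mul_conj (w : ℂ) : dir ((arg w / Real.pi : ℝ) : UnitAddCircle) * conj w = w := by
  simpa [ang] using ang_mul_conj (V := fun i => if i = 2 then w else 0) 0

lemma ergodic_rot (hV : area V ≠ 0) {j : Fin 3}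
    (h : Irrational (∠ (V (j + 1)) (V j) (V (j + 2)) / Real.pi)) :
    Ergodic (ang V (j + 2) - ang V (j + 1) + ·) hr := by
  have ha := side_ne hV (j + 2)
  have hb := side_ne hV (j + 1)
  have ea := ang_mul_conj (V := V) (j + 2)
  have eb := ang_mul_conj (V := V) (j + 1)
  simp only [f3] at ha hb ea eb
  have hb' : V (j + 2) - V j ≠ 0 := by rwa [← neg_sub, neg_ne_zero]
  have e : ang V (j + 2) - ang V (j + 1) =
      ((arg ((V (j + 1) - V j) / (V (j + 2) - V j)) / Real.pi : ℝ) : UnitAddCircle) := by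
    refine dir_injective ?_
    have ec := arg_mul_conj ((V (j + 1) - V j) / (V (j + 2) - V j))
    have ed := congrArg conj eb
    rw [← neg_sub (V (j + 2))] at ed
    simp only [map_mul, conj_conj, map_div₀, map_neg] at ec ed
    rw [dir_sub]
    generalize V (j + 1) - V j = a at *
    generalize V (j + 2) - V j = b at *
    have ha' : conj a ≠ 0 := by simpa using ha
    have hb'' : conj b ≠ 0 := by simpa using hb'
    field_simp at ec
    refine mul_right_cancel₀ (mul_ne_zero ha' hb') ?_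
    linear_combination -ec - dir (ang V (j + 2)) * conj a * ed + conj b * ea
  rw [← volume_eq_hr, AddCircle.ergodic_add_left, addOrderOf_eq_zero_iff, e,
    AddCircle.isOfFinAddOrder_iff_exists_rat_eq_div]
  rintro ⟨q, hq⟩
  refine h ⟨|q|, ?_⟩
  rw [EuclideanGeometry.angle, vsub_eq_sub, vsub_eq_sub, angle_eq_abs_arg ha hb', Rat.cast_abs, hq,
    div_one, abs_div, abs_of_pos Real.pi_pos]

theorem Eqv.const (h : Eqv V G v) (hV : area V ≠ 0) {j : Fin 3}
    (hj : Irrational (∠ (V (j + 1)) (V j) (V (j + 2)) / Real.pi)) :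
    ∃ c, ∀ᵐ p ∂liouville V, v p = c := by
  have key : ∀ n : ℕ, ∃ c, ∀ᵐ p ∂nu, p ∈ DD V → G.tk (1 / (n + 1)) (v p) = c := fun n => by
    have h0 : (0 : ℝ) ≤ 1 / (n + 1) := by positivity
    have h1 : (1 : ℝ) / (n + 1) ≤ 1 := (div_le_one (by positivity)).2 (by simp)
    obtain ⟨c, mc, hc⟩ := dir_only hV (h.bm_tk h0 h1) (translate_zero h hV h0 h1)
    have h2 := mirror_inv (h.tk h0 h1) hV hc
    obtain ⟨d, hd⟩ := (ergodic_rot hV hj).ae_eq_const_of_ae_eq_comp_ae mc.aestronglyMeasurable (by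
      filter_upwards [h2 (j + 1), (mp_mirror (V := V) (j + 1)).quasiMeasurePreserving.ae
        (h2 (j + 2))] with θ a b
      rw [← a, ← b]; simp only [Function.comp, mirror_eq]; congr 1; abel)
    refine ⟨d, ?_⟩
    filter_upwards [hc, Measure.quasiMeasurePreserving_snd.ae hd] with p a b hp
    exact (a hp).trans b
  choose c hc using key
  have := isProb_liouville hV
  have h1 := ae_all_iff.2 fun n => (ae_liouville hV).2 (hc n)
  obtain ⟨q, hq⟩ := h1.exists
  refine ⟨v q, h1.mono fun p hp => tendsto_nhds_unique (G.tendsto_tk _) ?_⟩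
  simpa only [hp, hq] using G.tendsto_tk (v q)

end Vale.Agent.P099
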