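import Vale.Agent.P099.Flow

namespace Vale.Agent.P099

open MeasureTheory Set Complex Filter Topology
open scoped ComplexConjugate

variable {V : Fin 3 → ℂ} {T η : ℝ}

/-- Distance from the line of `p` to the nearest vertex. -/
noncomputable def dv (V : Fin 3 → ℂ) (p : Phase) : ℝ :=
  min |(rel V 0 p).im| (min |(rel V 1 p).im| |(rel V 2 p).im|)

lemma dv_le (i : Fin 3) (p : Phase) : dv V p ≤ |(rel V i p).im| := by
  fin_cases i <;> simp [dv]

lemma exists_dv (p : Phase) : ∃ i, dv V p = |(rel V i p).im| := by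
  unfold dv
  rcases min_choice |(rel V 0 p).im| (min |(rel V 1 p).im| |(rel V 2 p).im|) with h | h
  · exact ⟨0, h⟩
  · rcases min_choice |(rel V 1 p).im| |(rel V 2 p).im| with h' | h'
    · exact ⟨1, h.trans h'⟩
    · exact ⟨2, h.trans h'⟩

lemma dv_sh (z : ℂ) (p : Phase) : dv V (sh z p) ≤ dv V p + |z.im| := by
  obtain ⟨i, hi⟩ := exists_dv (V := V) p
  refine (dv_le i _).trans ?_
  rw [hi, rel_sh, sub_im]; exact abs_sub _ _

lemma dv_rev (p : Phase) : dv V (rev p) = dv V p := by simp [dv, rel_rev]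

lemma continuous_dv : Continuous (dv V) := by unfold dv; fun_prop

/-- Running maximum of the collision times. -/
noncomputable def tt (V : Fin 3 → ℂ) (p : Phase) : ℕ → ℝ
  | 0 => 0
  | n + 1 => max (tt V p n) (bb V ((gam V)^[n] p))

lemma tt_mono (p : Phase) : Monotone (tt V p) :=
  monotone_nat_of_le_succ fun _ => le_max_left _ _

lemma tt_nonneg (p : Phase) (n : ℕ) : 0 ≤ tt V p n := tt_mono p (Nat.zero_le n)

lemma measurable_tt (n : ℕ) : Measurable fun p => tt V p n := by
  induction n with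
  | zero => exact measurable_const
  | succ n ih => exact ih.max (measurable_bb.comp (measurable_gam.iterate n))

lemma tt_gam {p : Phase} (h : bb V p = 0) (n : ℕ) : tt V p (n + 1) = tt V (gam V p) n := by
  induction n with
  | zero => simp [tt, h]
  | succ n ih => rw [tt, ih]; rfl

/-- Anisotropic cost of the `n`-th chord. -/
noncomputable def term (V : Fin 3 → ℂ) (T η : ℝ) (p : Phase) (n : ℕ) : ℝ :=
  tt V p n / T + max (dv V ((gam V)^[n] p) - η) 0 / η

/-- Forward anisotropic distance to the vertices. -/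
noncomputable def rp (V : Fin 3 → ℂ) (T η : ℝ) (p : Phase) : ℝ := ⨅ n, term V T η p n

/-- Anisotropic distance to the vertices. -/
noncomputable def rho (V : Fin 3 → ℂ) (T η : ℝ) (p : Phase) : ℝ :=
  min (rp V T η p) (rp V T η (rev p))

lemma term_nonneg (hT : 0 < T) (hη : 0 < η) (p : Phase) (n : ℕ) : 0 ≤ term V T η p n :=
  add_nonneg (div_nonneg (tt_nonneg _ _) hT.le) (div_nonneg (le_max_right _ _) hη.le)

lemma rp_le (hT : 0 < T) (hη : 0 < η) (p : Phase) (n : ℕ) : rp V T η p ≤ term V T η p n :=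
  ciInf_le ⟨0, by rintro _ ⟨n, rfl⟩; exact term_nonneg hT hη p n⟩ n

lemma rp_nonneg (hT : 0 < T) (hη : 0 < η) (p : Phase) : 0 ≤ rp V T η p :=
  le_ciInf (term_nonneg hT hη p)

lemma rho_nonneg (hT : 0 < T) (hη : 0 < η) (p : Phase) : 0 ≤ rho V T η p :=
  le_min (rp_nonneg hT hη _) (rp_nonneg hT hη _)

lemma rho_eq_zero (hT : 0 < T) (hη : 0 < η) {p : Phase} (h : dv V p ≤ η) : rho V T η p = 0 := by
  refine le_antisymm ((min_le_left _ _).trans ((rp_le hT hη p 0).trans ?_)) (rho_nonneg hT hη p)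
  simp [term, tt, max_eq_right (sub_nonpos.2 h)]

lemma measurable_rp : Measurable (rp V T η) := by
  refine Measurable.iInf fun n => ?_
  have h1 := measurable_tt (V := V) n
  have h2 := (continuous_dv (V := V)).measurable.comp ((measurable_gam (V := V)).iterate n)
  exact (h1.div_const _).add (((h2.sub_const _).max measurable_const).div_const _)

lemma measurable_rho : Measurable (rho V T η) :=
  measurable_rp.min (measurable_rp.comp mp_rev.measurable)

lemma norm_rel (i : Fin 3) (p : Phase) : ‖rel V i p‖ = ‖V i - p.1‖ := by simp [rel, norm_dir]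

lemma Ex.sh (hη : 0 < η) {j : Fin 3} {p : Phase} (h : Ex V j p) (hd : η < dv V p) {z : ℂ}
    (hz : |z.im| ≤ η) :
    Ex V j (sh z p) ∧ cr V j (sh z p) ≤ cr V j p + (|z.re| + |z.im| * (dm V / η)) := by
  have h1 := hd.trans_le (dv_le (j + 1) p)
  have h2 := hd.trans_le (dv_le (j + 2) p)
  have h3 : |(rel V (j + 2) p).re - (rel V (j + 1) p).re| ≤ dm V := by
    rw [← sub_re]
    refine (abs_re_le_norm _).trans ?_
    have : rel V (j + 2) p - rel V (j + 1) p = (V (j + 2) - V (j + 1)) * conj (dir p.2) := by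
      simp [rel]; ring
    rw [this, norm_mul, norm_conj, norm_dir, mul_one]
    exact norm_sub_le_dm (mem_tri_vertex _) (mem_tri_vertex _)
  have hd := h.den_ne
  obtain ⟨ha, hb⟩ := h
  simp only [Ex, cr, rel_sh, cross, sub_re, sub_im] at *
  generalize (rel V (j + 1) p).re = a at *
  generalize (rel V (j + 1) p).im = b at *
  generalize (rel V (j + 2) p).re = c at *
  generalize (rel V (j + 2) p).im = d at *
  generalize area V = A at *
  obtain ⟨z1, z2⟩ := abs_le.1 hz
  have h4 : η ≤ |d - b| ∧ A * (b - z.im) < 0 ∧ 0 < A * (d - z.im) := by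
    rcases lt_trichotomy A 0 with h0 | h0 | h0
    · have hb' : 0 < b := by nlinarith
      have hd' : d < 0 := by nlinarith
      rw [abs_of_pos hb'] at h1; rw [abs_of_neg hd'] at h2
      rw [abs_of_neg (by linarith)]
      exact ⟨by linarith, by nlinarith, by nlinarith⟩
    · simp [h0] at ha
    · have hb' : b < 0 := by nlinarith
      have hd' : 0 < d := by nlinarith
      rw [abs_of_neg hb'] at h1; rw [abs_of_pos hd'] at h2
      rw [abs_of_pos (by linarith)]
      exact ⟨by linarith, by nlinarith, by nlinarith⟩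
  refine ⟨h4.2, ?_⟩
  have h5 : ((a - z.re) * (d - z.im) - (b - z.im) * (c - z.re)) / (d - z.im - (b - z.im)) =
      (a * d - b * c) / (d - b) + (-z.re + z.im * ((c - a) / (d - b))) := by
    rw [show d - z.im - (b - z.im) = d - b by ring]; field_simp; ring
  rw [h5]
  refine add_le_add le_rfl (add_le_add (neg_le_abs _) ((le_abs_self _).trans ?_))
  rw [abs_mul, abs_div]
  gcongr
  · exact dm_nonneg
  · exact h4.1

lemma rp_sh (hV : area V ≠ 0) (hT : 0 < T) (hη : 0 < η) {p : Phase} (hp : p.1 ∈ tri V) {z : ℂ}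
    (hz : |z.im| ≤ η) :
    rp V T η (sh z p) ≤ rp V T η p + ((|z.re| + |z.im| * (dm V / η)) / T + |z.im| / η) := by
  set σ := |z.re| + |z.im| * (dm V / η) with hσ
  have hσ0 : 0 ≤ σ := by have := dm_nonneg (V := V); positivity
  let Al : ℕ → Prop := fun m => (∃ w : ℂ, w.re = z.re ∧ |w.im| = |z.im| ∧
    (gam V)^[m] (sh z p) = sh w ((gam V)^[m] p)) ∧ tt V (sh z p) m ≤ tt V p m + σ ∧
    (Nv V ((gam V)^[m] p) → Cr V ((gam V)^[m] p))
  have h1 : ∀ n, (∃ m ≤ n, dv V ((gam V)^[m] p) ≤ η ∧ Al m) ∨ Al n := by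
    intro n
    induction n with
    | zero => exact Or.inr ⟨⟨z, rfl, rfl, rfl⟩, by simpa [tt] using hσ0, cr_of_mem hV hp⟩
    | succ n ih =>
      rcases ih with ⟨m, hm, h⟩ | ih
      · exact Or.inl ⟨m, by omega, h⟩
      by_cases hd : dv V ((gam V)^[n] p) ≤ η
      · exact Or.inl ⟨n, by omega, hd, ih⟩
      obtain ⟨⟨w, w1, w2, w3⟩, h2, h3⟩ := ih
      push Not at hd
      obtain ⟨j, hj⟩ := (h3 fun i => abs_pos.1 (hη.trans (hd.trans_le (dv_le i _)))).1
      obtain ⟨h4, h5⟩ := hj.sh hη hd (z := w) (by rwa [w2])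
      refine Or.inr ⟨⟨conj w, by simpa using w1, by simpa using w2, ?_⟩, ?_, ?_⟩
      · rw [Function.iterate_succ_apply', Function.iterate_succ_apply', w3, h4.gam_eq, hj.gam_eq,
          sig_sh]
      · rw [tt, tt, w3, h4.bb_eq, hj.bb_eq, ← max_add_add_right]
        rw [w1, w2] at h5
        exact max_le_max h2 h5
      · rw [Function.iterate_succ_apply', hj.gam_eq]
        exact (en_sig.2 hj).cr_of_nv hV
  have h2 : ∀ m, Al m → rp V T η (sh z p) ≤ term V T η p m + (σ / T + |z.im| / η) := by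
    rintro m ⟨⟨w, -, w2, w3⟩, h2, -⟩
    refine (rp_le hT hη _ m).trans ?_
    have h3 := dv_sh (V := V) w ((gam V)^[m] p)
    have h4 : max (dv V (sh w ((gam V)^[m] p)) - η) 0 ≤
        max (dv V ((gam V)^[m] p) - η) 0 + |z.im| :=
      max_le (by linarith [le_max_left (dv V ((gam V)^[m] p) - η) 0])
        (by positivity)
    rw [term, term, w3]
    calc _ ≤ (tt V p m + σ) / T + (max (dv V ((gam V)^[m] p) - η) 0 + |z.im|) / η := by gcongr
      _ = _ := by ring
  rw [← sub_le_iff_le_add]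
  refine le_ciInf fun n => sub_le_iff_le_add.2 ?_
  rcases h1 n with ⟨m, hm, h3, h4⟩ | h3
  · refine (h2 m h4).trans ?_
    gcongr
    rw [term, term, max_eq_right (sub_nonpos.2 h3), zero_div]
    have := tt_mono (V := V) p hm
    gcongr
    positivity
  · exact h2 n h3

lemma rho_sh (hV : area V ≠ 0) (hT : dm V ≤ T) (hT0 : 0 < T) (hη : 0 < η) {p : Phase}
    (hp : p.1 ∈ tri V) {z : ℂ} (hz : |z.im| ≤ η) :
    rho V T η (sh z p) ≤ rho V T η p + (|z.re| / T + 2 * |z.im| / η) := by
  have h0 : (|z.re| + |z.im| * (dm V / η)) / T + |z.im| / η ≤ |z.re| / T + 2 * |z.im| / η := by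
    have : dm V / T ≤ 1 := (div_le_one hT0).2 hT
    calc _ = |z.re| / T + |z.im| / η * (dm V / T) + |z.im| / η := by ring
      _ ≤ |z.re| / T + |z.im| / η * 1 + |z.im| / η := by gcongr
      _ = _ := by ring
  have h1 := rp_sh hV hT0 hη hp hz
  have h2 := rp_sh hV hT0 hη (p := rev p) hp (z := -z) (by simpa using hz)
  simp only [neg_re, neg_im, abs_neg, ← rev_sh] at h2
  rw [rho, rho, ← min_add_add_right]
  exact min_le_min (by linarith) (by linarith)

lemma abs_rho_sh (hV : area V ≠ 0) (hT : dm V ≤ T) (hT0 : 0 < T) (hη : 0 < η) {p : Phase}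
    (hp : p.1 ∈ tri V) {z : ℂ} (hp' : (sh z p).1 ∈ tri V) (hz : |z.im| ≤ η) :
    |rho V T η (sh z p) - rho V T η p| ≤ |z.re| / T + 2 * |z.im| / η := by
  have h1 := rho_sh hV hT hT0 hη hp hz
  have h2 := rho_sh hV hT hT0 hη hp' (z := -z) (by simpa using hz)
  simp only [neg_re, neg_im, abs_neg, sh_sh, neg_add_cancel, sh_zero] at h2
  exact abs_le.2 ⟨by linarith, by linarith⟩

lemma rp_gam (hT : 0 < T) (hη : 0 < η) {p : Phase} (h : bb V p = 0) :
    rp V T η p = min (term V T η p 0) (rp V T η (gam V p)) := by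
  have h1 : ∀ n, term V T η p (n + 1) = term V T η (gam V p) n := fun n => by
    rw [term, term, tt_gam h]; rfl
  refine le_antisymm (le_min (rp_le hT hη p 0) (le_ciInf fun n => h1 n ▸ rp_le hT hη p _))
    (le_ciInf fun n => ?_)
  cases n with
  | zero => exact min_le_left _ _
  | succ n => exact (min_le_right _ _).trans (h1 n ▸ rp_le hT hη _ n)

lemma rho_gam (hT : 0 < T) (hη : 0 < η) {j : Fin 3} {p : Phase} (hj : Ex V j p)
    (h : bb V p = 0) : rho V T η (gam V p) = rho V T η p := by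
  have h1 := rp_gam hT hη h
  have h2 := rp_gam hT hη (p := rev (gam V p)) (by rw [hj.bb_rev_gam, h, neg_zero])
  rw [hj.gam_inv] at h2
  have h3 : ∀ q, term V T η (rev q) 0 = term V T η q 0 := fun q => by simp [term, tt, dv_rev]
  have h4 := rp_le (V := V) hT hη (gam V p) 0
  have h5 := rp_le (V := V) hT hη (rev p) 0
  rw [h3] at h2 h5
  rw [rho, rho, h1, h2, ← min_assoc, min_eq_left h4, min_comm (term V T η p 0), min_assoc,
    min_eq_right h5]

lemma measure_rp (hV : area V ≠ 0) (hT : 0 < T) (hη : 0 < η) {l : ℝ} (hl : 0 ≤ l) :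
    nu {p | p ∈ DD V ∧ rp V T η p < l} ≤
      ENNReal.ofReal (12 * ((l * T + 2 * dm V) * ((1 + l) * η))) := by
  have hdm := dm_nonneg (V := V)
  set R := l * T + 2 * dm V
  set δ := (1 + l) * η
  have hR : 0 ≤ R := by positivity
  set S : Set ℂ := {z | z.re ∈ Icc (-R) R ∧ z.im ∈ Icc (-δ) δ}
  have mS : MeasurableSet S := by measurability
  set E : Set Phase := ⋃ i, {q | rel V i q ∈ S}
  have mE : MeasurableSet E := MeasurableSet.iUnion fun i => (continuous_rel i).measurable mS
  have h1 : {p | p ∈ DD V ∧ rp V T η p < l} ⊆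
      ⋃ n : ℤ, DD V ∩ (gp V ^ n : Equiv.Perm Phase) ⁻¹' E := by
    rintro p ⟨hp, h⟩
    obtain ⟨n, hn⟩ := exists_lt_of_ciInf_lt h
    refine mem_iUnion.2 ⟨n, hp, ?_⟩
    rw [mem_preimage, zpow_nat n hp.1]
    have a1 : tt V p n / T < l :=
      lt_of_le_of_lt (le_add_of_nonneg_right (div_nonneg (le_max_right _ _) hη.le)) hn
    have a2 : max (dv V ((gam V)^[n] p) - η) 0 / η < l :=
      lt_of_le_of_lt (le_add_of_nonneg_left (div_nonneg (tt_nonneg _ _) hT.le)) hn
    rw [div_lt_iff₀ hT] at a1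
    rw [div_lt_iff₀ hη, max_lt_iff] at a2
    obtain ⟨i, hi⟩ := exists_dv (V := V) ((gam V)^[n] p)
    refine mem_iUnion.2 ⟨i, abs_le.1 ((abs_re_le_norm _).trans ?_),
      abs_le.1 (by simp only [δ]; linarith [a2.1])⟩
    rw [norm_rel]
    rcases n with _ | m
    · exact (norm_sub_le_dm (mem_tri_vertex i) (DD.mem_tri hp)).trans
        (by simp only [R]; nlinarith)
    · have b1 := bb_rev_zpow m hp.1
      have b2 : bb V ((gp V ^ (0 : ℤ)) p) ≤ bb V ((gp V ^ (m : ℤ)) p) :=
        (strictMono_bb hV hp.1).monotone (by omega)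
      rw [← Nat.cast_succ, zpow_nat _ hp.1, zpow_nat _ hp.1] at b1
      rw [zpow_nat _ hp.1] at b2
      have b3 : bb V ((gam V)^[m] p) ≤ tt V p (m + 1) := le_max_right _ _
      have b4 := (cr_rev_iff.2 (hp.1.1.1 (m + 1))).norm_le
      have b5 := norm_sub_le_dm (V := V) (mem_tri_vertex i) (mem_tri_vertex 0)
      have b6 : 0 < bb V p := hp.2.2
      rw [b1, abs_neg, abs_of_pos (b6.trans_le b2)] at b4
      calc _ = ‖(V i - V 0) - ((rev ((gam V)^[m + 1] p)).1 - V 0)‖ := by simp [rev]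
        _ ≤ _ := norm_sub_le _ _
        _ ≤ _ := by simp only [R]; linarith
  refine (measure_mono h1).trans ((measure_iUnion_le _).trans ?_)
  rw [tiling hV mE]
  refine (measure_mono inter_subset_left).trans ((measure_iUnion_le _).trans ?_)
  simp_rw [fun i => nu_rel (V := V) i mS]
  rw [volume_box _ _ measurableSet_Icc measurableSet_Icc, Real.volume_Icc, Real.volume_Icc,
    ← ENNReal.ofReal_mul (by linarith), tsum_fintype, Finset.sum_const, Finset.card_univ,
    Fintype.card_fin, nsmul_eq_mul, ← ENNReal.ofReal_natCast, ← ENNReal.ofReal_mul (by positivity)]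
  exact ENNReal.ofReal_le_ofReal (le_of_eq (by push_cast; ring))

/-- Lebesgue measure on the phase space of the table. -/
noncomputable abbrev mq (V : Fin 3 → ℂ) : Measure Phase :=
  (volume.restrict (interior (tri V))).prod hr

instance : IsFiniteMeasure (volume.restrict (interior (tri V))) :=
  isFiniteMeasure_restrict.2 vol_fin

lemma measure_rho (hV : area V ≠ 0) (hT : dm V ≤ T) (hT0 : 0 < T) (hη : 0 < η) {l : ℝ}
    (hl : 0 ≤ l) : (mq V).real {p | rho V T η p < l} ≤ 48 * (1 + l) ^ 2 * (T * η) := by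
  have hdm := dm_nonneg (V := V)
  have h1 := measure_rp hV hT0 hη hl
  have m1 : MeasurableSet {p | p ∈ DD V ∧ rp V T η p < l} :=
    measurableSet_dd.inter (measurableSet_lt measurable_rp measurable_const)
  have h2 := (mp_rev.measure_preimage m1.nullMeasurableSet).trans_le h1
  have h3 : mq V {p | rho V T η p < l} ≤ nu ({p | p ∈ DD V ∧ rp V T η p < l} ∪
      rev ⁻¹' {p | p ∈ DD V ∧ rp V T η p < l}) := by
    rw [mq, ← restrict_dd hV, Measure.restrict_apply' measurableSet_dd]
    refine measure_mono_ae ?_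
    filter_upwards [ae_dd_iff hV] with p hp h
    have h0 : rho V T η p < l := h.1
    rcases min_lt_iff.1 h0 with h' | h'
    · exact Or.inl ⟨h.2, h'⟩
    · exact Or.inr ⟨mem_dd_of_interior hV (rev_mem_gg.2 h.2.1) (hp.1 h.2), h'⟩
  have h4 := h3.trans ((measure_union_le _ _).trans (add_le_add h1 h2))
  rw [← ENNReal.ofReal_add (by positivity) (by positivity)] at h4
  refine (ENNReal.toReal_le_of_le_ofReal (by positivity) h4).trans ?_
  have : l * T + 2 * dm V ≤ 2 * ((1 + l) * T) := by nlinarith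
  calc _ = 24 * ((l * T + 2 * dm V) * ((1 + l) * η)) := by ring
    _ ≤ 24 * (2 * ((1 + l) * T) * ((1 + l) * η)) := by gcongr
    _ = _ := by ring

end Vale.Agent.P099
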