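import Mathlib

namespace Vale.Agent.P099

open MeasureTheory Set
open scoped symmDiff

/-- Phase points: a position in the plane `ℂ` and a direction angle measured in full turns. -/
abbrev Phase : Type := ℂ × UnitAddCircle

/-- The unit velocity `exp (2 π i θ)` of the direction `θ`. -/
noncomputable def dir (θ : UnitAddCircle) : ℂ := AddCircle.toCircle θ

/-- The closed triangle with vertices `V 0, V 1, V 2`. -/
def tri (V : Fin 3 → ℂ) : Set ℂ := convexHull ℝ (range V)

/-- Free motion at unit speed for time `t`. -/
noncomputable def move (t : ℝ) (p : Phase) : Phase := (p.1 + t * dir p.2, p.2)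

/-- The time at which the free motion leaves the closed triangle. -/
noncomputable def exitTime (V : Fin 3 → ℂ) (p : Phase) : ℝ :=
  sSup {s : ℝ | (move s p).1 ∈ tri V}

/-- Specular reflection `θ ↦ 2 β - θ` of a direction in the side from `V (j + 1)` to `V (j + 2)`,
whose direction angle is `β = arg (V (j + 2) - V (j + 1)) / (2 π)` turns. -/
noncomputable def mirror (V : Fin 3 → ℂ) (j : Fin 3) (θ : UnitAddCircle) : UnitAddCircle :=
  ((Complex.arg (V (j + 2) - V (j + 1)) / Real.pi : ℝ) : UnitAddCircle) - θ

open Classical in
/-- Move to the boundary and reflect in the open side that is hit (no reflection at a vertex). -/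
noncomputable def bounce (V : Fin 3 → ℂ) (p : Phase) : Phase :=
  if h : ∃ j : Fin 3, (move (exitTime V p) p).1 ∈ openSegment ℝ (V (j + 1)) (V (j + 2)) then
    ((move (exitTime V p) p).1, mirror V h.choose p.2)
  else move (exitTime V p) p

/-- The time of the `n`-th collision with the boundary (`0` for `n = 0`). -/
noncomputable def hitTime (V : Fin 3 → ℂ) (p : Phase) (n : ℕ) : ℝ :=
  ∑ i ∈ Finset.range n, exitTime V ((bounce V)^[i] p)

/-- The number of collisions up to time `t ≥ 0`. -/
noncomputable def hits (V : Fin 3 → ℂ) (t : ℝ) (p : Phase) : ℕ :=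
  sInf {n : ℕ | t < hitTime V p (n + 1)}

/-- The billiard flow for times `t ≥ 0`. -/
noncomputable def flowFwd (V : Fin 3 → ℂ) (t : ℝ) (p : Phase) : Phase :=
  move (t - hitTime V p (hits V t p)) ((bounce V)^[hits V t p] p)

/-- Reversal of the direction. -/
noncomputable def rev (p : Phase) : Phase := (p.1, p.2 + ((1 / 2 : ℝ) : UnitAddCircle))

/-- The billiard flow for all real times. -/
noncomputable def flow (V : Fin 3 → ℂ) (t : ℝ) (p : Phase) : Phase :=
  if 0 ≤ t then flowFwd V t p else rev (flowFwd V (-t) (rev p))

/-- Normalized area on the open triangle times the uniform measure on directions. -/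
noncomputable def liouville (V : Fin 3 → ℂ) : Measure Phase :=
  (ProbabilityTheory.cond volume (interior (tri V))).prod AddCircle.haarAddCircle

/-- Ergodicity of a flow: every measurable set invariant modulo null sets under each time map
has measure `0` or `1`. -/
def IsErgodicFlow {α : Type*} [MeasurableSpace α] (μ : Measure α) (Φ : ℝ → α → α) : Prop :=
  ∀ A : Set α, MeasurableSet A → (∀ t : ℝ, μ ((Φ t ⁻¹' A) ∆ A) = 0) → μ A = 0 ∨ μ A = 1

end Vale.Agent.P099
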