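import Vale.Agent.P099.Meas

namespace Vale.Agent.P099

open MeasureTheory Set Complex Filter
open scoped ComplexConjugate

variable {V : Fin 3 → ℂ}

/-- Lines with a good forward unfolding. -/
def Gf (V : Fin 3 → ℂ) : Set Phase :=
  {p | (∀ n, Cr V ((gam V)^[n] p)) ∧ Tendsto (fun n => bb V ((gam V)^[n] p)) atTop atTop}

/-- Lines with a good unfolding in both time directions. -/
def GG (V : Fin 3 → ℂ) : Set Phase := {p | p ∈ Gf V ∧ rev p ∈ Gf V}

lemma measurableSet_gf : MeasurableSet (Gf V) := by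
  refine MeasurableSet.inter (s₁ := {p | ∀ n, Cr V ((gam V)^[n] p)}) ?_ ?_
  · rw [ofPred_forall]
    exact MeasurableSet.iInter fun n => (measurable_gam.iterate n) measurableSet_cr
  · exact measurableSet_tendsto _ fun n => measurable_bb.comp (measurable_gam.iterate n)

lemma measurableSet_gg : MeasurableSet (GG V) :=
  measurableSet_gf.inter (mp_rev.measurable measurableSet_gf)

lemma gf_iff {p : Phase} : p ∈ Gf V ↔ Cr V p ∧ gam V p ∈ Gf V := by
  constructor
  · rintro ⟨h1, h2⟩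
    exact ⟨h1 0, fun n => h1 (n + 1), (tendsto_add_atTop_iff_nat 1).2 h2⟩
  · rintro ⟨h0, h1, h2⟩
    refine ⟨fun n => ?_, (tendsto_add_atTop_iff_nat 1).1 h2⟩
    cases n with
    | zero => exact h0
    | succ n => exact h1 n

lemma Cr.bb_lt (hV : area V ≠ 0) {p : Phase} (h : Cr V p) (h' : Cr V (gam V p)) :
    bb V p < bb V (gam V p) := by
  obtain ⟨j, hj⟩ := h.1
  have := h'.entry_lt hV
  rwa [hj.bb_rev_gam, neg_neg] at this

lemma Cr.norm_le {p : Phase} (h : Cr V p) : ‖p.1 - V 0‖ ≤ |bb V p| + dm V := by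
  have h1 := norm_sub_le_dm h.exit_mem (mem_tri_vertex 0)
  have h2 : p.1 - V 0 = ((move (bb V p) p).1 - V 0) - bb V p * dir p.2 := by simp [move]; ring
  rw [h2]
  refine (norm_sub_le _ _).trans ?_
  simp only [norm_mul, norm_dir, norm_real, Real.norm_eq_abs, mul_one]
  linarith

lemma ae_gf (hV : area V ≠ 0) : ∀ᵐ p ∂nu, Cr V p → p ∈ Gf V := by
  have h1 : ∀ᵐ p ∂nu, ∀ n, Nv V ((gam V)^[n] p) :=
    ae_all_iff.2 fun n => ((mp_gam hV).iterate n).quasiMeasurePreserving.ae ae_nv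
  have h2 : ∀ᵐ p ∂nu, ∀ (M : ℕ) (c : ℚ), (∀ n, Cr V ((gam V)^[n] p) ∧
      |bb V ((gam V)^[n] p)| ≤ M) → (c : ℝ) ≤ bb V (gam V p) → (c : ℝ) ≤ bb V p := by
    refine ae_all_iff.2 fun M => ae_all_iff.2 fun c => ?_
    set A : Set Phase := {p | (∀ n, Cr V ((gam V)^[n] p) ∧ |bb V ((gam V)^[n] p)| ≤ M) ∧
      (c : ℝ) ≤ bb V p} with hA
    have mA : MeasurableSet A := by
      refine MeasurableSet.inter (s₁ := {p | ∀ n, Cr V ((gam V)^[n] p) ∧
        |bb V ((gam V)^[n] p)| ≤ M}) ?_ (measurableSet_le measurable_const measurable_bb)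
      rw [ofPred_forall]
      exact MeasurableSet.iInter fun n => ((measurable_gam.iterate n) measurableSet_cr).inter
        (measurableSet_le (measurable_bb.comp (measurable_gam.iterate n)).abs measurable_const)
    have hsub : A ⊆ gam V ⁻¹' A := fun p hp =>
      ⟨fun n => hp.1 (n + 1), hp.2.trans ((hp.1 0).1.bb_lt hV (hp.1 1).1).le⟩
    have hfin : nu A ≠ ⊤ := by
      refine ne_top_of_le_ne_top ?_ (measure_mono (t := {p : Phase |
        p.1 ∈ Metric.closedBall (V 0) (M + dm V)}) fun p hp => ?_)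
      · rw [nu_fst]; exact measure_closedBall_lt_top.ne
      · simp only [mem_ofPred_eq, Metric.mem_closedBall, dist_eq_norm]
        exact (hp.1 0).1.norm_le.trans (by linarith [(hp.1 0).2])
    have h0 : nu (gam V ⁻¹' A \ A) = 0 := by
      rw [measure_sdiff hsub mA.nullMeasurableSet hfin,
        (mp_gam hV).measure_preimage mA.nullMeasurableSet, tsub_self]
    filter_upwards [measure_eq_zero_iff_ae_notMem.1 h0] with p hp h1 h2
    by_contra h3
    exact hp ⟨⟨fun n => h1 (n + 1), h2⟩, fun h => h3 h.2⟩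
  filter_upwards [h1, h2] with p h1 h2 hp
  have h3 : ∀ n, Cr V ((gam V)^[n] p) := by
    intro n
    induction n with
    | zero => exact hp
    | succ n ih =>
      have := h1 (n + 1)
      rw [Function.iterate_succ_apply'] at this ⊢
      exact ih.gam_cr hV this
  have h4 : Monotone fun n => bb V ((gam V)^[n] p) := by
    refine monotone_nat_of_le_succ fun n => ?_
    have := h3 (n + 1)
    rw [Function.iterate_succ_apply'] at this ⊢
    exact ((h3 n).bb_lt hV this).le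
  refine ⟨h3, tendsto_atTop_atTop_of_monotone' h4 ?_⟩
  rintro ⟨B, hB⟩
  obtain ⟨M, hM⟩ := exists_nat_ge (max B (-bb V p))
  obtain ⟨c, hc1, hc2⟩ := exists_rat_btwn (hp.bb_lt hV (h3 1))
  refine absurd (h2 M c (fun n => ⟨h3 n, abs_le.2 ⟨?_, ?_⟩⟩) hc2.le) (not_le.2 hc1)
  · have : bb V p ≤ bb V ((gam V)^[n] p) := h4 (Nat.zero_le n)
    linarith [le_max_right B (-bb V p)]
  · exact (hB ⟨n, rfl⟩).trans ((le_max_left _ _).trans hM)

lemma ae_gg (hV : area V ≠ 0) : ∀ᵐ p ∂nu, Cr V p → p ∈ GG V := by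
  filter_upwards [ae_gf hV, mp_rev.quasiMeasurePreserving.ae (ae_gf hV)] with p h1 h2 hp
  exact ⟨h1 hp, h2 (cr_rev_iff.2 hp)⟩

lemma GG.cr {p : Phase} (h : p ∈ GG V) : Cr V p := h.1.1 0

lemma rev_mem_gg {p : Phase} : rev p ∈ GG V ↔ p ∈ GG V := by simp [GG, and_comm]

lemma GG.gam_inv {p : Phase} (h : p ∈ GG V) : gam V (rev (gam V p)) = rev p :=
  (GG.cr h).1.elim fun _ hj => hj.gam_inv

lemma GG.gam_mem {p : Phase} (h : p ∈ GG V) : gam V p ∈ GG V := by
  have h1 := (gf_iff.1 h.1).2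
  refine ⟨h1, gf_iff.2 ⟨cr_rev_iff.2 (h1.1 0), ?_⟩⟩
  rw [GG.gam_inv h]; exact h.2

lemma iterate_gam_move (n : ℕ) (t : ℝ) (p : Phase) :
    (gam V)^[n] (move t p) = move t ((gam V)^[n] p) :=
  (Function.Commute.iterate_left (f := gam V) (g := move t) (fun p => gam_move t p) n) p

lemma move_mem_gf {p : Phase} (t : ℝ) (h : p ∈ Gf V) : move t p ∈ Gf V := by
  refine ⟨fun n => by rw [iterate_gam_move]; exact cr_move_iff.2 (h.1 n), ?_⟩
  refine (tendsto_atTop_add_const_right _ (-t) h.2).congr fun n => ?_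
  obtain ⟨j, hj⟩ := (h.1 n).1
  rw [iterate_gam_move, hj.bb_move]; ring

lemma move_mem_gg {p : Phase} {t : ℝ} : move t p ∈ GG V ↔ p ∈ GG V := by
  have : ∀ p t, p ∈ GG V → move t p ∈ GG V := fun p t h =>
    ⟨move_mem_gf t h.1, by rw [rev_move]; exact move_mem_gf _ h.2⟩
  exact ⟨fun h => by simpa [move_move] using this _ (-t) h, this p t⟩

open Classical in
/-- The unfolding map as a permutation. -/
noncomputable def gp (V : Fin 3 → ℂ) : Equiv.Perm Phase where
  toFun p := if p ∈ GG V then gam V p else p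
  invFun p := if p ∈ GG V then rev (gam V (rev p)) else p
  left_inv p := by
    by_cases h : p ∈ GG V
    · simp [h, GG.gam_mem h, GG.gam_inv h]
    · simp [h]
  right_inv p := by
    by_cases h : p ∈ GG V
    · have h1 := rev_mem_gg.2 h
      simp [h, rev_mem_gg.2 (GG.gam_mem h1), GG.gam_inv h1]
    · simp [h]

lemma gp_of_mem {p : Phase} (h : p ∈ GG V) : gp V p = gam V p := by simp [gp, h]

lemma gp_of_not {p : Phase} (h : p ∉ GG V) : gp V p = p := by simp [gp, h]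

lemma gp_inv (p : Phase) : (gp V)⁻¹ p = rev (gp V (rev p)) := by
  by_cases h : p ∈ GG V
  · rw [gp_of_mem (rev_mem_gg.2 h)]; simp [gp, Equiv.Perm.inv_def, h]
  · rw [gp_of_not (by rwa [rev_mem_gg])]; simp [gp, Equiv.Perm.inv_def, h]

lemma zpow_induction {P : (Phase → Phase) → Prop} (h0 : P id) (h1 : P (gp V))
    (h2 : P fun p => rev (gp V (rev p))) (hc : ∀ f g, P f → P g → P (f ∘ g)) (n : ℤ) :
    P (gp V ^ n : Equiv.Perm Phase) := by
  induction n using Int.induction_on with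
  | zero => exact h0
  | succ n ih => rw [zpow_add_one, Equiv.Perm.coe_mul]; exact hc _ _ ih h1
  | pred n ih =>
    rw [zpow_sub_one, Equiv.Perm.coe_mul, funext (gp_inv (V := V))]; exact hc _ _ ih h2

lemma gp_mem {p : Phase} : gp V p ∈ GG V ↔ p ∈ GG V := by
  by_cases h : p ∈ GG V
  · simp [gp_of_mem h, GG.gam_mem h, h]
  · simp [gp_of_not h]

lemma zpow_mem (n : ℤ) {p : Phase} : (gp V ^ n) p ∈ GG V ↔ p ∈ GG V :=
  zpow_induction (P := fun f => ∀ p, f p ∈ GG V ↔ p ∈ GG V) (fun _ => Iff.rfl) (fun _ => gp_mem)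
    (fun _ => by rw [rev_mem_gg, gp_mem, rev_mem_gg]) (fun f g hf hg p => (hf _).trans (hg _)) n p

lemma gp_move (t : ℝ) (p : Phase) : gp V (move t p) = move t (gp V p) := by
  by_cases h : p ∈ GG V
  · rw [gp_of_mem h, gp_of_mem (move_mem_gg.2 h), gam_move]
  · rw [gp_of_not h, gp_of_not (by rwa [move_mem_gg])]

lemma zpow_move (n : ℤ) (t : ℝ) (p : Phase) : (gp V ^ n) (move t p) = move t ((gp V ^ n) p) :=
  zpow_induction (P := fun f => ∀ p, f (move t p) = move t (f p)) (fun _ => rfl) (gp_move t)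
    (fun p => by simp only [rev_move, gp_move, neg_neg])
    (fun f g hf hg p => by simp [hf, hg]) n p

lemma zpow_rev (n : ℤ) (p : Phase) : (gp V ^ n) (rev p) = rev ((gp V ^ (-n)) p) := by
  induction n using Int.induction_on generalizing p with
  | zero => rfl
  | succ n ih =>
    rw [zpow_add_one, neg_add, zpow_add, zpow_neg_one, Equiv.Perm.mul_apply, Equiv.Perm.mul_apply,
      ← ih, gp_inv, rev_rev]
  | pred n ih =>
    rw [zpow_sub_one, neg_sub, sub_eq_neg_add, zpow_add_one, Equiv.Perm.mul_apply,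
      Equiv.Perm.mul_apply, ← ih, gp_inv, rev_rev]

lemma mp_gp (hV : area V ≠ 0) : MeasurePreserving (gp V) nu nu := by
  refine (mp_gam hV).congr (Measurable.ite measurableSet_gg measurable_gam measurable_id) ?_
  filter_upwards [ae_gg hV, ae_nv (V := V)] with p h1 h2
  by_cases h : p ∈ GG V
  · rw [gp_of_mem h]
  · rw [gp_of_not h, gam_of_not]
    rintro ⟨j, hj⟩
    exact h (h1 (hj.cr_of_nv hV h2))

lemma mp_zpow (hV : area V ≠ 0) (n : ℤ) : MeasurePreserving (gp V ^ n : Equiv.Perm Phase) nu nu :=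
  zpow_induction (P := fun f => MeasurePreserving f nu nu) (MeasurePreserving.id _) (mp_gp hV)
    (mp_rev.comp ((mp_gp hV).comp mp_rev)) (fun _ _ hf hg => hf.comp hg) n

lemma zpow_nat (n : ℕ) {p : Phase} (h : p ∈ GG V) : (gp V ^ (n : ℤ)) p = (gam V)^[n] p := by
  induction n with
  | zero => rfl
  | succ n ih =>
    rw [Nat.cast_succ, add_comm, zpow_one_add, Equiv.Perm.mul_apply, Function.iterate_succ_apply',
      ← ih, gp_of_mem ((zpow_mem _).2 h)]

lemma zpow_succ_apply (n : ℤ) {p : Phase} (h : p ∈ GG V) :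
    (gp V ^ (n + 1)) p = gam V ((gp V ^ n) p) := by
  rw [add_comm, zpow_one_add, Equiv.Perm.mul_apply, gp_of_mem ((zpow_mem _).2 h)]

lemma bb_rev_zpow (n : ℤ) {p : Phase} (h : p ∈ GG V) :
    bb V (rev ((gp V ^ (n + 1)) p)) = -bb V ((gp V ^ n) p) := by
  obtain ⟨j, hj⟩ := (GG.cr ((zpow_mem n).2 h)).1
  rw [zpow_succ_apply n h, hj.bb_rev_gam]

lemma strictMono_bb (hV : area V ≠ 0) {p : Phase} (h : p ∈ GG V) :
    StrictMono fun n : ℤ => bb V ((gp V ^ n) p) := by
  refine strictMono_int_of_lt_succ fun n => ?_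
  rw [zpow_succ_apply n h]
  exact (GG.cr ((zpow_mem n).2 h)).bb_lt hV (GG.cr (GG.gam_mem ((zpow_mem n).2 h)))

/-- The fundamental domain. -/
def DD (V : Fin 3 → ℂ) : Set Phase := {p | p ∈ GG V ∧ 0 ≤ bb V (rev p) ∧ 0 < bb V p}

lemma measurableSet_dd : MeasurableSet (DD V) :=
  measurableSet_gg.inter ((measurableSet_le measurable_const
    (measurable_bb.comp mp_rev.measurable)).inter (measurableSet_lt measurable_const measurable_bb))

lemma zpow_mem_dd {n : ℤ} {p : Phase} (h : p ∈ GG V) :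
    (gp V ^ n) p ∈ DD V ↔ bb V ((gp V ^ (n - 1)) p) ≤ 0 ∧ 0 < bb V ((gp V ^ n) p) := by
  have := bb_rev_zpow (n - 1) h
  rw [sub_add_cancel] at this
  simp [DD, zpow_mem, h, this]

lemma exists_dd (hV : area V ≠ 0) {p : Phase} (h : p ∈ GG V) : ∃ n : ℤ, (gp V ^ n) p ∈ DD V := by
  obtain ⟨m, hm⟩ := (h.2.2.eventually_ge_atTop 0).exists
  obtain ⟨k, hk⟩ := (h.1.2.eventually_gt_atTop 0).exists
  rw [← zpow_nat m (rev_mem_gg.2 h), zpow_rev, show -(m : ℤ) = (-m - 1) + 1 by ring,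
    bb_rev_zpow _ h] at hm
  rw [← zpow_nat k h] at hk
  obtain ⟨n, hn, hn'⟩ := Int.exists_least_of_bdd (P := fun n => 0 < bb V ((gp V ^ n) p))
    ⟨-m - 1, fun z hz => ((strictMono_bb hV h).lt_iff_lt.1 (by linarith)).le⟩ ⟨k, hk⟩
  refine ⟨n, (zpow_mem_dd h).2 ⟨?_, hn⟩⟩
  by_contra h1
  linarith [hn' _ (not_le.1 h1)]

lemma unique_dd (hV : area V ≠ 0) {p : Phase} {m n : ℤ} (hm : (gp V ^ m) p ∈ DD V)
    (hn : (gp V ^ n) p ∈ DD V) : m = n := by
  have h := (zpow_mem _).1 hm.1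
  rw [zpow_mem_dd h] at hm hn
  have h1 := (strictMono_bb hV h).lt_iff_lt.1 (hm.1.trans_lt hn.2)
  have h2 := (strictMono_bb hV h).lt_iff_lt.1 (hn.1.trans_lt hm.2)
  omega

lemma zpow_zpow (m n : ℤ) (p : Phase) : (gp V ^ m) ((gp V ^ n) p) = (gp V ^ (m + n)) p := by
  rw [zpow_add, Equiv.Perm.mul_apply]

lemma tiling (hV : area V ≠ 0) {B : Set Phase} (hB : MeasurableSet B) :
    ∑' n : ℤ, nu (DD V ∩ (gp V ^ n : Equiv.Perm Phase) ⁻¹' B) = nu (B ∩ GG V) := by
  have m1 : ∀ n : ℤ, MeasurableSet ((gp V ^ (-n) : Equiv.Perm Phase) ⁻¹' DD V ∩ B) := fun n =>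
    ((mp_zpow hV _).measurable measurableSet_dd).inter hB
  have h1 : ∀ n : ℤ, nu (DD V ∩ (gp V ^ n : Equiv.Perm Phase) ⁻¹' B) =
      nu ((gp V ^ (-n) : Equiv.Perm Phase) ⁻¹' DD V ∩ B) := by
    intro n
    rw [← (mp_zpow hV n).measure_preimage (m1 n).nullMeasurableSet]
    congr 1; ext p; simp
  simp_rw [h1]
  rw [← measure_iUnion _ m1]
  · congr 1; ext p
    simp only [mem_iUnion, mem_inter_iff, mem_preimage]
    constructor
    · rintro ⟨n, h1, h2⟩; exact ⟨h2, (zpow_mem _).1 h1.1⟩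
    · rintro ⟨h1, h2⟩
      obtain ⟨n, hn⟩ := exists_dd hV h2
      exact ⟨-n, by rwa [neg_neg], h1⟩
  · intro m n hmn
    refine disjoint_left.2 fun p h1 h2 => hmn ?_
    simpa using unique_dd hV h1.1 h2.1

open Classical in
/-- Projection to the fundamental domain. -/
noncomputable def prj (V : Fin 3 → ℂ) (p : Phase) : Phase :=
  if h : ∃ n : ℤ, (gp V ^ n) p ∈ DD V then (gp V ^ h.choose) p else p

lemma prj_eq (hV : area V ≠ 0) {p : Phase} {n : ℤ} (h : (gp V ^ n) p ∈ DD V) :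
    prj V p = (gp V ^ n) p := by
  have he : ∃ n : ℤ, (gp V ^ n) p ∈ DD V := ⟨n, h⟩
  rw [prj, dif_pos he, unique_dd hV he.choose_spec h]

lemma prj_of_not {p : Phase} (h : p ∉ GG V) : prj V p = p :=
  dif_neg fun ⟨_, hn⟩ => h ((zpow_mem _).1 hn.1)

lemma prj_of_mem (hV : area V ≠ 0) {p : Phase} (h : p ∈ DD V) : prj V p = p :=
  prj_eq hV (n := 0) h

lemma prj_zpow (hV : area V ≠ 0) (n : ℤ) {p : Phase} (h : p ∈ GG V) :
    prj V ((gp V ^ n) p) = prj V p := by
  obtain ⟨m, hm⟩ := exists_dd hV h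
  rw [prj_eq hV hm, prj_eq hV (n := m - n)] <;> simp [zpow_zpow, hm]

lemma prj_preimage (hV : area V ≠ 0) (B : Set Phase) :
    prj V ⁻¹' B = (⋃ n : ℤ, (gp V ^ n : Equiv.Perm Phase) ⁻¹' (DD V ∩ B)) ∪ (B \ GG V) := by
  ext p
  simp only [mem_preimage, mem_union, mem_iUnion, mem_inter_iff, Set.mem_sdiff]
  by_cases h : p ∈ GG V
  · obtain ⟨m, hm⟩ := exists_dd hV h
    constructor
    · intro hp; exact Or.inl ⟨m, hm, by rwa [← prj_eq hV hm]⟩
    · rintro (⟨n, h1, h2⟩ | ⟨-, h2⟩)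
      · rwa [prj_eq hV h1]
      · exact absurd h h2
  · rw [prj_of_not h]
    exact ⟨fun hp => Or.inr ⟨hp, h⟩, fun hp => hp.elim
      (fun ⟨n, h1, _⟩ => absurd ((zpow_mem _).1 h1.1) h) And.left⟩

lemma measurable_prj (hV : area V ≠ 0) : Measurable (prj V) := fun B hB => by
  rw [prj_preimage hV]
  exact (MeasurableSet.iUnion fun n => (mp_zpow hV n).measurable
    (measurableSet_dd.inter hB)).union (hB.diff measurableSet_gg)

/-- The billiard flow on the fundamental domain. -/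
noncomputable def psi (V : Fin 3 → ℂ) (t : ℝ) (p : Phase) : Phase := prj V (move t p)

lemma measurable_psi (hV : area V ≠ 0) (t : ℝ) : Measurable (psi V t) :=
  (measurable_prj hV).comp (mp_move t).measurable

lemma psi_prj (hV : area V ≠ 0) (t : ℝ) {p : Phase} (h : p ∈ GG V) :
    psi V t (prj V p) = psi V t p := by
  obtain ⟨m, hm⟩ := exists_dd hV h
  rw [psi, prj_eq hV hm, ← zpow_move, prj_zpow hV _ (move_mem_gg.2 h), psi]

lemma psi_psi (hV : area V ≠ 0) (s t : ℝ) {p : Phase} (h : p ∈ GG V) :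
    psi V s (psi V t p) = psi V (s + t) p := by
  rw [psi, psi, ← psi, psi_prj hV _ (move_mem_gg.2 h), psi, move_move, psi]

lemma prj_mem (hV : area V ≠ 0) {p : Phase} (h : p ∈ GG V) : prj V p ∈ DD V := by
  obtain ⟨m, hm⟩ := exists_dd hV h
  rwa [prj_eq hV hm]

lemma mp_psi (hV : area V ≠ 0) (t : ℝ) :
    MeasurePreserving (psi V t) (nu.restrict (DD V)) (nu.restrict (DD V)) := by
  refine ⟨measurable_psi hV t, Measure.ext fun B hB => ?_⟩
  have m1 := (mp_move t).measurable (measurableSet_dd (V := V).inter hB)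
  rw [Measure.map_apply (measurable_psi hV t) hB, Measure.restrict_apply hB,
    Measure.restrict_apply (measurable_psi hV t hB)]
  have e1 : psi V t ⁻¹' B ∩ DD V =
      ⋃ n : ℤ, DD V ∩ (gp V ^ n : Equiv.Perm Phase) ⁻¹' (move t ⁻¹' (DD V ∩ B)) := by
    ext p
    simp only [mem_inter_iff, mem_preimage, mem_iUnion, ← zpow_move]
    constructor
    · rintro ⟨h1, h2⟩
      obtain ⟨n, hn⟩ := exists_dd hV (move_mem_gg (t := t).2 h2.1)
      exact ⟨n, h2, hn, by rwa [← prj_eq hV hn]⟩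
    · rintro ⟨n, h1, h2, h3⟩
      exact ⟨by rwa [psi, prj_eq hV h2], h1⟩
  rw [e1, measure_iUnion _ fun n => measurableSet_dd.inter ((mp_zpow hV n).measurable m1),
    tiling hV m1, inter_eq_left.2 fun p hp => move_mem_gg.1 hp.1.1,
    (mp_move t).measure_preimage (measurableSet_dd.inter hB).nullMeasurableSet, inter_comm]
  intro m n hmn
  refine disjoint_left.2 fun p h1 h2 => hmn ?_
  simp only [mem_inter_iff, mem_preimage, ← zpow_move] at h1 h2
  exact unique_dd hV h1.2.1 h2.2.1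

lemma mem_dd_of_interior (hV : area V ≠ 0) {p : Phase} (h : p ∈ GG V)
    (hx : p.1 ∈ interior (tri V)) : p ∈ DD V :=
  ⟨h, ((cr_rev_iff.2 (GG.cr h)).bb_pos hV hx).le, (GG.cr h).bb_pos hV hx⟩

lemma DD.mem_tri {p : Phase} (h : p ∈ DD V) : p.1 ∈ tri V := (GG.cr h.1).mem_tri h.2.1 h.2.2.le

lemma ae_dd_iff (hV : area V ≠ 0) : ∀ᵐ p ∂nu, p ∈ DD V ↔ p.1 ∈ interior (tri V) := by
  filter_upwards [ae_gg hV, ae_nv (V := V), ae_not_frontier (V := V)] with p h1 h2 h3
  refine ⟨fun h => ?_, fun h => mem_dd_of_interior hV (h1 (cr_of_mem hV (interior_subset h) h2)) h⟩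
  by_contra h4
  exact h3 ⟨subset_closure (DD.mem_tri h), h4⟩

end Vale.Agent.P099
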