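import Vale.Agent.P099.Dyn

namespace Vale.Agent.P099

open MeasureTheory Set Complex Filter Topology
open scoped ComplexConjugate

variable {V : Fin 3 → ℂ}

lemma bounce_iterate (hV : area V ≠ 0) {p : Phase} (h : ∀ n, Cr V ((gam V)^[n] p)) (n : ℕ) :
    (bounce V)^[n] p = move (hitTime V p n) ((gam V)^[n] p) ∧
      hitTime V p (n + 1) = bb V ((gam V)^[n] p) := by
  have key : ∀ n, (bounce V)^[n] p = move (hitTime V p n) ((gam V)^[n] p) →
      hitTime V p (n + 1) = bb V ((gam V)^[n] p) := by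
    intro n hn
    obtain ⟨j, hj⟩ := (h n).1
    have hj' := ex_move (t := hitTime V p n).2 hj
    rw [hitTime, Finset.sum_range_succ, ← hitTime, hn, hj'.exitTime_eq hV, ← hj'.bb_eq, hj.bb_move]
    ring
  suffices (bounce V)^[n] p = move (hitTime V p n) ((gam V)^[n] p) from ⟨this, key n this⟩
  induction n with
  | zero => simp [hitTime]
  | succ n ih =>
    obtain ⟨j, hj⟩ := (h n).1
    have hj' := ex_move (t := hitTime V p n).2 hj
    rw [Function.iterate_succ_apply', Function.iterate_succ_apply', key n ih, ih, hj'.bounce_eq hV,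
      hj.bb_move, gam_move, move_move, sub_add_cancel]

lemma flowFwd_eq (hV : area V ≠ 0) {p : Phase} (h : p ∈ DD V) {t : ℝ} (ht : 0 ≤ t) :
    flowFwd V t p = psi V t p := by
  have hb := bounce_iterate hV h.1.1.1
  have hne : {n : ℕ | t < hitTime V p (n + 1)}.Nonempty := by
    obtain ⟨k, hk⟩ := (h.1.1.2.eventually_gt_atTop t).exists
    exact ⟨k, by rwa [mem_ofPred_eq, (hb k).2]⟩
  have h1 : t < hitTime V p (hits V t p + 1) := Nat.sInf_mem hne
  have h2 : ∀ m < hits V t p, ¬t < hitTime V p (m + 1) := fun m hm => Nat.notMem_of_lt_sInf hm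
  have hbb : ∀ n : ℤ, bb V ((gp V ^ n) (move t p)) = bb V ((gp V ^ n) p) - t := fun n => by
    obtain ⟨j, hj⟩ := (GG.cr ((zpow_mem n).2 h.1)).1
    rw [zpow_move, hj.bb_move]
  rw [flowFwd, (hb _).1, move_move, sub_add_cancel, ← zpow_nat _ h.1, ← zpow_move, psi,
    prj_eq hV]
  rw [zpow_mem_dd (move_mem_gg.2 h.1), hbb, hbb, zpow_nat _ h.1, ← (hb _).2]
  refine ⟨?_, by linarith⟩
  rcases hn : hits V t p with _ | m
  · have := bb_rev_zpow (-1) h.1
    simp only [neg_add_cancel, zpow_zero, Equiv.Perm.coe_one, id] at this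
    simp only [Nat.cast_zero, zero_sub]
    linarith [h.2.1]
  · have := h2 m (by omega)
    rw [(hb m).2, ← zpow_nat _ h.1] at this
    simp only [Nat.cast_succ, add_sub_cancel_right]
    linarith

lemma ae_flow_eq (hV : area V ≠ 0) (t : ℝ) : flow V t =ᵐ[nu.restrict (DD V)] psi V t := by
  rw [EventuallyEq, ae_restrict_iff' measurableSet_dd]
  have h1 : ∀ᵐ p ∂nu, ∀ n : ℤ, ((gp V ^ n) (move t p)).1 ∉ frontier (tri V) :=
    ae_all_iff.2 fun n =>
      ((mp_zpow hV n).comp (mp_move t)).quasiMeasurePreserving.ae ae_not_frontier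
  filter_upwards [h1, ae_dd_iff hV] with p h1 h2 hp
  unfold flow
  split_ifs with ht
  · exact flowFwd_eq hV hp ht
  · have h3 : rev p ∈ DD V := mem_dd_of_interior hV (rev_mem_gg.2 hp.1) (h2.1 hp)
    obtain ⟨n, hn⟩ := exists_dd hV (move_mem_gg (t := -t).2 h3.1)
    rw [flowFwd_eq hV h3 (by linarith), psi, prj_eq hV hn]
    rw [← rev_move, zpow_rev] at hn ⊢
    rw [rev_rev, psi, prj_eq hV]
    refine mem_dd_of_interior hV (rev_mem_gg.1 hn.1) ?_
    by_contra h4
    have h5 := DD.mem_tri hn
    exact h1 (-n) ⟨subset_closure h5, h4⟩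

lemma interior_tri_nonempty (hV : area V ≠ 0) : (interior (tri V)).Nonempty := by
  refine ⟨(1 / 3 : ℝ) • V 0 + (2 / 3 : ℝ) • ((1 / 2 : ℝ) • V 1 + (1 / 2 : ℝ) • V 2),
    mem_interior_tri hV fun j => ?_⟩
  rw [lam_affine _ _ _ _ _ (by norm_num), lam_affine _ _ _ _ _ (by norm_num)]
  have h0 := (mem_tri hV).1 (mem_tri_vertex 0) j
  have h1 := (mem_tri hV).1 (mem_tri_vertex 1) j
  have h2 := (mem_tri hV).1 (mem_tri_vertex 2) j
  have h3 := lam_self hV j
  fin_cases j <;> simp at * <;> linarith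

lemma vol_pos (hV : area V ≠ 0) : volume (interior (tri V)) ≠ 0 :=
  (isOpen_interior.measure_pos _ (interior_tri_nonempty hV)).ne'

lemma vol_fin : volume (interior (tri V)) ≠ ⊤ :=
  ((measure_mono interior_subset).trans_lt isCompact_tri.measure_lt_top).ne

lemma restrict_dd (hV : area V ≠ 0) :
    nu.restrict (DD V) = (volume.restrict (interior (tri V))).prod hr := by
  rw [Measure.restrict_prod_eq_prod_univ]
  refine Measure.restrict_congr_set ?_
  filter_upwards [ae_dd_iff hV] with p hp
  simp only [eq_iff_iff]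
  change p ∈ DD V ↔ p ∈ interior (tri V) ×ˢ univ
  simpa using hp

lemma liouville_eq (hV : area V ≠ 0) :
    liouville V = (volume (interior (tri V)))⁻¹ • nu.restrict (DD V) := by
  rw [restrict_dd hV, liouville, ProbabilityTheory.cond, Measure.prod_smul_left]

lemma isProb_liouville (hV : area V ≠ 0) : IsProbabilityMeasure (liouville V) := by
  have := ProbabilityTheory.cond_isProbabilityMeasure_of_finite (vol_pos hV) (vol_fin (V := V))
  unfold liouville; infer_instance

lemma ae_liouville (hV : area V ≠ 0) {P : Phase → Prop} :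
    (∀ᵐ p ∂liouville V, P p) ↔ ∀ᵐ p ∂nu, p ∈ DD V → P p := by
  rw [liouville_eq hV, ae_iff, Measure.smul_apply, smul_eq_mul, mul_eq_zero,
    or_iff_right (ENNReal.inv_ne_zero.2 vol_fin), ← ae_iff, ae_restrict_iff' measurableSet_dd]

lemma mp_psi' (hV : area V ≠ 0) (t : ℝ) :
    MeasurePreserving (psi V t) (liouville V) (liouville V) := by
  rw [liouville_eq hV]; exact (mp_psi hV t).smul_measure _

lemma ae_flow_eq' (hV : area V ≠ 0) (t : ℝ) : flow V t =ᵐ[liouville V] psi V t :=
  (ae_liouville hV).2 ((ae_restrict_iff' measurableSet_dd).1 (ae_flow_eq hV t))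

lemma ae_mem_dd (hV : area V ≠ 0) : ∀ᵐ p ∂liouville V, p ∈ DD V :=
  (ae_liouville hV).2 (Eventually.of_forall fun _ h => h)

/-- A strongly continuous one-parameter group of isometries. -/
structure UGroup (H : Type*) [NormedAddCommGroup H] [InnerProductSpace ℂ H] where
  U : ℝ → H →ₗᵢ[ℂ] H
  add : ∀ s t w, U s (U t w) = U (s + t) w
  zero : ∀ w, U 0 w = w
  cont : ∀ w, Continuous fun t => U t w

lemma norm_sq_L2 {α H : Type*} [MeasurableSpace α] {μ : Measure α} [NormedAddCommGroup H]
    [InnerProductSpace ℂ H] (f : Lp H 2 μ) : ‖f‖ ^ 2 = ∫ x, ‖f x‖ ^ 2 ∂μ := by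
  have h := L2.inner_def (𝕜 := ℂ) f f
  simp only [inner_self_eq_norm_sq_to_K] at h
  have h2 : ((‖f‖ ^ 2 : ℝ) : ℂ) = ((∫ x, ‖f x‖ ^ 2 ∂μ : ℝ) : ℂ) := by
    rw [← integral_complex_ofReal]; push_cast; exact h
  exact_mod_cast h2

lemma koop_cont (hV : area V ≠ 0) (w : Lp ℂ 2 (liouville V)) :
    Continuous fun t => Lp.compMeasurePreservingₗᵢ (E := ℂ) (p := 2) ℂ (psi V t)
      (mp_psi' hV t) w := by
  have := isProb_liouville hV
  set U := fun t => Lp.compMeasurePreservingₗᵢ (E := ℂ) (p := 2) ℂ (psi V t) (mp_psi' hV t)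
  change Continuous fun t => U t w
  suffices h : Continuous fun q : Lp ℂ 2 (liouville V) × ℝ => U q.2 q.1 by
    clear_value U
    exact h.comp (Continuous.prodMk_right w)
  have hd := BoundedContinuousFunction.toLp_denseRange ℂ (liouville V) ℂ (p := 2) (by simp)
  refine continuous_prod_of_dense_continuous_lipschitzWith _ 1 hd ?_ fun t => (U t).lipschitz
  rintro _ ⟨g, rfl⟩
  refine continuous_iff_continuousAt.2 fun s => ?_
  rw [ContinuousAt, tendsto_iff_norm_sub_tendsto_zero]
  have h1 : ∀ t, U t (BoundedContinuousFunction.toLp 2 (liouville V) ℂ g) =ᵐ[liouville V]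
      fun p => g (psi V t p) := fun t =>
    (Lp.coeFn_compMeasurePreserving _ (mp_psi' hV t)).trans
      ((mp_psi' hV t).quasiMeasurePreserving.ae
        (BoundedContinuousFunction.coeFn_toLp 2 (liouville V) ℂ g))
  have h2 : Tendsto (fun t => ∫ p, ‖g (psi V t p) - g (psi V s p)‖ ^ 2 ∂liouville V) (𝓝 s)
      (𝓝 (∫ _, (0 : ℝ) ∂liouville V)) := by
    refine tendsto_integral_filter_of_dominated_convergence (fun _ => (‖g‖ + ‖g‖) ^ 2)
      (Eventually.of_forall fun t => ?_) (Eventually.of_forall fun t =>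
        Eventually.of_forall fun p => ?_) (integrable_const _) ?_
    · have a := g.continuous.measurable.comp (measurable_psi hV t)
      have b := g.continuous.measurable.comp (measurable_psi hV s)
      exact ((a.sub b).norm.pow_const 2).aestronglyMeasurable
    · rw [Real.norm_of_nonneg (by positivity)]
      gcongr
      exact (norm_sub_le _ _).trans (add_le_add (g.norm_coe_le_norm _) (g.norm_coe_le_norm _))
    · filter_upwards [(mp_psi' hV s).quasiMeasurePreserving.ae ((ae_liouville hV).2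
        ((ae_dd_iff hV).mono fun p h => h.1)), ae_mem_dd hV] with p h1 h2
      have h3 : psi V s p ∈ DD V := prj_mem hV (move_mem_gg (t := s).2 h2.1)
      have hc : Continuous fun t : ℝ => move (t - s) (psi V s p) := by unfold move; fun_prop
      have h4 : ∀ᶠ t in 𝓝 s, (move (t - s) (psi V s p)).1 ∈ interior (tri V) :=
        (continuous_fst.comp hc).continuousAt.eventually
          (isOpen_interior.mem_nhds (by simpa using h1))
      have h5 : Tendsto (fun t => ‖g (move (t - s) (psi V s p)) - g (psi V s p)‖ ^ 2) (𝓝 s)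
          (𝓝 0) := by
        have : Continuous fun t => ‖g (move (t - s) (psi V s p)) - g (psi V s p)‖ ^ 2 := by
          fun_prop
        simpa using this.tendsto s
      refine h5.congr' (h4.mono fun t ht => ?_)
      have h6 := psi_psi hV (t - s) s h2.1
      rw [sub_add_cancel, psi, prj_of_mem hV
        (mem_dd_of_interior hV (move_mem_gg.2 h3.1) ht)] at h6
      simp only [← h6]
  rw [integral_zero] at h2
  have h3 := h2.sqrt
  rw [Real.sqrt_zero] at h3
  refine h3.congr fun t => ?_
  rw [Real.sqrt_eq_iff_mul_self_eq (integral_nonneg fun _ => by positivity) (norm_nonneg _),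
    ← sq, norm_sq_L2]
  refine integral_congr_ae ?_
  filter_upwards [Lp.coeFn_sub (U t (BoundedContinuousFunction.toLp 2 (liouville V) ℂ g))
    (U s (BoundedContinuousFunction.toLp 2 (liouville V) ℂ g)), h1 t, h1 s] with p a b c
  rw [a, Pi.sub_apply, b, c]

/-- The Koopman group of the billiard flow. -/
noncomputable def koop (hV : area V ≠ 0) : UGroup (Lp ℂ 2 (liouville V)) where
  U t := Lp.compMeasurePreservingₗᵢ ℂ (psi V t) (mp_psi' hV t)
  add s t w := by
    refine Lp.ext ?_
    have h1 := Lp.coeFn_compMeasurePreserving w (mp_psi' hV t)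
    filter_upwards [Lp.coeFn_compMeasurePreserving (Lp.compMeasurePreserving _ (mp_psi' hV t) w)
      (mp_psi' hV s), (mp_psi' hV s).quasiMeasurePreserving.ae h1,
      Lp.coeFn_compMeasurePreserving w (mp_psi' hV (s + t)), ae_mem_dd hV] with p h1 h2 h3 h4
    refine h1.trans (h2.trans (Eq.trans ?_ h3.symm))
    simp [psi_psi hV _ _ h4.1, add_comm]
  zero w := by
    refine Lp.ext ?_
    filter_upwards [Lp.coeFn_compMeasurePreserving w (mp_psi' hV 0), ae_mem_dd hV] with p h1 h2
    refine h1.trans ?_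
    simp [psi, prj_of_mem hV h2]
  cont := koop_cont hV

lemma koop_ae (hV : area V ≠ 0) (t : ℝ) (w : Lp ℂ 2 (liouville V)) :
    (koop hV).U t w =ᵐ[liouville V] w ∘ psi V t :=
  Lp.coeFn_compMeasurePreserving w (mp_psi' hV t)

end Vale.Agent.P099
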