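import Vale.Agent.P099.Defs

namespace Vale.Agent.P099

open MeasureTheory Set Complex
open scoped ComplexConjugate

lemma norm_dir (θ : UnitAddCircle) : ‖dir θ‖ = 1 := Circle.norm_coe _

lemma dir_mul_conj (θ : UnitAddCircle) : dir θ * conj (dir θ) = 1 := by
  rw [Complex.mul_conj, Complex.normSq_eq_norm_sq, norm_dir]; simp

lemma conj_mul_dir (θ : UnitAddCircle) : conj (dir θ) * dir θ = 1 := by
  rw [mul_comm, dir_mul_conj]

lemma dir_add (a b : UnitAddCircle) : dir (a + b) = dir a * dir b := by
  simp [dir, AddCircle.toCircle_add]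

lemma dir_neg (a : UnitAddCircle) : dir (-a) = conj (dir a) := by
  rw [dir, AddCircle.toCircle_neg, Circle.coe_inv_eq_conj]; rfl

lemma dir_sub (a b : UnitAddCircle) : dir (a - b) = dir a * conj (dir b) := by
  rw [sub_eq_add_neg, dir_add, dir_neg]

lemma dir_coe (x : ℝ) : dir (x : UnitAddCircle) = Complex.exp (2 * Real.pi * x * I) := by
  simp [dir, AddCircle.toCircle_apply_mk, Circle.coe_exp]

lemma dir_half : dir ((1 / 2 : ℝ) : UnitAddCircle) = -1 := by
  rw [dir_coe, ← Complex.exp_pi_mul_I]; congr 1; push_cast; ring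

lemma continuous_dir : Continuous dir :=
  continuous_subtype_val.comp AddCircle.continuous_toCircle

lemma dir_eq_fourier (θ : UnitAddCircle) : dir θ = fourier 1 θ := by
  rw [fourier_one]; rfl

lemma dir_sq (θ : UnitAddCircle) : (dir θ).re ^ 2 + (dir θ).im ^ 2 = 1 := by
  have := congrArg Complex.re (dir_mul_conj θ)
  simp at this; nlinarith

/-- The cross product of two plane vectors. -/
def cross (a b : ℂ) : ℝ := a.re * b.im - a.im * b.re

/-- Twice the signed area. -/
def area (V : Fin 3 → ℂ) : ℝ := cross (V 1 - V 0) (V 2 - V 0)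

/-- Barycentric coordinates. -/
noncomputable def lam (V : Fin 3 → ℂ) (j : Fin 3) (x : ℂ) : ℝ :=
  cross (V (j + 1) - x) (V (j + 2) - x) / area V

lemma area_ne_zero {V : Fin 3 → ℂ} (hV : AffineIndependent ℝ V) : area V ≠ 0 := by
  intro h
  rw [affineIndependent_iff] at hV
  simp only [area, cross, sub_re, sub_im] at h
  have h1 := hV Finset.univ ![(V 2 - V 0).re - (V 1 - V 0).re, -(V 2 - V 0).re, (V 1 - V 0).re]
    (by simp [Fin.sum_univ_three]) (by
      apply Complex.ext <;> simp [Fin.sum_univ_three] <;> linarith)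
  have h2 := hV Finset.univ ![(V 2 - V 0).im - (V 1 - V 0).im, -(V 2 - V 0).im, (V 1 - V 0).im]
    (by simp [Fin.sum_univ_three]) (by
      apply Complex.ext <;> simp [Fin.sum_univ_three] <;> linarith)
  have h3 := hV Finset.univ ![1, -1, 0] (by simp [Fin.sum_univ_three]) (by
      have a := h1 2 (by simp); have b := h2 2 (by simp)
      simp at a b
      apply Complex.ext <;> simp [Fin.sum_univ_three] <;> linarith) 0 (by simp)
  simp at h3

variable {V : Fin 3 → ℂ}

lemma f3 (j : Fin 3) : j + 1 + 1 = j + 2 ∧ j + 1 + 2 = j ∧ j + 2 + 1 = j ∧ j + 2 + 2 = j + 1 := by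
  revert j; decide

lemma f3_cases (i j : Fin 3) : i = j ∨ i = j + 1 ∨ i = j + 2 := by revert i j; decide

lemma area_eq (V : Fin 3 → ℂ) (j : Fin 3) (x : ℂ) :
    area V = cross (V (j + 1) - x) (V (j + 2) - x) + cross (V (j + 2) - x) (V j - x) +
      cross (V j - x) (V (j + 1) - x) := by
  fin_cases j <;> simp [area, cross] <;> ring

lemma lam_sum' (hV : area V ≠ 0) (j : Fin 3) (x : ℂ) :
    lam V j x + lam V (j + 1) x + lam V (j + 2) x = 1 := by
  simp only [lam, (f3 j).1, (f3 j).2.1, (f3 j).2.2.1, (f3 j).2.2.2]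
  rw [← add_div, ← add_div, ← area_eq V j x, div_self hV]

lemma lam_sum (hV : area V ≠ 0) (x : ℂ) : ∑ j, lam V j x = 1 := by
  rw [Fin.sum_univ_three]; exact lam_sum' hV 0 x

lemma lam_comb' (hV : area V ≠ 0) (j : Fin 3) (x : ℂ) :
    lam V j x • V j + lam V (j + 1) x • V (j + 1) + lam V (j + 2) x • V (j + 2) = x := by
  have h := area_eq V j x
  simp only [lam, (f3 j).1, (f3 j).2.1, (f3 j).2.2.1, (f3 j).2.2.2]
  apply Complex.ext <;> simp <;> field_simp <;> rw [h] <;> simp [cross] <;> ring

lemma lam_comb (hV : area V ≠ 0) (x : ℂ) : ∑ j, lam V j x • V j = x := by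
  rw [Fin.sum_univ_three]; exact lam_comb' hV 0 x

lemma lam_affine (j : Fin 3) (x y : ℂ) (a b : ℝ) (hab : a + b = 1) :
    lam V j (a • x + b • y) = a * lam V j x + b * lam V j y := by
  obtain rfl : b = 1 - a := by linarith
  simp [lam, cross]; ring

lemma lam_self (hV : area V ≠ 0) (j : Fin 3) : lam V j (V j) = 1 := by
  have := area_eq V j (V j)
  simp [cross] at this
  rw [lam, div_eq_one_iff_eq hV, this]; simp [cross]

lemma lam_one (j : Fin 3) : lam V j (V (j + 1)) = 0 := by simp [lam, cross]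

lemma lam_two (j : Fin 3) : lam V j (V (j + 2)) = 0 := by simp [lam, cross]

lemma continuous_lam (j : Fin 3) : Continuous (lam V j) := by
  unfold lam cross; fun_prop

lemma convex_tri : Convex ℝ (tri V) := convex_convexHull _ _

lemma mem_tri_vertex (j : Fin 3) : V j ∈ tri V := subset_convexHull _ _ ⟨j, rfl⟩

lemma mem_tri (hV : area V ≠ 0) {x : ℂ} : x ∈ tri V ↔ ∀ j, 0 ≤ lam V j x := by
  constructor
  · intro hx
    refine convexHull_min (t := {x | ∀ j, 0 ≤ lam V j x}) ?_ ?_ hx
    · rintro _ ⟨i, rfl⟩ j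
      rcases f3_cases i j with rfl | rfl | rfl
      · rw [lam_self hV]; exact zero_le_one
      · rw [lam_one]
      · rw [lam_two]
    · intro x hx y hy a b ha hb hab j
      rw [lam_affine j x y a b hab]
      exact add_nonneg (mul_nonneg ha (hx j)) (mul_nonneg hb (hy j))
  · intro h
    rw [← lam_comb hV x]
    exact convex_tri.sum_mem (fun j _ => h j) (lam_sum hV x) fun j _ => mem_tri_vertex j

lemma isCompact_tri : IsCompact (tri V) := (finite_range V).isCompact_convexHull ℝ

lemma isClosed_tri : IsClosed (tri V) := isCompact_tri.isClosed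

lemma mem_interior_tri (hV : area V ≠ 0) {x : ℂ} (h : ∀ j, 0 < lam V j x) :
    x ∈ interior (tri V) := by
  refine mem_interior.2 ⟨{x | ∀ j, 0 < lam V j x}, fun y hy => (mem_tri hV).2 fun j => (hy j).le,
    ?_, h⟩
  rw [ofPred_forall]
  exact isOpen_iInter_of_finite fun j => isOpen_lt continuous_const (continuous_lam j)

/-- A bound for all distances inside the triangle. -/
noncomputable def dm (V : Fin 3 → ℂ) : ℝ := Metric.diam (tri V)

lemma dm_nonneg : 0 ≤ dm V := Metric.diam_nonneg

lemma norm_sub_le_dm {x y : ℂ} (hx : x ∈ tri V) (hy : y ∈ tri V) : ‖x - y‖ ≤ dm V := by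
  rw [← dist_eq_norm]; exact Metric.dist_le_diam_of_mem isCompact_tri.isBounded hx hy

/-- Position of a vertex in the moving frame of a phase point. -/
noncomputable def rel (V : Fin 3 → ℂ) (i : Fin 3) (p : Phase) : ℂ := (V i - p.1) * conj (dir p.2)

/-- The line of `p` leaves the triangle through the open side `j`. -/
def Ex (V : Fin 3 → ℂ) (j : Fin 3) (p : Phase) : Prop :=
  area V * (rel V (j + 1) p).im < 0 ∧ 0 < area V * (rel V (j + 2) p).im

/-- The line of `p` enters the triangle through the open side `j`. -/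
def En (V : Fin 3 → ℂ) (j : Fin 3) (p : Phase) : Prop :=
  area V * (rel V (j + 2) p).im < 0 ∧ 0 < area V * (rel V (j + 1) p).im

/-- The time at which the line of `p` crosses the line of side `j`. -/
noncomputable def cr (V : Fin 3 → ℂ) (j : Fin 3) (p : Phase) : ℝ :=
  cross (rel V (j + 1) p) (rel V (j + 2) p) / ((rel V (j + 2) p).im - (rel V (j + 1) p).im)

/-- Displacement by `z` in the moving frame. -/
noncomputable def sh (z : ℂ) (p : Phase) : Phase := (p.1 + z * dir p.2, p.2)

lemma move_eq_sh (t : ℝ) (p : Phase) : move t p = sh t p := rfl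

lemma sh_sh (z w : ℂ) (p : Phase) : sh z (sh w p) = sh (z + w) p := by
  simp [sh]; ring

@[simp] lemma sh_zero (p : Phase) : sh 0 p = p := by simp [sh]

lemma move_move (s t : ℝ) (p : Phase) : move s (move t p) = move (s + t) p := by
  simp [move_eq_sh, sh_sh]

@[simp] lemma move_zero (p : Phase) : move 0 p = p := by simp [move]

lemma rel_sh (i : Fin 3) (z : ℂ) (p : Phase) : rel V i (sh z p) = rel V i p - z := by
  simp only [rel, sh]
  linear_combination (-z) * dir_mul_conj p.2

lemma rel_move (i : Fin 3) (t : ℝ) (p : Phase) : rel V i (move t p) = rel V i p - t := rel_sh _ _ _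

lemma rel_move_im (i : Fin 3) (t : ℝ) (p : Phase) : (rel V i (move t p)).im = (rel V i p).im := by
  simp [rel_move]

lemma dir_rev (p : Phase) : dir (rev p).2 = -dir p.2 := by
  simp only [rev, dir_add, dir_half]; ring

lemma rel_rev (i : Fin 3) (p : Phase) : rel V i (rev p) = -rel V i p := by
  rw [rel, dir_rev]; simp [rel, rev]

@[simp] lemma rev_rev (p : Phase) : rev (rev p) = p := by
  simp only [rev, add_assoc, ← AddCircle.coe_add]
  norm_num [AddCircle.coe_period]

lemma rev_sh (z : ℂ) (p : Phase) : rev (sh z p) = sh (-z) (rev p) := by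
  have := dir_rev p
  simp only [rev, sh] at this ⊢
  rw [this]; simp

lemma rev_move (t : ℝ) (p : Phase) : rev (move t p) = move (-t) (rev p) := by
  simp [move_eq_sh, rev_sh]

lemma cross_rel (i k : Fin 3) (p : Phase) :
    cross (rel V i p) (rel V k p) = cross (V i - p.1) (V k - p.1) := by
  have := dir_sq p.2
  simp [cross, rel]
  linear_combination ((V i).re * (V k).im - (V i).re * p.1.im - p.1.re * (V k).im -
    (V i).im * (V k).re + (V i).im * p.1.re + p.1.im * (V k).re) * this

lemma lam_move (j : Fin 3) (s : ℝ) (p : Phase) :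
    lam V j (move s p).1 = (cross (rel V (j + 1) p) (rel V (j + 2) p) -
      s * ((rel V (j + 2) p).im - (rel V (j + 1) p).im)) / area V := by
  rw [lam, ← cross_rel, rel_move, rel_move]
  simp [cross]; ring

lemma ex_rev {j : Fin 3} {p : Phase} : Ex V j (rev p) ↔ En V j p := by
  simp [Ex, En, rel_rev, and_comm]

lemma en_rev {j : Fin 3} {p : Phase} : En V j (rev p) ↔ Ex V j p := by
  simp [Ex, En, rel_rev, and_comm]

lemma ex_move {j : Fin 3} {p : Phase} {t : ℝ} : Ex V j (move t p) ↔ Ex V j p := by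
  simp [Ex, rel_move]

lemma en_move {j : Fin 3} {p : Phase} {t : ℝ} : En V j (move t p) ↔ En V j p := by
  simp [En, rel_move]

lemma cr_rev (j : Fin 3) (p : Phase) : cr V j (rev p) = -cr V j p := by
  simp only [cr, rel_rev, cross, neg_re, neg_im]
  rw [← div_neg]; congr 1 <;> ring

lemma Ex.unique {i j : Fin 3} {p : Phase} (hi : Ex V i p) (hj : Ex V j p) : i = j := by
  rcases f3_cases i j with rfl | rfl | rfl
  · rfl
  · have := hi.1; rw [(f3 j).1] at this; linarith [hj.2]
  · have := hi.2; rw [(f3 j).2.2.2] at this; linarith [hj.1]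

lemma Ex.not_en {j : Fin 3} {p : Phase} (hi : Ex V j p) (hj : En V j p) : False := by
  linarith [hi.1, hj.2]

lemma Ex.den {j : Fin 3} {p : Phase} (h : Ex V j p) :
    0 < area V * ((rel V (j + 2) p).im - (rel V (j + 1) p).im) := by
  linarith [h.1, h.2]

lemma Ex.den_ne {j : Fin 3} {p : Phase} (h : Ex V j p) :
    (rel V (j + 2) p).im - (rel V (j + 1) p).im ≠ 0 := by
  intro h0; have := h.den; rw [h0] at this; simp at this

lemma Ex.lam_move {j : Fin 3} {p : Phase} (h : Ex V j p) (s : ℝ) :
    lam V j (move s p).1 = (cr V j p - s) * (((rel V (j + 2) p).im - (rel V (j + 1) p).im) /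
      area V) := by
  rw [P099.lam_move, cr]; field_simp [h.den_ne]

lemma Ex.ratio_pos {j : Fin 3} {p : Phase} (h : Ex V j p) :
    0 < ((rel V (j + 2) p).im - (rel V (j + 1) p).im) / area V := by
  have := h.den
  rcases lt_trichotomy (area V) 0 with h0 | h0 | h0
  · exact div_pos_of_neg_of_neg (by nlinarith) h0
  · simp [h0] at this
  · exact div_pos (by nlinarith) h0

lemma Ex.cr_move {j : Fin 3} {p : Phase} (h : Ex V j p) (t : ℝ) :
    cr V j (move t p) = cr V j p - t := by
  have := h.den_ne
  simp only [cr, rel_move, cross, sub_re, sub_im, ofReal_re, ofReal_im, sub_zero]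
  field_simp; ring

lemma eq_of_rel (i : Fin 3) (p : Phase) : V i = p.1 + rel V i p * dir p.2 := by
  simp only [rel]; linear_combination (p.1 - V i) * conj_mul_dir p.2

lemma Ex.mem_openSegment {j : Fin 3} {p : Phase} (h : Ex V j p) :
    (move (cr V j p) p).1 ∈ openSegment ℝ (V (j + 1)) (V (j + 2)) := by
  have hd := h.den_ne
  have hA : area V ≠ 0 := by intro h0; have := h.1; simp [h0] at this
  refine ⟨(rel V (j + 2) p).im / ((rel V (j + 2) p).im - (rel V (j + 1) p).im),
    -(rel V (j + 1) p).im / ((rel V (j + 2) p).im - (rel V (j + 1) p).im), ?_, ?_, ?_, ?_⟩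
  · rw [← mul_div_mul_left _ _ hA]; exact div_pos h.2 h.den
  · rw [← mul_div_mul_left _ _ hA]; exact div_pos (by linarith [h.1]) h.den
  · field_simp; ring
  · rw [eq_of_rel (V := V) (j + 1) p, eq_of_rel (V := V) (j + 2) p]
    simp only [move, cr, cross]
    have e1 := (Complex.re_add_im (rel V (j + 1) p)).symm
    have e2 := (Complex.re_add_im (rel V (j + 2) p)).symm
    generalize (rel V (j + 1) p).re = a at *
    generalize (rel V (j + 1) p).im = b at *
    generalize (rel V (j + 2) p).re = c at *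
    generalize (rel V (j + 2) p).im = d at *
    rw [e1, e2]
    have hd' : (d : ℂ) - b ≠ 0 := by exact_mod_cast hd
    simp only [real_smul]; push_cast
    field_simp; ring

lemma openSegment_lam (hV : area V ≠ 0) {j : Fin 3} {x : ℂ}
    (h : x ∈ openSegment ℝ (V (j + 1)) (V (j + 2))) :
    lam V j x = 0 ∧ 0 < lam V (j + 1) x ∧ 0 < lam V (j + 2) x := by
  obtain ⟨a, b, ha, hb, hab, rfl⟩ := h
  simp only [lam_affine _ _ _ a b hab, lam_one, lam_two, lam_self hV]
  have h1 := lam_one (V := V) (j + 1)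
  have h2 := lam_two (V := V) (j + 2)
  rw [(f3 j).1] at h1; rw [(f3 j).2.2.2] at h2
  simp [h1, h2, ha, hb]

lemma side_subset (j : Fin 3) : openSegment ℝ (V (j + 1)) (V (j + 2)) ⊆ tri V :=
  (openSegment_subset_segment _ _ _).trans
    (convex_tri.segment_subset (mem_tri_vertex _) (mem_tri_vertex _))

lemma side_unique (hV : area V ≠ 0) {i j : Fin 3} {x : ℂ}
    (hi : x ∈ openSegment ℝ (V (i + 1)) (V (i + 2)))
    (hj : x ∈ openSegment ℝ (V (j + 1)) (V (j + 2))) : i = j := by
  have a := openSegment_lam hV hi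
  have b := openSegment_lam hV hj
  rcases f3_cases i j with rfl | rfl | rfl
  · rfl
  · linarith [a.1, b.2.1]
  · linarith [a.1, b.2.2]

lemma Ex.le_cr (hV : area V ≠ 0) {j : Fin 3} {p : Phase} (h : Ex V j p) {s : ℝ}
    (hs : (move s p).1 ∈ tri V) : s ≤ cr V j p := by
  have := (mem_tri hV).1 hs j
  rw [h.lam_move] at this
  have := nonneg_of_mul_nonneg_left this h.ratio_pos
  linarith

lemma Ex.exitTime_eq (hV : area V ≠ 0) {j : Fin 3} {p : Phase} (h : Ex V j p) :
    exitTime V p = cr V j p :=
  IsGreatest.csSup_eq ⟨side_subset j h.mem_openSegment, fun _ hs => h.le_cr hV hs⟩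

end Vale.Agent.P099
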