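import Vale.Agent.P099.Const

namespace Vale.Agent.P099

open MeasureTheory Set Complex Filter Topology
open scoped ComplexConjugate InnerProductSpace NNReal Interval EuclideanGeometry symmDiff

set_option linter.unusedSectionVars false

variable {V : Fin 3 → ℂ}

lemma measurable_of_dist {α E : Type*} [MeasurableSpace α] [PseudoMetricSpace E]
    [SecondCountableTopology E] [MeasurableSpace E] [BorelSpace E] {u : α → E}
    (h : ∀ w, Measurable fun a => dist (u a) w) : Measurable u := by
  refine measurable_of_isOpen fun U hU => ?_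
  choose r hr hb using fun w : U => Metric.isOpen_iff.1 hU w w.2
  obtain ⟨T, hT, e⟩ := TopologicalSpace.isOpen_iUnion_countable
    (fun w : U => Metric.ball (w : E) (r w)) fun _ => Metric.isOpen_ball
  have : U = ⋃ w ∈ T, Metric.ball (w : E) (r w) := by
    rw [e]
    exact Subset.antisymm (fun x hx => mem_iUnion.2 ⟨⟨x, hx⟩, Metric.mem_ball_self (hr _)⟩)
      (iUnion_subset hb)
  rw [this, preimage_iUnion₂]
  exact MeasurableSet.biUnion hT fun w _ => measurableSet_lt (h w) measurable_const

section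
variable {H : Type*} [NormedAddCommGroup H] [InnerProductSpace ℂ H] [CompleteSpace H]
  [MeasurableSpace H] [BorelSpace H] [SecondCountableTopology H] {G : UGroup H}

lemma exists_exact {u : Phase → H} (hm : Measurable u) (hb : ∀ p, ‖u p‖ ≤ 1)
    (h : ∀ t, ∀ᵐ p ∂nu, G.U t (u (move t p)) = u p) : ∃ v : Phase → H, Measurable v ∧
      (∀ p, ‖v p‖ ≤ 1) ∧ (∀ t p, v (move t p) = G.U (-t) (v p)) ∧ v =ᵐ[nu] u := by
  classical
  have m1 : Measurable fun q : ℝ × Phase => G.U q.1 (u (move q.1 q.2)) :=
    G.cont₂.measurable.comp (measurable_fst.prodMk (hm.comp continuous_move.measurable))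
  set w : Phase → H := fun p => (1 / (2 * 1 : ℝ)) • ∫ s in (-1 : ℝ)..1, G.U s (u (move s p))
  have mw : Measurable w := (measurable_intervalIntegral m1 one_pos).const_smul _
  have hw : ∀ p c, (∀ᵐ s : ℝ, G.U s (u (move s p)) = c) → w p = c := fun p c hc => by
    simp only [w]
    rw [intervalIntegral.integral_congr_ae (g := fun _ => c) (hc.mono fun s hs _ => hs)]
    simp [smul_smul]; norm_num
  have mS : MeasurableSet {p | ∀ᵐ s : ℝ, G.U s (u (move s p)) = w p} := by
    have := measurable_measure_prodMk_left (ν := (volume : Measure ℝ))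
      (measurableSet_eq_fun (m1.comp measurable_swap) (mw.comp measurable_fst)).compl
    exact this (measurableSet_singleton 0)
  have mv : ∀ t p, (∀ᵐ s : ℝ, G.U s (u (move s p)) = w p) →
      ∀ᵐ s : ℝ, G.U s (u (move s (move t p))) = G.U (-t) (w p) := fun t p hp => by
    filter_upwards [(measurePreserving_add_right volume t).quasiMeasurePreserving.ae hp] with s hs
    rw [← hs, G.add, move_move]; congr 2; ring
  refine ⟨indicator {p | ∀ᵐ s : ℝ, G.U s (u (move s p)) = w p} w, mw.indicator mS, fun p => ?_,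
    fun t p => ?_, ?_⟩
  · exact (norm_indicator_le_norm_self _ _).trans (norm_avg_le one_pos fun s => by simp [hb])
  · by_cases hp : p ∈ {p | ∀ᵐ s : ℝ, G.U s (u (move s p)) = w p}
    · have h1 := mv t p hp
      have h2 := hw _ _ h1
      rw [indicator_of_mem hp, indicator_of_mem (by rwa [mem_ofPred_eq, h2]), h2]
    · rw [indicator_of_notMem hp, indicator_of_notMem, map_zero]
      intro h1
      have h2 := mv (-t) _ h1
      simp only [move_move, neg_add_cancel, move_zero] at h2
      exact hp (by rwa [mem_ofPred_eq, hw _ _ h2])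
  · filter_upwards [(Measure.ae_ae_comm (μ := (volume : Measure ℝ)) (ν := nu)
      (measurableSet_eq_fun m1 (hm.comp measurable_snd))).1 (Eventually.of_forall h)] with p hp
    have h2 := hw _ _ hp
    rw [indicator_of_mem (by rwa [mem_ofPred_eq, h2]), h2]

theorem cocycle_const (hV : area V ≠ 0) {j : Fin 3}
    (hj : Irrational (∠ (V (j + 1)) (V j) (V (j + 2)) / Real.pi)) {u : Phase → H}
    (hm : Measurable u) (hb : ∀ p, ‖u p‖ ≤ 1)
    (h : ∀ t, ∀ᵐ p ∂liouville V, G.U t (u (psi V t p)) = u p) :
    ∃ c, ∀ᵐ p ∂liouville V, u p = c := by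
  obtain ⟨v, mv, bv, ev, hv⟩ := exists_exact (G := G) (u := indicator (GG V) fun p => u (prj V p))
    ((hm.comp (measurable_prj hV)).indicator measurableSet_gg)
    (fun p => (norm_indicator_le_norm_self _ _).trans (hb _)) fun t => by
      filter_upwards [ae_all_iff.2 fun n : ℤ => (mp_zpow hV n).quasiMeasurePreserving.ae
        ((ae_liouville hV).1 (h t))] with p hp
      by_cases hg : p ∈ GG V
      · obtain ⟨n, hn⟩ := exists_dd hV hg
        have := hp n hn
        rw [← prj_eq hV hn, psi_prj hV t hg] at this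
        rw [indicator_of_mem hg, indicator_of_mem (move_mem_gg.2 hg)]
        exact this
      · rw [indicator_of_notMem hg, indicator_of_notMem (by rwa [move_mem_gg]), map_zero]
  have hE : Eqv V G v := ⟨mv, bv, ev, by
    filter_upwards [hv, ae_all_iff.2 fun j => (mp_sig (V := V) j).quasiMeasurePreserving.ae hv,
      ae_gg hV, ae_nv (V := V)] with p a1 a2 a3 a4 i hi
    have hg := a3 (hi.cr_of_nv hV a4)
    rw [a1, a2, ← hi.gam_eq, indicator_of_mem hg, indicator_of_mem (GG.gam_mem hg), ← gp_of_mem hg,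
      ← prj_zpow hV 1 hg, zpow_one]⟩
  obtain ⟨c, hc⟩ := hE.const hV hj
  refine ⟨c, (ae_liouville hV).2 ?_⟩
  filter_upwards [hv, (ae_liouville hV).1 hc] with p a b hp
  rw [← b hp, a, indicator_of_mem hp.1, prj_of_mem hV hp]

end

lemma slice_const (hV : area V ≠ 0) {j : Fin 3}
    (hj : Irrational (∠ (V (j + 1)) (V j) (V (j + 2)) / Real.pi)) {A : Set (Phase × Phase)}
    (hA : MeasurableSet A) (h : ∀ t, ∀ᵐ z ∂(liouville V).prod (liouville V),
      (psi V t z.1, psi V t z.2) ∈ A ↔ z ∈ A) :
    ∃ B : Set Phase, ∀ᵐ z ∂(liouville V).prod (liouville V), z ∈ A ↔ z.2 ∈ B := by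
  have := isProb_liouville hV
  borelize ↥(Lp ℂ 2 (liouville V))
  have : Fact ((2 : ENNReal) ≠ ⊤) := ⟨by simp⟩
  set u : Phase → Lp ℂ 2 (liouville V) := fun p =>
    indicatorConstLp 2 (measurable_prodMk_left (x := p) hA) (measure_ne_top _ _) (1 : ℂ)
  have hu : ∀ p, u p =ᵐ[liouville V] fun q => A.indicator 1 (p, q) := fun p =>
    indicatorConstLp_coeFn
  have mu : Measurable u := measurable_of_dist fun w => by
    have e : (fun p => dist (u p) w) =
        fun p => √(∫ q, ‖A.indicator (1 : Phase × Phase → ℂ) (p, q) - w q‖ ^ 2 ∂liouville V) := by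
      ext p
      rw [dist_eq_norm, ← Real.sqrt_sq (norm_nonneg _), norm_sq_L2]
      congr 1
      refine integral_congr_ae ?_
      filter_upwards [Lp.coeFn_sub (u p) w, hu p] with q a b
      rw [a, Pi.sub_apply, b]
    rw [e]
    exact (((measurable_one.indicator hA).sub ((Lp.stronglyMeasurable w).measurable.comp
      measurable_snd)).norm.pow_const 2).stronglyMeasurable.integral_prod_right'.measurable.sqrt
  obtain ⟨c, hc⟩ := cocycle_const (G := koop hV) hV hj mu (fun p => by
      refine norm_indicatorConstLp_le.trans ?_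
      simpa using Real.rpow_le_one measureReal_nonneg measureReal_le_one (by positivity))
    fun t => by
      filter_upwards [Measure.ae_ae_of_ae_prod (h t)] with p hp
      refine Lp.ext ?_
      filter_upwards [koop_ae hV t (u (psi V t p)), hu p, hp,
        (mp_psi' hV t).quasiMeasurePreserving.ae (hu (psi V t p))] with q a b d e
      rw [a, b, Function.comp, e]
      by_cases h : (p, q) ∈ A
      · rw [indicator_of_mem h, indicator_of_mem (d.2 h)]; rfl
      · rw [indicator_of_notMem h, indicator_of_notMem fun h' => h (d.1 h')]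
  refine ⟨{q | c q = 1}, (Measure.ae_prod_iff_ae_ae (hA.iff (measurable_snd
    ((Lp.stronglyMeasurable c).measurable (measurableSet_singleton 1))))).2
    (hc.mono fun p hp => (hu p).mono fun q hq => ?_)⟩
  change (p, q) ∈ A ↔ c q = 1
  rw [← hp, hq]
  by_cases h : (p, q) ∈ A <;> simp [h]

theorem weak_mixing (hV : area V ≠ 0) {j : Fin 3}
    (hj : Irrational (∠ (V (j + 1)) (V j) (V (j + 2)) / Real.pi)) :
    IsErgodicFlow ((liouville V).prod (liouville V)) fun t => Prod.map (flow V t) (flow V t) := by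
  intro A hA h
  have := isProb_liouville hV
  have h1 : ∀ t, ∀ᵐ z ∂(liouville V).prod (liouville V),
      (psi V t z.1, psi V t z.2) ∈ A ↔ z ∈ A := fun t => by
    filter_upwards [measure_symmDiff_eq_zero_iff.1 (h t),
      Measure.quasiMeasurePreserving_fst.ae (ae_flow_eq' hV t),
      Measure.quasiMeasurePreserving_snd.ae (ae_flow_eq' hV t)] with z a b c
    rw [← b, ← c]; exact a.to_iff
  obtain ⟨B, hB⟩ := slice_const hV hj hA h1
  obtain ⟨C, hC⟩ := slice_const hV hj (measurable_swap hA) fun t =>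
    Measure.measurePreserving_swap.quasiMeasurePreserving.ae (h1 t)
  have h2 := Measure.measurePreserving_swap.quasiMeasurePreserving.ae hC
  obtain ⟨p, hp⟩ := (Measure.ae_ae_of_ae_prod (hB.and h2)).exists
  have h3 : ∀ᵐ z ∂(liouville V).prod (liouville V), z ∈ A ↔ p ∈ C := by
    filter_upwards [hB, Measure.quasiMeasurePreserving_snd.ae hp] with z a b
    exact a.trans (b.1.symm.trans b.2)
  by_cases hc : p ∈ C
  · exact Or.inr ((mem_ae_iff_prob_eq_one hA).1 (h3.mono fun z hz => hz.2 hc))
  · exact Or.inl (measure_eq_zero_iff_ae_notMem.2 (h3.mono fun z hz h => hc (hz.1 h)))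

lemma ergodic_of_weak {α : Type*} [MeasurableSpace α] {μ : Measure α} [IsProbabilityMeasure μ]
    {Φ : ℝ → α → α} (h : IsErgodicFlow (μ.prod μ) fun t => Prod.map (Φ t) (Φ t)) :
    IsErgodicFlow μ Φ := by
  intro A hA hi
  have := h (A ×ˢ univ) (hA.prod MeasurableSet.univ) fun t => by
    rw [show (Prod.map (Φ t) (Φ t) ⁻¹' A ×ˢ univ) ∆ (A ×ˢ univ) = ((Φ t ⁻¹' A) ∆ A) ×ˢ univ by
      ext; simp [mem_symmDiff], Measure.prod_prod, hi t, zero_mul]
  simpa [Measure.prod_prod] using this

lemma mp_flow (hV : area V ≠ 0) (t : ℝ) :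
    AEMeasurable (flow V t) (liouville V) ∧ (liouville V).map (flow V t) = liouville V :=
  ⟨(measurable_psi hV t).aemeasurable.congr (ae_flow_eq' hV t).symm, by
    rw [Measure.map_congr (ae_flow_eq' hV t), (mp_psi' hV t).map_eq]⟩

lemma flow_flow (hV : area V ≠ 0) (s t : ℝ) :
    ∀ᵐ p ∂liouville V, flow V s (flow V t p) = flow V (s + t) p := by
  filter_upwards [ae_flow_eq' hV t, ae_flow_eq' hV (s + t), ae_mem_dd hV,
    (mp_psi' hV t).quasiMeasurePreserving.ae (ae_flow_eq' hV s)] with p a b c d
  rw [a, b, d, psi_psi hV s t c.1]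

lemma hitTime_tendsto (hV : area V ≠ 0) : ∀ᵐ p ∂liouville V,
    Tendsto (hitTime V p) atTop atTop ∧ Tendsto (hitTime V (rev p)) atTop atTop := by
  have key : ∀ p ∈ Gf V, Tendsto (hitTime V p) atTop atTop := fun p hp =>
    (tendsto_add_atTop_iff_nat 1).1 (hp.2.congr fun n => (bounce_iterate hV hp.1 n).2.symm)
  filter_upwards [ae_mem_dd hV] with p hp using ⟨key _ hp.1.1, key _ hp.1.2⟩

end Vale.Agent.P099
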