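import Vale.Agent.P099.Approx

namespace Vale.Agent.P099

open MeasureTheory Set Complex Filter Topology
open scoped ComplexConjugate InnerProductSpace NNReal Interval

set_option linter.unusedSectionVars false

variable {H : Type*} [NormedAddCommGroup H] [InnerProductSpace ℂ H] [CompleteSpace H]
  [MeasurableSpace H] [BorelSpace H] [SecondCountableTopology H]

variable {V : Fin 3 → ℂ} {G : UGroup H} {v : Phase → H} {T η τ : ℝ} {L : ℕ}

lemma ae_mq_mem : ∀ᵐ p ∂mq V, p.1 ∈ interior (tri V) :=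
  ae_mq (measurable_fst isOpen_interior.measurableSet) fun _ => Eventually.of_forall fun _ h => h

lemma integrable_of_abs_le {φ : Phase → ℝ} (h : Measurable φ) {C : ℝ} (hC : ∀ p, |φ p| ≤ C) :
    Integrable φ (mq V) :=
  (integrable_const C).mono' h.aestronglyMeasurable (Eventually.of_forall hC)

lemma close_ff (h : Eqv V G v) (hV : area V ≠ 0) (hL : 1 ≤ L) (hT : dm V ≤ T) (hT0 : 0 < T)
    (hη : 0 < η) {F : H → H} (hF : ∀ a b, F a - F b = F (a - b)) (hF' : ∀ w, ‖F w‖ ≤ 2 * ‖w‖)
    {ω : ℝ} (hω : ∫ p, ‖sa η (sa η v) p - v p‖ ∂mq V ≤ ω) :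
    ∫ p, ‖ff V T η L v F p - F (v p)‖ ^ 2 ∂mq V ≤
      8 * (ω + 48 * Real.exp L ^ 2 * (T * (2 * η))) := by
  have hη2 : 0 < 2 * η := by positivity
  have i1 := ((((h.bm.sa hη).sa hη).sub h.bm).integrable (mq V)).norm
  have i2 : Integrable (fun p => 1 - chi V T (2 * η) L p) (mq V) :=
    integrable_of_abs_le (measurable_const.sub measurable_chi) (C := 1) fun p => abs_le.2
      ⟨by linarith [chi_le_one (V := V) (T := T) (η := 2 * η) (L := L) p],
        by linarith [chi_nonneg (V := V) (L := L) hT0 hη2 p]⟩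
  refine (integral_mono_of_nonneg (Eventually.of_forall fun _ => sq_nonneg _)
    ((i1.add i2).const_mul 8) (ae_mq_mem.mono fun p hp => ?_)).trans ?_
  · have a1 := chi_nonneg (V := V) (L := L) hT0 hη2 p
    have a2 := chi_le_one (V := V) (T := T) (η := 2 * η) (L := L) p
    have a3 := (hF' _).trans (mul_le_mul_of_nonneg_left (h.bdd p) zero_le_two)
    have a4 := (hF' _).trans (mul_le_mul_of_nonneg_left (h.bdd2 hη p) zero_le_two)
    have a5 := hF' (sa η (sa η v) p - v p)
    simp only [ff, ps_of_mem hV (interior_subset hp), ret_of_mem hV (interior_subset hp),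
      Pi.add_apply, ← hF] at a5 ⊢
    generalize chi V T (2 * η) L p = c at *
    generalize F (sa η (sa η v) p) = a at *
    generalize F (v p) = b at *
    have b1 : ‖c • a - b‖ ≤ 4 := by
      refine (norm_sub_le _ _).trans ?_
      rw [norm_smul, Real.norm_of_nonneg a1]; nlinarith [norm_nonneg a]
    have b2 : ‖c • a - b‖ ≤ 2 * (‖sa η (sa η v) p - v p‖ + (1 - c)) := by
      rw [show c • a - b = (a - b) - (1 - c) • a by module]
      refine (norm_sub_le _ _).trans ?_
      rw [norm_smul, Real.norm_of_nonneg (by linarith)]; nlinarith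
    nlinarith [norm_nonneg (c • a - b)]
  · rw [integral_const_mul, integral_add' i1 i2]
    have := integral_one_sub_chi hV hL hT hT0 hη2
    gcongr

lemma step (h : Eqv V G v) (hV : area V ≠ 0) (hL : 1 ≤ L) (h0 : 0 ≤ τ) (h1 : τ ≤ 1) :
    ∃ (f A : Phase → H) (γ : ℝ), BM f ∧ BM A ∧
      ∫ p, ‖f p - G.tk τ (v p)‖ ^ 2 ∂mq V ≤ 800 / L ∧
      ∫ p, ‖A p - (G.U τ (v p) - v p)‖ ^ 2 ∂mq V ≤ 800 / L ∧ 0 ≤ γ ∧ γ ^ 2 ≤ 2000 / L ∧ ∀ k,
      2 * (‖LL V A k‖ ^ 2 + ‖LL V A (-k)‖ ^ 2) ≤ (‖LL V A (k - 1)‖ ^ 2 + ‖LL V A (-(k - 1))‖ ^ 2) +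
        (‖LL V A (k + 1)‖ ^ 2 + ‖LL V A (-(k + 1))‖ ^ 2) + 16 * (4000 / L) +
        4 * γ * (‖LL V A k‖ + ‖LL V A (-k)‖) ∧
      ∀ (a : ℂ) (δ : ℝ), 0 < δ → ∫ x in interior (tri V) ∩ {x | x + a ∈ interior (tri V)},
        ‖md f k (x + a) - md f k x‖ ≤ ‖a‖ * (δ * (vq V).real univ +
          (‖LL V A k‖ ^ 2 + ‖LL V A (-k)‖ ^ 2 + 8 * (4000 / L)) / δ) := by
  have hL' : (1 : ℝ) ≤ L := by exact_mod_cast hL
  have hE : 1 ≤ Real.exp L ^ 2 := one_le_pow₀ (Real.one_le_exp (by positivity))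
  obtain ⟨s, hs, hs1, hs2⟩ : ∃ s : ℝ, 0 < s ∧ s ≤ 1 ∧ Real.exp L ^ 2 * s = 1 / L :=
    ⟨1 / (L * Real.exp L ^ 2), by positivity, (div_le_one (by positivity)).2 (by nlinarith),
      by field_simp⟩
  obtain ⟨δ, hδ, hω⟩ := Metric.eventually_nhds_iff.1
    ((tendsto_sh (V := V) h.bm).eventually (ge_mem_nhds (show 0 < s / L by positivity)))
  have hdm := dm_nonneg (V := V)
  obtain ⟨η, hη, a1, a2, a3⟩ : ∃ η : ℝ, 0 < η ∧ η ≤ s ∧ η ≤ δ / 3 ∧ η ≤ s / (dm V + 1) :=
    ⟨min s (min (δ / 3) (s / (dm V + 1))), by positivity, min_le_left _ _,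
      (min_le_right _ _).trans (min_le_left _ _), (min_le_right _ _).trans (min_le_right _ _)⟩
  obtain ⟨T, hT0, hT, hTs⟩ : ∃ T : ℝ, 0 < T ∧ dm V ≤ T ∧ T = s / η := by
    refine ⟨s / η, by positivity, ?_, rfl⟩
    rw [le_div_iff₀ (by positivity)] at a3 ⊢; nlinarith
  have hη2 : 0 < 2 * η := by positivity
  obtain ⟨b1, b2⟩ := integral_sa_sub (μ := mq V) h.bm hη (ε := s / L) fun r hr =>
    hω (by rw [Real.dist_eq, sub_zero]; linarith)
  obtain ⟨K, R, hA⟩ := appx_ff h hV hL hT hT0 hη h0 h1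
  have c0 : 8 * (s / L + 48 * Real.exp L ^ 2 * (T * (2 * η))) ≤ 800 / L := by
    have : 48 * Real.exp L ^ 2 * (T * (2 * η)) = 96 / L := by
      calc _ = 96 * (Real.exp L ^ 2 * s) := by rw [hTs]; field_simp; ring
        _ = _ := by rw [hs2]; ring
    rw [this, ← add_div, ← mul_div_assoc]; gcongr; linarith
  have w := integral_wt_sq hV hL hT hT0 hη2
  have w1 : ∫ p, wt V T (2 * η) L p ^ 2 ∂mq V ≤ 2000 * s / L := by
    refine w.trans ?_
    have : Real.exp 1 ^ 2 ≤ 3 ^ 2 := by gcongr; linarith [Real.exp_one_lt_d9]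
    rw [show T * (2 * η) = 2 * s by rw [hTs]; field_simp]
    gcongr ?_ / _; nlinarith
  have mw := measurable_wt (V := V) (T := T) (η := 2 * η) (L := L)
  have bw : ∀ p, |wt V T (2 * η) L p| ≤ 1 := fun p => by
    rw [abs_of_nonneg (wt_nonneg hT0 hη2 p)]; exact wt_le_one hL hT0 hη2 p
  have iw : Integrable (fun p => wt V T (2 * η) L p ^ 2) (mq V) :=
    integrable_of_abs_le (mw.pow_const 2) (C := 1) fun p => by
      rw [abs_pow]; exact pow_le_one₀ (abs_nonneg _) (bw p)
  have bs : BM (sd η v) := ⟨measurable_sd h.meas hη, _, norm_sd_le hη h.bdd⟩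
  have hm := hA.main hV (γf := fun p => wt V T (2 * η) L p / T)
    (υf := fun p => wt V T (2 * η) L p / η + ‖sd η v p‖) (mw.div_const _)
    ((mw.div_const _).add bs.meas.norm) (by simpa only [div_pow] using iw.div_const _)
    (integrable_of_abs_le (((mw.div_const _).add bs.meas.norm).pow_const 2)
      (C := (1 / η + 1 / η) ^ 2) fun p => by
        rw [abs_pow]; gcongr
        refine (abs_add_le _ _).trans (add_le_add ?_ (by simpa using norm_sd_le hη h.bdd p))
        rw [abs_div, abs_of_pos hη]; gcongr; exact bw p)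
    (γ := √(2000 * s / L) / T) (υ := √(8000 * s / L) / η) (by positivity) (by positivity)
    (by
      simp only [div_pow, integral_div, Real.sq_sqrt (show 0 ≤ 2000 * s / L by positivity)]
      gcongr)
    (by
      have i2 := (bs.integrable (mq V)).norm
      refine (integral_mono_of_nonneg (Eventually.of_forall fun _ => sq_nonneg _)
        ((iw.const_mul (2 / η ^ 2)).add (i2.const_mul (2 / η))) (Eventually.of_forall fun p => ?_)).trans ?_
      · have := norm_sd_le hη h.bdd p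
        have e : (wt V T (2 * η) L p / η) ^ 2 = 1 / η ^ 2 * wt V T (2 * η) L p ^ 2 := by ring
        have e2 : ‖sd η v p‖ ^ 2 ≤ 1 / η * ‖sd η v p‖ := by rw [sq]; gcongr
        simp only [Pi.add_apply]
        calc _ ≤ 2 * (wt V T (2 * η) L p / η) ^ 2 + 2 * ‖sd η v p‖ ^ 2 := by
              nlinarith [sq_nonneg (wt V T (2 * η) L p / η - ‖sd η v p‖)]
          _ ≤ 2 * (1 / η ^ 2 * wt V T (2 * η) L p ^ 2) + 2 * (1 / η * ‖sd η v p‖) := by
              rw [e]; gcongr
          _ = _ := by ring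
      · rw [integral_add' (iw.const_mul _) (i2.const_mul _), integral_const_mul, integral_const_mul,
          div_pow, Real.sq_sqrt (by positivity)]
        calc _ ≤ 2 / η ^ 2 * (2000 * s / L) + 2 / η * (s / L / η) := by gcongr
          _ = 4002 * s / L / η ^ 2 := by field_simp; ring
          _ ≤ _ := by gcongr; norm_num)
    (bound_ff h hV hL hT hT0 hη h0 h1)
  have e : √(2000 * s / L) / T * (√(8000 * s / L) / η) = 4000 / L := by
    rw [div_mul_div_comm, ← Real.sqrt_mul (by positivity), hTs,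
      show 2000 * s / L * (8000 * s / L) = (4000 * s / L) ^ 2 by ring, Real.sqrt_sq (by positivity)]
    field_simp
  rw [e] at hm
  refine ⟨_, _, √(2000 * s / L) / T, hA.bm, hA.bmA, (close_ff h hV hL hT hT0 hη
    (fun a b => (map_sub _ _ _).symm) (fun w => (G.norm_tk_le h0 h1 w).trans
    (by linarith [norm_nonneg w])) b1).trans c0, (close_ff h hV hL hT hT0 hη
    (F := fun w => G.U τ w - w) (fun a b => by simp only [map_sub]; abel) (norm_U_sub G τ)
    b1).trans c0, by positivity, ?_, hm⟩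
  rw [div_pow, Real.sq_sqrt (by positivity)]
  have : 1 ≤ T := by rw [hTs, one_le_div hη]; exact a1
  calc 2000 * s / L / T ^ 2 ≤ (2000 : ℝ) * 1 / L / 1 := by gcongr; exact one_le_pow₀ this
    _ = _ := by ring

lemma integral_md_le {φ : Phase → H} (h : BM φ) (k : ℤ) {δ : ℝ} (hδ : 0 < δ) :
    ∫ x, ‖md φ k x‖ ∂vq V ≤ δ * (vq V).real univ + (∫ p, ‖φ p‖ ^ 2 ∂mq V) / δ := by
  have i := ((h.md k).integrable_sq (vq V)).div_const δ
  refine (integral_mono_of_nonneg (Eventually.of_forall fun _ => norm_nonneg _)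
    ((integrable_const δ).add i) (Eventually.of_forall fun x => ?_)).trans ?_
  · simp only [Pi.add_apply]
    rw [← sub_le_iff_le_add', le_div_iff₀ hδ]
    nlinarith [sq_nonneg (‖md φ k x‖ - δ), norm_nonneg (md φ k x)]
  · rw [integral_add' (integrable_const δ) i, integral_const, integral_div, ← norm_sq_LL h,
      smul_eq_mul, mul_comm]
    gcongr
    simpa using bessel_LL h {k}

lemma tri_ineq {f g : ℂ → H} (bf : BM f) (bg : BM g) (a : ℂ) :
    ∫ x in interior (tri V) ∩ {x | x + a ∈ interior (tri V)}, ‖g (x + a) - g x‖ ≤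
      (∫ x in interior (tri V) ∩ {x | x + a ∈ interior (tri V)}, ‖f (x + a) - f x‖) +
      2 * ∫ x, ‖f x - g x‖ ∂vq V := by
  have b3 := bf.sub bg
  have fin : IsFiniteMeasure (volume.restrict
      (interior (tri V) ∩ {x | x + a ∈ interior (tri V)})) :=
    isFiniteMeasure_restrict.2 (ne_top_of_le_ne_top vol_fin (measure_mono inter_subset_left))
  have i1 : Integrable (fun x => ‖f (x + a) - f x‖)
      (volume.restrict (interior (tri V) ∩ {x | x + a ∈ interior (tri V)})) :=
    (((bf.comp (measurable_add_const a)).sub bf).integrable _).norm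
  have i2 : Integrable (fun x => ‖f (x + a) - g (x + a)‖)
      (volume.restrict (interior (tri V) ∩ {x | x + a ∈ interior (tri V)})) :=
    ((b3.comp (measurable_add_const a)).integrable _).norm
  have i3 : Integrable (fun x => ‖f x - g x‖)
      (volume.restrict (interior (tri V) ∩ {x | x + a ∈ interior (tri V)})) :=
    (b3.integrable _).norm
  have i4 : IntegrableOn (fun x => ‖f x - g x‖) (interior (tri V)) := (b3.integrable (vq V)).norm
  have d4 := setIntegral_mono_set (s := interior (tri V) ∩ {x | x + a ∈ interior (tri V)}) i4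
    (Eventually.of_forall fun _ => norm_nonneg _) (LE.le.eventuallyLE inter_subset_left)
  have e := (measurePreserving_add_right (volume : Measure ℂ) a).setIntegral_preimage_emb
    (measurableEmbedding_addRight _) (fun x => ‖f x - g x‖) (interior (tri V))
  have d5 : ∫ x in interior (tri V) ∩ {x | x + a ∈ interior (tri V)}, ‖f (x + a) - g (x + a)‖ ≤
      ∫ x in (· + a) ⁻¹' interior (tri V), ‖f (x + a) - g (x + a)‖ :=
    setIntegral_mono_set (((measurePreserving_add_right (volume : Measure ℂ) a).integrableOn_comp_preimage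
      (measurableEmbedding_addRight _) (f := fun x => ‖f x - g x‖)).2 i4)
      (Eventually.of_forall fun _ => norm_nonneg _) (LE.le.eventuallyLE inter_subset_right)
  refine (integral_mono_of_nonneg (Eventually.of_forall fun _ => norm_nonneg _)
    ((i1.add i2).add i3) (Eventually.of_forall fun x => ?_)).trans ?_
  · simp only [Pi.add_apply]
    rw [show g (x + a) - g x = (f (x + a) - f x) - (f (x + a) - g (x + a)) + (f x - g x) by abel]
    exact (norm_add_le _ _).trans (add_le_add (norm_sub_le _ _) le_rfl)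
  · rw [integral_add' (i1.add i2) i3, integral_add' i1 i2]
    linarith

lemma Eqv.bm_tk (h : Eqv V G v) (h0 : 0 ≤ τ) (h1 : τ ≤ 1) : BM fun p => G.tk τ (v p) :=
  ⟨(G.tk τ).continuous.measurable.comp h.meas, 1, fun p => (G.norm_tk_le h0 h1 _).trans (h.bdd p)⟩

lemma translate_zero (h : Eqv V G v) (hV : area V ≠ 0) (h0 : 0 ≤ τ) (h1 : τ ≤ 1) (k : ℤ) (a : ℂ) :
    ∫ x in interior (tri V) ∩ {x | x + a ∈ interior (tri V)},
      ‖md (fun p => G.tk τ (v p)) k (x + a) - md (fun p => G.tk τ (v p)) k x‖ = 0 := by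
  choose f A γ bf bA c1 c2 g0 g1 hm using fun n : ℕ => step h hV (L := n + 1) (by omega) h0 h1
  have t0 : ∀ C : ℝ, Tendsto (fun n : ℕ => C / ((n + 1 : ℕ) : ℝ)) atTop (𝓝 0) := fun C =>
    (tendsto_const_div_atTop_nhds_zero_nat C).comp (tendsto_add_atTop_nat 1)
  have b1 := h.bm_tk h0 h1
  have b2 : BM fun p => G.U τ (v p) - v p := (h.bm.isometry _).sub h.bm
  have t1 := fun k => (tendsto_LL bA b2 (squeeze_zero
    (fun _ => integral_nonneg fun _ => sq_nonneg _) c2 (t0 _)) k).norm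
  have t2 : Tendsto γ atTop (𝓝 0) := by
    have := (squeeze_zero (fun n => sq_nonneg (γ n)) g1 (t0 _)).sqrt
    simpa [fun n => Real.sqrt_sq (g0 n)] using this
  have t3 := fun k => ((t1 k).pow 2).add ((t1 (-k)).pow 2)
  have z := convex_seq (α := fun k => ‖LL V (fun p => G.U τ (v p) - v p) k‖ ^ 2 +
    ‖LL V (fun p => G.U τ (v p) - v p) (-k)‖ ^ 2)
    ((summable_LL b2).add ((Equiv.neg ℤ).summable_iff.2 (summable_LL b2))) fun k => by
      have := le_of_tendsto_of_tendsto' ((t3 k).const_mul 2) ((((t3 (k - 1)).add (t3 (k + 1))).add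
        ((t0 4000).const_mul 16)).add ((t2.const_mul 4).mul ((t1 k).add (t1 (-k)))))
        fun n => (hm n k).1
      simpa using this
  simp only [z] at t3
  refine le_antisymm (le_of_forall_pos_le_add fun ε hε => ?_) (integral_nonneg fun _ => norm_nonneg _)
  have hv : 0 ≤ (vq V).real univ := measureReal_nonneg
  obtain ⟨δ, hδ0, hδ⟩ : ∃ δ : ℝ, 0 < δ ∧ δ * ((‖a‖ + 2) * ((vq V).real univ + 1)) = ε :=
    ⟨ε / ((‖a‖ + 2) * ((vq V).real univ + 1)), by positivity, by field_simp⟩
  have t4 := ((((t3 k).add ((t0 4000).const_mul 8)).div_const δ).const_add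
    (δ * (vq V).real univ)).const_mul ‖a‖ |>.add ((((t0 800).div_const δ).const_add
    (δ * (vq V).real univ)).const_mul 2)
  refine (ge_of_tendsto' t4 fun n => ?_).trans ?_
  · have d1 := integral_md_le (V := V) ((bf n).sub b1) k hδ0
    have d3 : (∫ p, ‖f n p - G.tk τ (v p)‖ ^ 2 ∂mq V) / δ ≤ 800 / ((n + 1 : ℕ) : ℝ) / δ := by
      gcongr; exact c1 n
    simp only [md_sub (bf n) b1] at d1
    exact (tri_ineq ((bf n).md k) (b1.md k) a).trans (add_le_add ((hm n k).2 a δ hδ0)
      (mul_le_mul_of_nonneg_left (d1.trans (by linarith)) zero_le_two))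
  · simp only [mul_zero, add_zero, zero_div, zero_add]
    calc _ = δ * ((‖a‖ + 2) * (vq V).real univ) := by ring
      _ ≤ δ * ((‖a‖ + 2) * ((vq V).real univ + 1)) := by gcongr; linarith
      _ = ε := hδ

end Vale.Agent.P099
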