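import Vale.Agent.P099.Refl

namespace Vale.Agent.P099

open MeasureTheory Set Complex Filter
open scoped ComplexConjugate

variable {V : Fin 3 → ℂ}

/-- Haar probability measure on directions. -/
noncomputable abbrev hr : Measure UnitAddCircle := AddCircle.haarAddCircle

/-- Lebesgue measure on the phase space of the plane. -/
noncomputable abbrev nu : Measure Phase := (volume : Measure ℂ).prod hr

lemma volume_eq_hr : (volume : Measure UnitAddCircle) = hr := by
  rw [AddCircle.volume_eq_smul_haarAddCircle]; simp

@[fun_prop] lemma measurable_dir : Measurable dir := continuous_dir.measurable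

attribute [fun_prop] continuous_dir

lemma mp_skew {φ : UnitAddCircle → ℂ → ℂ} (hm : Measurable fun p : Phase => φ p.2 p.1)
    (h : ∀ θ, MeasurePreserving (φ θ) volume volume) :
    MeasurePreserving (fun p : Phase => (φ p.2 p.1, p.2)) nu nu := by
  have h1 := (MeasurePreserving.id hr).skew_product (g := φ) (μc := volume) (μd := volume)
    (hm.comp measurable_swap) (Eventually.of_forall fun θ => (h θ).map_eq)
  exact Measure.measurePreserving_swap.comp (h1.comp Measure.measurePreserving_swap)

lemma mp_mul {a : ℂ} (ha : ‖a‖ = 1) : MeasurePreserving (fun x : ℂ => a * x) volume volume :=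
  (rotation ⟨a, by simpa [Submonoid.unitSphere] using ha⟩).measurePreserving

lemma mp_conj : MeasurePreserving (fun x : ℂ => conj x) volume volume :=
  Complex.conjLIE.measurePreserving

lemma continuous_sh : Continuous fun q : ℂ × Phase => sh q.1 q.2 := by unfold sh; fun_prop

lemma continuous_move : Continuous fun q : ℝ × Phase => move q.1 q.2 := by unfold move; fun_prop

lemma mp_sh (z : ℂ) : MeasurePreserving (sh z) nu nu :=
  mp_skew (φ := fun θ x => x + z * dir θ) (by fun_prop) fun _ => measurePreserving_add_right _ _

lemma mp_move (t : ℝ) : MeasurePreserving (move t) nu nu := mp_sh t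

lemma mp_rev : MeasurePreserving rev nu nu :=
  (MeasurePreserving.id _).prod (measurePreserving_add_right _ _)

lemma mp_mirror (j : Fin 3) : MeasurePreserving (mirror V j) hr hr :=
  Measure.measurePreserving_sub_left hr _

lemma mp_rf (j : Fin 3) : MeasurePreserving (rf V j) volume volume :=
  (measurePreserving_add_left _ (V (j + 1))).comp ((mp_mul (norm_dir _)).comp
    (mp_conj.comp (measurePreserving_sub_right _ (V (j + 1)))))

lemma mp_sig (j : Fin 3) : MeasurePreserving (sig V j) nu nu := (mp_rf j).prod (mp_mirror j)

@[fun_prop] lemma continuous_rel (i : Fin 3) : Continuous (rel V i) := by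
  unfold rel
  exact (continuous_const.sub continuous_fst).mul
    (continuous_conj.comp (continuous_dir.comp continuous_snd))

lemma mp_rel (i : Fin 3) : MeasurePreserving (fun p : Phase => (rel V i p, p.2)) nu nu := by
  refine mp_skew (φ := fun θ x => (V i - x) * conj (dir θ)) (continuous_rel i).measurable
    fun θ => ?_
  have := (mp_mul (a := conj (dir θ)) (by simp [norm_dir])).comp
    (Measure.measurePreserving_sub_left volume (V i))
  simpa [Function.comp_def, mul_comm] using this

lemma nu_rel (i : Fin 3) {S : Set ℂ} (hS : MeasurableSet S) :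
    nu {p : Phase | rel V i p ∈ S} = volume S := by
  have := (mp_rel (V := V) i).measure_preimage (s := S ×ˢ univ)
    (hS.prod MeasurableSet.univ).nullMeasurableSet
  rw [Measure.prod_prod] at this
  simpa [preimage] using this

lemma volume_box (s t : Set ℝ) (hs : MeasurableSet s) (ht : MeasurableSet t) :
    volume {z : ℂ | z.re ∈ s ∧ z.im ∈ t} = volume s * volume t := by
  have := Complex.volume_preserving_equiv_real_prod.measure_preimage (s := s ×ˢ t)
    (hs.prod ht).nullMeasurableSet
  rw [Measure.volume_eq_prod, Measure.prod_prod] at this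
  exact this

lemma ae_nv : ∀ᵐ p ∂nu, Nv V p := by
  refine ae_all_iff.2 fun i => ?_
  have h := nu_rel (V := V) i (S := {z : ℂ | z.re ∈ univ ∧ z.im ∈ ({0} : Set ℝ)})
    (by measurability)
  rw [volume_box _ _ MeasurableSet.univ (measurableSet_singleton _)] at h
  simpa [ae_iff] using h

lemma isOpen_ex (j : Fin 3) : IsOpen {p | Ex V j p} := by
  have h1 : IsOpen {p : Phase | area V * (rel V (j + 1) p).im < 0} :=
    isOpen_lt (by fun_prop) (by fun_prop)
  have h2 : IsOpen {p : Phase | 0 < area V * (rel V (j + 2) p).im} :=
    isOpen_lt (by fun_prop) (by fun_prop)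
  exact h1.inter h2

lemma measurableSet_ex (j : Fin 3) : MeasurableSet {p | Ex V j p} := (isOpen_ex j).measurableSet

lemma measurableSet_en (j : Fin 3) : MeasurableSet {p | En V j p} := by
  simp only [← ex_rev]
  exact mp_rev.measurable (measurableSet_ex j)

lemma measurable_cr (j : Fin 3) : Measurable (cr V j) := by
  have h1 := (continuous_rel (V := V) (j + 1)).measurable
  have h2 := (continuous_rel (V := V) (j + 2)).measurable
  unfold cr cross; fun_prop

lemma measurable_gam : Measurable (gam V) := by
  unfold gam
  exact Measurable.ite (measurableSet_ex 0) (mp_sig 0).measurable (Measurable.ite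
    (measurableSet_ex 1) (mp_sig 1).measurable (Measurable.ite (measurableSet_ex 2)
    (mp_sig 2).measurable measurable_id))

lemma measurable_bb : Measurable (bb V) := by
  unfold bb
  exact Measurable.ite (measurableSet_ex 0) (measurable_cr 0) (Measurable.ite
    (measurableSet_ex 1) (measurable_cr 1) (Measurable.ite (measurableSet_ex 2)
    (measurable_cr 2) measurable_const))

lemma measurableSet_exists_ex : MeasurableSet {p | ∃ j, Ex V j p} := by
  rw [ofPred_exists]; exact MeasurableSet.iUnion measurableSet_ex

lemma measurableSet_cr : MeasurableSet {p | Cr V p} :=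
  measurableSet_exists_ex.inter (mp_rev.measurable measurableSet_exists_ex)

lemma mp_gam (hV : area V ≠ 0) : MeasurePreserving (gam V) nu nu := by
  refine ⟨measurable_gam, Measure.ext fun B hB => ?_⟩
  rw [Measure.map_apply measurable_gam hB]
  have e1 : gam V ⁻¹' B =
      (⋃ j, sig V j ⁻¹' (B ∩ {p | En V j p})) ∪ (B \ {p | ∃ j, Ex V j p}) := by
    ext p
    by_cases h : ∃ j, Ex V j p
    · obtain ⟨j, h⟩ := h
      simp only [mem_preimage, h.gam_eq, mem_union, mem_iUnion, mem_inter_iff, mem_ofPred_eq,
        en_sig, Set.mem_sdiff]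
      constructor
      · exact fun hp => Or.inl ⟨j, hp, h⟩
      · rintro (⟨i, hp, hi⟩ | ⟨-, hp⟩)
        · rwa [h.unique hi]
        · exact absurd ⟨j, h⟩ hp
    · simp only [mem_preimage, gam_of_not h, mem_union, mem_iUnion, mem_inter_iff, mem_ofPred_eq,
        en_sig, Set.mem_sdiff]
      exact ⟨fun hp => Or.inr ⟨hp, h⟩, fun hp => hp.elim (fun ⟨i, _, hi⟩ => absurd ⟨i, hi⟩ h)
        And.left⟩
  have m1 : ∀ j, MeasurableSet (B ∩ {p | En V j p}) := fun j => hB.inter (measurableSet_en j)
  rw [e1, measure_union _ (hB.diff measurableSet_exists_ex), measure_iUnion _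
    fun j => (mp_sig j).measurable (m1 j)]
  · simp_rw [fun j => (mp_sig (V := V) j).measure_preimage (m1 j).nullMeasurableSet]
    rw [← measure_iUnion _ m1]
    · rw [← measure_inter_add_sdiff B (measurableSet_exists_ex (V := V))]
      congr 1
      refine measure_congr ?_
      filter_upwards [ae_nv (V := V)] with p hp
      simp only [eq_iff_iff]
      change p ∈ ⋃ j, B ∩ {p | En V j p} ↔ p ∈ B ∩ {p | ∃ j, Ex V j p}
      simp only [mem_iUnion, mem_inter_iff, mem_ofPred_eq]
      constructor
      · rintro ⟨j, h1, h2⟩; exact ⟨h1, (h2.cr_of_nv hV hp).1⟩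
      · rintro ⟨h1, j, h2⟩; exact (h2.exists_en hV hp).imp fun i hi => ⟨h1, hi⟩
    · intro i j hij
      refine disjoint_left.2 fun p hi hj => hij ?_
      exact (ex_rev.2 hi.2).unique (ex_rev.2 hj.2)
  · intro i j hij
    refine disjoint_left.2 fun p hi hj => hij ?_
    exact (en_sig.1 hi.2).unique (en_sig.1 hj.2)
  · refine disjoint_left.2 fun p hi hj => hj.2 ?_
    obtain ⟨j, hj⟩ := mem_iUnion.1 hi
    exact ⟨j, en_sig.1 hj.2⟩

lemma nu_fst {S : Set ℂ} : nu {p : Phase | p.1 ∈ S} = volume S := by
  have : {p : Phase | p.1 ∈ S} = S ×ˢ univ := by ext; simp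
  rw [this, Measure.prod_prod]; simp

lemma ae_not_frontier : ∀ᵐ p ∂nu, p.1 ∉ frontier (tri V) := by
  have := nu_fst (S := frontier (tri V))
  rw [convex_tri.addHaar_frontier volume] at this
  simpa [ae_iff] using this

end Vale.Agent.P099
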