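import Mathlib

namespace Vale.Agent.P099

open MeasureTheory Set Complex Filter Topology Metric
open scoped ComplexConjugate InnerProductSpace NNReal

section
variable {E : Type*} [NormedAddCommGroup E] [NormedSpace ℂ E]

/-- Difference quotients along the sequence `1 / (n + 1)`. -/
noncomputable def dq (a : ℂ) (n : ℕ) (F : ℂ → E) (x : ℂ) : E :=
  ((n : ℂ) + 1) • (F (x + a / ((n : ℂ) + 1)) - F x)

/-- Sequential first derivatives. -/
def SD (F F₁ F₂ : ℂ → E) : Prop :=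
  ∀ a : ℂ, ∀ᵐ x, Tendsto (fun n => dq a n F x) atTop (𝓝 ((a.re : ℂ) • F₁ x + (a.im : ℂ) • F₂ x))

lemma norm_succ (n : ℕ) : ‖(n : ℂ) + 1‖ = n + 1 := by
  rw [← Nat.cast_succ, Complex.norm_natCast, Nat.cast_succ]

lemma norm_dq_le {F : ℂ → E} {K : ℝ≥0} (hF : LipschitzWith K F) (a : ℂ) (n : ℕ) (x : ℂ) :
    ‖dq a n F x‖ ≤ K * ‖a‖ := by
  have := hF.norm_sub_le (x + a / ((n : ℂ) + 1)) x
  rw [add_sub_cancel_left, norm_div, norm_succ] at this
  rw [dq, norm_smul, norm_succ]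
  calc _ ≤ (n + 1 : ℝ) * (K * (‖a‖ / (n + 1))) := by gcongr
    _ = _ := by field_simp

lemma tendsto_dq {F : ℂ → E} {L : ℂ →L[ℝ] E} {x : ℂ} (h : HasFDerivAt F L x) (a : ℂ) :
    Tendsto (fun n => dq a n F x) atTop (𝓝 (L a)) := by
  have h1 : Tendsto (fun n : ℕ => ‖(n : ℝ) + 1‖) atTop atTop :=
    tendsto_norm_atTop_atTop.comp (tendsto_atTop_add_const_right _ _ tendsto_natCast_atTop_atTop)
  refine (h.lim a h1).congr fun n => ?_
  rw [dq, ← Complex.coe_smul, real_smul]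
  congr 3 <;> push_cast <;> ring

lemma tendsto_step (a x : ℂ) : Tendsto (fun n : ℕ => x + a / ((n : ℂ) + 1)) atTop (𝓝 x) := by
  rw [tendsto_iff_norm_sub_tendsto_zero]
  simp only [add_sub_cancel_left, norm_div, norm_succ]
  exact tendsto_const_nhds.div_atTop
    (tendsto_atTop_add_const_right _ _ tendsto_natCast_atTop_atTop)

lemma SD.one {F F₁ F₂ : ℂ → E} (h : SD F F₁ F₂) :
    ∀ᵐ x, Tendsto (fun n => dq 1 n F x) atTop (𝓝 (F₁ x)) := by simpa using h 1

lemma SD.I {F F₁ F₂ : ℂ → E} (h : SD F F₁ F₂) :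
    ∀ᵐ x, Tendsto (fun n => dq I n F x) atTop (𝓝 (F₂ x)) := by simpa using h Complex.I

lemma SD.local {F F₁ F₂ G G₁ G₂ : ℂ → E} (hF : SD F F₁ F₂) (hG : SD G G₁ G₂) :
    ∀ᵐ x, ∀ (c : ℂ) (d : E), (∀ᶠ y in 𝓝 x, G y = c • F y + d) →
      G₁ x = c • F₁ x ∧ G₂ x = c • F₂ x := by
  filter_upwards [hF.one, hF.I, hG.one, hG.I] with x h1 h2 h3 h4 c d h
  have key : ∀ a, (fun n => c • dq a n F x) =ᶠ[atTop] fun n => dq a n G x := fun a => by
    filter_upwards [(tendsto_step a x).eventually h] with n hn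
    rw [dq, dq, hn, h.self_of_nhds, add_sub_add_right_eq_sub, ← smul_sub, smul_comm]
  exact ⟨tendsto_nhds_unique h3 ((h1.const_smul c).congr' (key 1)),
    tendsto_nhds_unique h4 ((h2.const_smul c).congr' (key _))⟩

lemma SD.of_differentiable {F : ℂ → E} (h : ∀ᵐ x, DifferentiableAt ℝ F x) :
    SD F (fun x => fderiv ℝ F x 1) (fun x => fderiv ℝ F x Complex.I) := fun a => by
  filter_upwards [h] with x hx
  convert tendsto_dq hx.hasFDerivAt a using 2
  rw [Complex.coe_smul, Complex.coe_smul, ← map_smul, ← map_smul, ← map_add]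
  congr 1; simp

end

variable {E : Type*} [NormedAddCommGroup E] [InnerProductSpace ℂ E]

lemma tendsto_inner_dq {F G Fa Gb : ℂ → E} {K : ℝ≥0} {R : ℝ} (hF : LipschitzWith K F)
    (hG : LipschitzWith K G) (h0 : ∀ x, R < ‖x‖ → F x = 0) {a b : ℂ} (ha : ‖a‖ = 1)
    (hb : ‖b‖ = 1) (h1 : ∀ᵐ x, Tendsto (fun n => dq a n F x) atTop (𝓝 (Fa x)))
    (h2 : ∀ᵐ x, Tendsto (fun n => dq b n G x) atTop (𝓝 (Gb x))) :
    Integrable (fun x => ⟪Fa x, Gb x⟫_ℂ) ∧
      Tendsto (fun n => ∫ x, ⟪dq a n F x, dq b n G x⟫_ℂ) atTop (𝓝 (∫ x, ⟪Fa x, Gb x⟫_ℂ)) := by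
  have c1 := hF.continuous
  have c2 := hG.continuous
  have m : ∀ n, AEStronglyMeasurable (fun x => ⟪dq a n F x, dq b n G x⟫_ℂ) volume := fun n =>
    Continuous.aestronglyMeasurable (by unfold dq; fun_prop)
  have i : Integrable ((closedBall (0 : ℂ) (R + 1)).indicator fun _ => (K * K : ℝ)) :=
    (integrableOn_const measure_closedBall_lt_top.ne).integrable_indicator measurableSet_closedBall
  have bd : ∀ n x, ‖⟪dq a n F x, dq b n G x⟫_ℂ‖ ≤
      (closedBall (0 : ℂ) (R + 1)).indicator (fun _ => (K * K : ℝ)) x := by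
    intro n x
    by_cases hx : x ∈ closedBall (0 : ℂ) (R + 1)
    · rw [indicator_of_mem hx]
      refine (norm_inner_le_norm _ _).trans ?_
      have b1 := norm_dq_le hF a n x
      have b2 := norm_dq_le hG b n x
      rw [ha, mul_one] at b1; rw [hb, mul_one] at b2
      gcongr
    · rw [indicator_of_notMem hx]
      rw [mem_closedBall_zero_iff, not_le] at hx
      have b1 : ‖a / ((n : ℂ) + 1)‖ ≤ 1 := by
        rw [norm_div, norm_succ, ha]; exact div_le_self zero_le_one (by simp)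
      have b2 := norm_sub_le (x + a / ((n : ℂ) + 1)) (a / ((n : ℂ) + 1))
      rw [add_sub_cancel_right] at b2
      simp [dq, h0 x (by linarith), h0 (x + a / ((n : ℂ) + 1)) (by linarith)]
  have l : ∀ᵐ x, Tendsto (fun n => ⟪dq a n F x, dq b n G x⟫_ℂ) atTop (𝓝 ⟪Fa x, Gb x⟫_ℂ) := by
    filter_upwards [h1, h2] with x h1 h2 using h1.inner h2
  refine ⟨i.mono' (aestronglyMeasurable_of_tendsto_ae _ m l) ?_,
    tendsto_integral_of_dominated_convergence _ m i (fun n => Eventually.of_forall (bd n)) l⟩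
  filter_upwards [l] with x hx using le_of_tendsto' hx.norm fun n => bd n x

lemma integral_dq_swap {F G : ℂ → E} {R : ℝ} (hF : Continuous F) (hG : Continuous G)
    (h0 : ∀ x, R < ‖x‖ → F x = 0) (a b : ℂ) (n : ℕ) :
    ∫ x, ⟪dq a n F x, dq b n G x⟫_ℂ = ∫ x, ⟪dq (-b) n F x, dq (-a) n G x⟫_ℂ := by
  set J : ℂ → ℂ → ℂ := fun α β => ∫ x, ⟪F (x + α), G (x + β)⟫_ℂ with hJ
  have hi : ∀ α β, Integrable fun x => ⟪F (x + α), G (x + β)⟫_ℂ := by
    intro α β
    refine Continuous.integrable_of_hasCompactSupport (by fun_prop)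
      (HasCompactSupport.intro (isCompact_closedBall 0 (R + ‖α‖)) fun x hx => ?_)
    rw [mem_closedBall_zero_iff, not_le] at hx
    have := norm_sub_le (x + α) α
    rw [add_sub_cancel_right] at this
    simp [h0 (x + α) (by linarith)]
  have hs : ∀ α β γ, J (γ + α) (γ + β) = J α β := fun α β γ => by
    simp only [hJ, ← add_assoc]
    exact integral_add_right_eq_self (fun x => ⟪F (x + α), G (x + β)⟫_ℂ) γ
  have he : ∀ α β, ∫ x, ⟪F (x + α) - F x, G (x + β) - G x⟫_ℂ =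
      J α β - J α 0 - (J 0 β - J 0 0) := fun α β => by
    simp only [hJ]
    rw [← integral_sub (hi _ _) (hi _ _), ← integral_sub (hi _ _) (hi _ _),
      ← integral_sub]
    · simp only [inner_sub_left, inner_sub_right, add_zero]
      congr 1; ext; ring
    · exact (hi _ _).sub (hi _ _)
    · exact (hi _ _).sub (hi _ _)
  simp only [dq, inner_smul_left, inner_smul_right, integral_const_mul, he, neg_div]
  generalize a / ((n : ℂ) + 1) = α
  generalize b / ((n : ℂ) + 1) = β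
  have e1 := hs (-β) (-α) (α + β)
  have e2 := hs 0 (-α) α
  have e3 := hs (-β) 0 β
  simp only [add_neg_cancel_right, add_zero, add_neg_cancel, add_neg_cancel_comm] at e1 e2 e3
  rw [e1, e2, e3]; ring

/-- The Jacobian density. -/
noncomputable def jac (F₁ F₂ G₁ G₂ : ℂ → E) (x : ℂ) : ℂ := ⟪F₁ x, G₂ x⟫_ℂ - ⟪F₂ x, G₁ x⟫_ℂ

theorem plane {F F₁ F₂ G G₁ G₂ : ℂ → E} {K : ℝ≥0} {R : ℝ} (hF : LipschitzWith K F)
    (hG : LipschitzWith K G) (h0 : ∀ x, R < ‖x‖ → F x = 0) (h1 : SD F F₁ F₂) (h2 : SD G G₁ G₂) :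
    Integrable (jac F₁ F₂ G₁ G₂) ∧ ∫ x, jac F₁ F₂ G₁ G₂ x = 0 := by
  obtain ⟨a1, a2⟩ := tendsto_inner_dq hF hG h0 norm_one norm_I h1.one h2.I
  obtain ⟨b1, b2⟩ := tendsto_inner_dq (Fa := fun x => -F₂ x) (Gb := fun x => -G₁ x) hF hG h0
    (a := -I) (b := -1) (by simp) (by simp) (by simpa using h1 (-I)) (by simpa using h2 (-1))
  simp only [inner_neg_neg] at b1 b2
  simp only [← integral_dq_swap hF.continuous hG.continuous h0] at b2
  refine ⟨a1.sub b1, ?_⟩
  unfold jac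
  rw [integral_sub a1 b1, tendsto_nhds_unique a2 b2, sub_self]

theorem inside {F F₁ F₂ G G₁ G₂ F' F₁' F₂' G' G₁' G₂' : ℂ → E} {K : ℝ≥0} {R : ℝ} {S : Set ℂ}
    (hS : MeasurableSet S) (hF : LipschitzWith K F) (hG : LipschitzWith K G)
    (hF' : LipschitzWith K F') (hG' : LipschitzWith K G') (h0 : ∀ x, R < ‖x‖ → F x = 0)
    (h0' : ∀ x, R < ‖x‖ → F' x = 0) (h1 : SD F F₁ F₂) (h2 : SD G G₁ G₂) (h1' : SD F' F₁' F₂')
    (h2' : SD G' G₁' G₂') (h : ∀ᵐ x, x ∉ S → ∃ (c c' : ℂ) (d : E), conj c * c' = 1 ∧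
      (∀ᶠ y in 𝓝 x, F' y = c • F y) ∧ ∀ᶠ y in 𝓝 x, G' y = c' • G y + d) :
    ∫ x in S, jac F₁ F₂ G₁ G₂ x = ∫ x in S, jac F₁' F₂' G₁' G₂' x := by
  obtain ⟨a1, a2⟩ := plane hF hG h0 h1 h2
  obtain ⟨b1, b2⟩ := plane hF' hG' h0' h1' h2'
  rw [← integral_add_compl hS a1] at a2
  rw [← integral_add_compl hS b1] at b2
  have : ∫ x in Sᶜ, jac F₁ F₂ G₁ G₂ x = ∫ x in Sᶜ, jac F₁' F₂' G₁' G₂' x := by
    refine setIntegral_congr_ae hS.compl ?_
    filter_upwards [h, h1.local h1', h2.local h2'] with x h h3 h4 hx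
    obtain ⟨c, c', d, hc, e1, e2⟩ := h hx
    obtain ⟨e3, e4⟩ := h3 c 0 (by simpa using e1)
    obtain ⟨e5, e6⟩ := h4 c' d e2
    simp only [jac, e3, e4, e5, e6, inner_smul_left, inner_smul_right]
    linear_combination (⟪F₂ x, G₁ x⟫_ℂ - ⟪F₁ x, G₂ x⟫_ℂ) * hc
  linear_combination a2 - b2 - this

lemma SD.inner {F F₁ F₂ G G₁ G₂ : ℂ → E} (hF : Continuous F) (h1 : SD F F₁ F₂)
    (h2 : SD G G₁ G₂) : SD (fun x => ⟪F x, G x⟫_ℂ) (fun x => ⟪F₁ x, G x⟫_ℂ + ⟪F x, G₁ x⟫_ℂ)
      (fun x => ⟪F₂ x, G x⟫_ℂ + ⟪F x, G₂ x⟫_ℂ) := fun a => by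
  filter_upwards [h1 a, h2 a] with x h1 h2
  have h3 := (h1.inner (𝕜 := ℂ) (tendsto_const_nhds (x := G x))).add
    (((hF.tendsto x).comp (tendsto_step a x)).inner h2)
  convert h3 using 2
  · simp [dq, inner_smul_left, inner_smul_right, inner_sub_left, inner_sub_right]; ring
  · simp only [inner_smul_left, inner_smul_right, inner_add_left, inner_add_right, conj_ofReal,
      smul_eq_mul]
    ring

lemma lipschitz_inner {F G : ℂ → E} {K C : ℝ≥0} (hF : LipschitzWith K F) (hG : LipschitzWith K G)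
    (bF : ∀ x, ‖F x‖ ≤ C) (bG : ∀ x, ‖G x‖ ≤ C) :
    LipschitzWith (2 * C * K) fun x => ⟪F x, G x⟫_ℂ := by
  refine LipschitzWith.of_dist_le_mul fun x y => ?_
  have : ⟪F x, G x⟫_ℂ - ⟪F y, G y⟫_ℂ = ⟪F x - F y, G x⟫_ℂ + ⟪F y, G x - G y⟫_ℂ := by
    simp only [inner_sub_left, inner_sub_right]; ring
  rw [dist_eq_norm, dist_eq_norm, this]
  have a1 := hF.norm_sub_le x y
  have a2 := hG.norm_sub_le x y
  have a3 := bF y
  have a4 := bG x
  calc _ ≤ ‖F x - F y‖ * ‖G x‖ + ‖F y‖ * ‖G x - G y‖ :=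
        (norm_add_le _ _).trans (add_le_add (norm_inner_le_norm _ _) (norm_inner_le_norm _ _))
    _ ≤ K * ‖x - y‖ * C + C * (K * ‖x - y‖) := by gcongr
    _ = _ := by push_cast; ring

/-- A Poincaré type bound for translates. -/
lemma translate_le {F F₁ F₂ : ℂ → E} {K : ℝ≥0} (hF : LipschitzWith K F) (h1 : SD F F₁ F₂)
    {S : Set ℂ} (hS : Convex ℝ S) (mS : MeasurableSet S) (fS : volume S ≠ ⊤) (a : ℂ) :
    ∫ x in S ∩ {x | x + a ∈ S}, ‖F (x + a) - F x‖ ≤
      ∫ x in S, ‖(a.re : ℂ) • F₁ x + (a.im : ℂ) • F₂ x‖ := by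
  have c := hF.continuous
  have := isFiniteMeasure_restrict.2 fS
  have m : ∀ n, Continuous fun x => ‖dq a n F x‖ := fun n => by unfold dq; fun_prop
  have i : ∀ n b, IntegrableOn (fun x => ‖dq a n F (x + b)‖) S := fun n b =>
    (integrable_const (K * ‖a‖ : ℝ)).mono' ((m n).comp (by fun_prop)).aestronglyMeasurable
      (Eventually.of_forall fun x => by simpa using norm_dq_le hF a n _)
  have l := tendsto_integral_of_dominated_convergence (μ := volume.restrict S) _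
    (fun n => (m n).aestronglyMeasurable) (integrable_const (K * ‖a‖ : ℝ))
    (fun n => Eventually.of_forall fun x => by simpa using norm_dq_le hF a n x)
    (ae_restrict_of_ae ((h1 a).mono fun x hx => hx.norm))
  refine ge_of_tendsto' l fun n => ?_
  have m2 : MeasurableSet (S ∩ {x | x + a ∈ S}) := mS.inter (measurable_add_const a mS)
  have hn : (0 : ℝ) < n + 1 := by positivity
  have hn' : (n : ℂ) + 1 ≠ 0 := by exact_mod_cast hn.ne'
  have b1 : ∀ x, ‖F (x + a) - F x‖ ≤ ∑ i ∈ Finset.range (n + 1),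
      (1 / (n + 1) : ℝ) * ‖dq a n F (x + i * (a / (n + 1)))‖ := by
    intro x
    have := Finset.sum_range_sub (fun i : ℕ => F (x + i * (a / (n + 1)))) (n + 1)
    simp only [Nat.cast_zero, zero_mul, add_zero, Nat.cast_succ, mul_div_cancel₀ _ hn'] at this
    rw [← this]
    refine (norm_sum_le _ _).trans (le_of_eq (Finset.sum_congr rfl fun i _ => ?_))
    rw [dq, norm_smul, norm_succ, add_mul, one_mul, add_assoc]; field_simp
  have b2 : ∀ i ∈ Finset.range (n + 1), ∫ x in S ∩ {x | x + a ∈ S},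
      (1 / (n + 1) : ℝ) * ‖dq a n F (x + i * (a / (n + 1)))‖ ≤
      (1 / (n + 1) : ℝ) * ∫ x in S, ‖dq a n F x‖ := by
    intro j hj
    have hj' : (j : ℝ) ≤ n + 1 := by exact_mod_cast (Finset.mem_range.1 hj).le
    rw [integral_const_mul]
    gcongr
    have e := (measurePreserving_add_right (volume : Measure ℂ)
      (j * (a / (n + 1)))).setIntegral_preimage_emb (measurableEmbedding_addRight _)
      (fun x => ‖dq a n F x‖) S
    rw [← e]
    refine setIntegral_mono_set ?_ (Eventually.of_forall fun _ => norm_nonneg _)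
      (LE.le.eventuallyLE fun x hx => ?_)
    · have := (measurePreserving_add_right (volume : Measure ℂ)
        (j * (a / (n + 1)))).integrableOn_comp_preimage (measurableEmbedding_addRight _)
        (f := fun x => ‖dq a n F x‖) (s := S)
      exact this.2 (by simpa using i n 0)
    · have := hS.add_smul_mem hx.1 hx.2 (t := j / (n + 1))
        ⟨by positivity, (div_le_one hn).2 hj'⟩
      rw [mem_preimage]
      convert this using 2
      rw [real_smul]; push_cast; ring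
  calc _ ≤ ∫ x in S ∩ {x | x + a ∈ S}, ∑ i ∈ Finset.range (n + 1),
        (1 / (n + 1) : ℝ) * ‖dq a n F (x + i * (a / (n + 1)))‖ :=
        integral_mono_of_nonneg (Eventually.of_forall fun _ => norm_nonneg _)
          (integrable_finsetSum _ fun j _ => ((i n _).mono_set inter_subset_left).const_mul _)
          (Eventually.of_forall b1)
    _ ≤ ∑ i ∈ Finset.range (n + 1), (1 / (n + 1) : ℝ) * ∫ x in S, ‖dq a n F x‖ := by
        rw [integral_finsetSum _ fun j _ => ((i n _).mono_set inter_subset_left).const_mul _]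
        exact Finset.sum_le_sum b2
    _ = _ := by
        rw [Finset.sum_const, Finset.card_range, nsmul_eq_mul]; push_cast; field_simp

end Vale.Agent.P099
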