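import Vale.Agent.P099.Chi
import Vale.Agent.P099.Plane

namespace Vale.Agent.P099

open MeasureTheory Set Complex Filter Topology
open scoped ComplexConjugate InnerProductSpace

set_option linter.unusedSectionVars false

lemma norm_fourier (k : ℤ) (θ : UnitAddCircle) : ‖fourier k θ‖ = 1 := by
  rw [fourier_apply, Circle.norm_coe]

variable {H : Type*} [NormedAddCommGroup H] [InnerProductSpace ℂ H] [CompleteSpace H]

lemma integral_inner_poly {φ : UnitAddCircle → H} (hφ : Integrable φ hr) (s : Finset ℤ)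
    (c : ℤ → H) : ∫ θ, ⟪∑ k ∈ s, fourier k θ • c k, φ θ⟫_ℂ ∂hr =
      ∑ k ∈ s, ⟪c k, fourierCoeff φ k⟫_ℂ := by
  simp only [sum_inner, inner_smul_left, ← fourier_neg, ← inner_smul_right]
  rw [integral_finsetSum _ fun k _ => (hφ.fourier_smul _).const_inner _]
  exact Finset.sum_congr rfl fun k _ => integral_inner (hφ.fourier_smul _) _

lemma bessel {φ : UnitAddCircle → H} (hφ : MemLp φ 2 hr) (s : Finset ℤ) :
    ∑ k ∈ s, ‖fourierCoeff φ k‖ ^ 2 ≤ ∫ θ, ‖φ θ‖ ^ 2 ∂hr := by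
  set c := fourierCoeff φ
  set ψ : UnitAddCircle → H := fun θ => ∑ k ∈ s, fourier k θ • c k with hψ
  have cψ : Continuous ψ := by fun_prop
  have mψ : MemLp ψ 2 hr := cψ.memLp_of_hasCompactSupport (HasCompactSupport.of_compactSpace _)
  have h1 := integral_inner_poly (hφ.integrable one_le_two) s c
  have h2 := integral_inner_poly (mψ.integrable one_le_two) s c
  have h3 : ∀ k ∈ s, fourierCoeff ψ k = c k := by
    intro k hk
    have : ∀ l, ∫ θ : UnitAddCircle, fourier (-k) θ • fourier l θ • c l ∂hr =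
        (Pi.single l 1 : ℤ → ℂ) k • c l := fun l => by
      simp only [← mul_smul]
      rw [integral_smul_const, ← fourierCoeff_fourier (T := 1)]; rfl
    simp only [fourierCoeff, hψ, Finset.smul_sum]
    rw [integral_finsetSum _ fun l _ => Continuous.integrable_of_hasCompactSupport (by fun_prop)
      (HasCompactSupport.of_compactSpace _)]
    simp only [this]
    simp [Pi.single_apply, hk]
  rw [Finset.sum_congr rfl fun k hk => by rw [h3 k hk]] at h2
  change ∫ θ, ⟪ψ θ, φ θ⟫_ℂ ∂hr = ∑ k ∈ s, ⟪c k, c k⟫_ℂ at h1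
  change ∫ θ, ⟪ψ θ, ψ θ⟫_ℂ ∂hr = _ at h2
  simp only [inner_self_eq_norm_sq_to_K] at h1 h2
  have i1 : Integrable (fun θ => ⟪ψ θ, φ θ⟫_ℂ) hr := by
    simpa using L2.integrable_inner (𝕜 := ℂ) (mψ.toLp _) (hφ.toLp _) |>.congr (by
      filter_upwards [mψ.coeFn_toLp, hφ.coeFn_toLp] with θ a b using by rw [a, b])
  have i2 := (memLp_two_iff_integrable_sq_norm mψ.1).1 mψ
  have i3 := (memLp_two_iff_integrable_sq_norm hφ.1).1 hφ
  have e1 : ∫ θ, re ⟪ψ θ, φ θ⟫_ℂ ∂hr = ∑ k ∈ s, ‖c k‖ ^ 2 := by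
    have := integral_re i1
    simp only [RCLike.re_to_complex] at this
    rw [this, h1]; simp [← ofReal_pow]
  have e2 : ∫ θ, ‖ψ θ‖ ^ 2 ∂hr = ∑ k ∈ s, ‖c k‖ ^ 2 := by
    have : ((∫ θ, ‖ψ θ‖ ^ 2 ∂hr : ℝ) : ℂ) = ((∑ k ∈ s, ‖c k‖ ^ 2 : ℝ) : ℂ) := by
      rw [← integral_complex_ofReal]; push_cast; exact h2
    exact_mod_cast this
  have e3 : ∫ θ, 2 * re ⟪ψ θ, φ θ⟫_ℂ ∂hr ≤ ∫ θ, (‖ψ θ‖ ^ 2 + ‖φ θ‖ ^ 2) ∂hr := by
    refine integral_mono (i1.re.const_mul 2) (i2.add i3) fun θ => ?_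
    have := (re_le_norm _).trans (norm_inner_le_norm (𝕜 := ℂ) (ψ θ) (φ θ))
    simp only
    nlinarith [two_mul_le_add_sq ‖ψ θ‖ ‖φ θ‖]
  rw [integral_const_mul, integral_add i2 i3] at e3
  linarith

lemma ae_eq_zero_of_coeff [SecondCountableTopology H] {φ : UnitAddCircle → H} (hφ : MemLp φ 2 hr)
    (h : ∀ k, fourierCoeff φ k = 0) : φ =ᵐ[hr] 0 := by
  refine ae_eq_zero_of_forall_inner (𝕜 := ℂ) fun c => ?_
  have m : MemLp (fun θ => ⟪c, φ θ⟫_ℂ) 2 hr := hφ.const_inner c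
  have h1 : fourierBasis.repr (m.toLp _) = 0 := by
    ext k
    rw [fourierBasis_repr, fourierCoeff_congr_ae m.coeFn_toLp]
    simp only [fourierCoeff, smul_eq_mul, ← inner_smul_right]
    rw [integral_inner ((hφ.integrable one_le_two).fourier_smul _)]
    exact (congrArg _ (h k)).trans (by simp)
  rw [LinearIsometryEquiv.map_eq_zero_iff] at h1
  filter_upwards [m.coeFn_toLp, Lp.coeFn_zero ℂ 2 hr] with θ a b
  rw [← a, h1, b]

variable [MeasurableSpace H] [BorelSpace H] [SecondCountableTopology H]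

/-- Bounded measurable functions. -/
structure BM {α E : Type*} [MeasurableSpace α] [MeasurableSpace E] [Norm E] (φ : α → E) :
    Prop where
  meas : Measurable φ
  bdd : ∃ C, ∀ p, ‖φ p‖ ≤ C

section
omit [CompleteSpace H]
variable {α β : Type*} [MeasurableSpace α] [MeasurableSpace β]

lemma BM.memLp {φ : α → H} (h : BM φ) (μ : Measure α) [IsFiniteMeasure μ] : MemLp φ 2 μ :=
  let ⟨C, hC⟩ := h.bdd
  MemLp.of_bound h.meas.aestronglyMeasurable C (Eventually.of_forall hC)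

lemma BM.integrable {φ : α → H} (h : BM φ) (μ : Measure α) [IsFiniteMeasure μ] :
    Integrable φ μ := (h.memLp μ).integrable one_le_two

lemma BM.integrable_sq {φ : α → H} (h : BM φ) (μ : Measure α) [IsFiniteMeasure μ] :
    Integrable (fun p => ‖φ p‖ ^ 2) μ :=
  (memLp_two_iff_integrable_sq_norm (h.memLp μ).1).1 (h.memLp μ)

lemma BM.comp {φ : α → H} (h : BM φ) {g : β → α} (hg : Measurable g) : BM fun p => φ (g p) :=
  ⟨h.meas.comp hg, h.bdd.imp fun _ hC _ => hC _⟩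

lemma BM.add {φ ψ : α → H} (h : BM φ) (h' : BM ψ) : BM fun p => φ p + ψ p :=
  let ⟨C, hC⟩ := h.bdd
  let ⟨D, hD⟩ := h'.bdd
  ⟨h.meas.add h'.meas, C + D, fun p => (norm_add_le _ _).trans (add_le_add (hC p) (hD p))⟩

lemma BM.sub {φ ψ : α → H} (h : BM φ) (h' : BM ψ) : BM fun p => φ p - ψ p :=
  let ⟨C, hC⟩ := h.bdd
  let ⟨D, hD⟩ := h'.bdd
  ⟨h.meas.sub h'.meas, C + D, fun p => (norm_sub_le _ _).trans (add_le_add (hC p) (hD p))⟩

lemma BM.smul {φ : α → H} {c : α → ℂ} (hc : BM c) (h : BM φ) : BM fun p => c p • φ p :=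
  let ⟨C, hC⟩ := hc.bdd
  let ⟨D, hD⟩ := h.bdd
  ⟨hc.meas.smul h.meas, C * D, fun p => by
    rw [norm_smul]; exact mul_le_mul (hC p) (hD p) (norm_nonneg _) ((norm_nonneg _).trans (hC p))⟩

lemma BM.const_smul {φ : α → H} (h : BM φ) (c : ℂ) : BM fun p => c • φ p :=
  BM.smul (c := fun _ => c) ⟨measurable_const, ‖c‖, fun _ => le_rfl⟩ h

lemma bm_fourier (k : ℤ) : BM fun p : Phase => fourier k p.2 :=
  ⟨(map_continuous (fourier k)).measurable.comp measurable_snd, 1, fun _ => (norm_fourier _ _).le⟩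

end

/-- Fourier modes in the direction variable. -/
noncomputable def md (φ : Phase → H) (k : ℤ) (x : ℂ) : H := fourierCoeff (fun θ => φ (x, θ)) k

lemma BM.slice {φ : Phase → H} (h : BM φ) (x : ℂ) : BM fun θ => φ (x, θ) :=
  h.comp measurable_prodMk_left

lemma norm_coeff_le {φ : UnitAddCircle → H} {C : ℝ} (h : ∀ θ, ‖φ θ‖ ≤ C) (k : ℤ) :
    ‖fourierCoeff φ k‖ ≤ C := by
  have := norm_integral_le_of_norm_le_const (μ := hr) (f := fun θ => fourier (-k) θ • φ θ)
    (C := C) (Eventually.of_forall fun θ => by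
      simpa only [norm_smul, norm_fourier, one_mul] using h θ)
  rwa [probReal_univ, mul_one] at this

lemma BM.md {φ : Phase → H} (h : BM φ) (k : ℤ) : BM (md φ k) :=
  ⟨(((bm_fourier (-k)).smul h).meas.stronglyMeasurable.integral_prod_right'
    (ν := hr)).measurable, h.bdd.imp fun _ hC x => norm_coeff_le (fun θ => hC (x, θ)) k⟩

lemma md_add {φ ψ : Phase → H} (h : BM φ) (h' : BM ψ) (k : ℤ) (x : ℂ) :
    md (fun p => φ p + ψ p) k x = md φ k x + md ψ k x :=
  congrFun (fourierCoeff.add ((h.slice x).integrable hr) ((h'.slice x).integrable hr)) k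

omit [MeasurableSpace H] [BorelSpace H] [SecondCountableTopology H] [CompleteSpace H] in
lemma md_smul (φ : Phase → H) (c : ℂ) (k : ℤ) (x : ℂ) :
    md (fun p => c • φ p) k x = c • md φ k x := fourierCoeff.const_smul (fun θ => φ (x, θ)) c k

lemma md_sub {φ ψ : Phase → H} (h : BM φ) (h' : BM ψ) (k : ℤ) (x : ℂ) :
    md (fun p => φ p - ψ p) k x = md φ k x - md ψ k x := by
  have := md_add h (h'.const_smul (-1)) k x
  rw [md_smul] at this
  simpa [sub_eq_add_neg] using this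

omit [MeasurableSpace H] [BorelSpace H] [SecondCountableTopology H] [CompleteSpace H] in
lemma md_fourier (φ : Phase → H) (l k : ℤ) (x : ℂ) :
    md (fun p => fourier l p.2 • φ p) k x = md φ (k - l) x := by
  simp only [md, fourierCoeff, ← mul_smul, ← fourier_add]
  congr; ext; congr 3; ring

lemma md_isometry (φ : Phase → H) (U : H →ₗᵢ[ℂ] H) (k : ℤ) (x : ℂ) :
    md (fun p => U (φ p)) k x = U (md φ k x) := by
  simp only [md, fourierCoeff, ← U.map_smul]
  exact U.integral_comp_comm _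

omit [MeasurableSpace H] [BorelSpace H] [SecondCountableTopology H] [CompleteSpace H] in
lemma md_mirror {V : Fin 3 → ℂ} {φ : Phase → H} {j : Fin 3} {x : ℂ}
    (h : ∀ᵐ θ ∂hr, φ (x, mirror V j θ) = φ (x, θ)) (k : ℤ) :
    md φ (-k) x = fourier k (ang V j) • md φ k x := by
  simp only [md, fourierCoeff, neg_neg]
  rw [← integral_sub_left_eq_self _ hr (ang V j), ← integral_smul]
  refine integral_congr_ae ?_
  filter_upwards [h] with θ h
  rw [← mirror_eq, h, ← mul_smul, mirror_eq]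
  congr 1
  simp only [fourier_apply, sub_eq_add_neg, smul_add, AddCircle.toCircle_add, neg_smul, smul_neg,
    Circle.coe_mul]

variable (V : Fin 3 → ℂ)

/-- Area measure on the table. -/
noncomputable abbrev vq : Measure ℂ := volume.restrict (interior (tri V))

open Classical in
/-- Fourier modes as elements of `L²` of the table. -/
noncomputable def LL (φ : Phase → H) (k : ℤ) : Lp H 2 (vq V) :=
  if h : MemLp (md φ k) 2 (vq V) then h.toLp _ else 0

variable {V}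

lemma LL_ae {φ : Phase → H} (h : BM φ) (k : ℤ) : LL V φ k =ᵐ[vq V] md φ k := by
  rw [LL, dif_pos ((h.md k).memLp _)]; exact MemLp.coeFn_toLp _

lemma LL_lin {φ ψ χ : Phase → H} (h : BM φ) (h' : BM ψ) (h'' : BM χ) {k l m : ℤ} {c d : ℂ}
    (e : ∀ x, md χ m x = c • md φ k x + d • md ψ l x) :
    LL V χ m = c • LL V φ k + d • LL V ψ l := by
  refine Lp.ext ?_
  filter_upwards [LL_ae (V := V) h k, LL_ae (V := V) h' l, LL_ae (V := V) h'' m,
    Lp.coeFn_add (c • LL V φ k) (d • LL V ψ l), Lp.coeFn_smul c (LL V φ k),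
    Lp.coeFn_smul d (LL V ψ l)] with x a1 a2 a3 a4 a5 a6
  rw [a3, a4, Pi.add_apply, a5, a6, Pi.smul_apply, Pi.smul_apply, a1, a2, e]

lemma LL_sub {φ ψ : Phase → H} (h : BM φ) (h' : BM ψ) (k : ℤ) :
    LL V (fun p => φ p - ψ p) k = LL V φ k - LL V ψ k := by
  rw [LL_lin h h' (h.sub h') (c := 1) (d := -1) (k := k) (l := k) fun x => by
    rw [md_sub h h']; simp [sub_eq_add_neg]]
  simp [sub_eq_add_neg]

lemma norm_sq_LL {φ : Phase → H} (h : BM φ) (k : ℤ) :
    ‖LL V φ k‖ ^ 2 = ∫ x, ‖md φ k x‖ ^ 2 ∂vq V := by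
  rw [norm_sq_L2]
  exact integral_congr_ae ((LL_ae h k).mono fun x hx => by simp only [hx])

lemma inner_LL {φ ψ : Phase → H} (h : BM φ) (h' : BM ψ) (k l : ℤ) :
    ⟪LL V φ k, LL V ψ l⟫_ℂ = ∫ x, ⟪md φ k x, md ψ l x⟫_ℂ ∂vq V := by
  rw [L2.inner_def]
  refine integral_congr_ae ?_
  filter_upwards [LL_ae (V := V) h k, LL_ae (V := V) h' l] with x a b
  rw [a, b]

lemma bessel_LL {φ : Phase → H} (h : BM φ) (s : Finset ℤ) :
    ∑ k ∈ s, ‖LL V φ k‖ ^ 2 ≤ ∫ p, ‖φ p‖ ^ 2 ∂mq V := by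
  simp only [norm_sq_LL h]
  rw [← integral_finsetSum _ fun k _ => (h.md k).integrable_sq _,
    integral_prod _ (h.integrable_sq _)]
  exact integral_mono (integrable_finsetSum _ fun k _ => (h.md k).integrable_sq _)
    (h.integrable_sq (mq V)).integral_prod_left fun x => bessel ((h.slice x).memLp hr) s

lemma summable_LL {φ : Phase → H} (h : BM φ) : Summable fun k => ‖LL V φ k‖ ^ 2 :=
  summable_of_sum_le (fun _ => sq_nonneg _) (bessel_LL h)

lemma norm_LL_le {φ : Phase → H} (h : BM φ) (k : ℤ) :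
    ‖LL V φ k‖ ≤ √(∫ p, ‖φ p‖ ^ 2 ∂mq V) :=
  Real.le_sqrt_of_sq_le (by simpa using bessel_LL h {k})

lemma tendsto_LL {φ : ℕ → Phase → H} {ψ : Phase → H} (h : ∀ n, BM (φ n)) (h' : BM ψ)
    (hl : Tendsto (fun n => ∫ p, ‖φ n p - ψ p‖ ^ 2 ∂mq V) atTop (𝓝 0)) (k : ℤ) :
    Tendsto (fun n => LL V (φ n) k) atTop (𝓝 (LL V ψ k)) := by
  rw [tendsto_iff_norm_sub_tendsto_zero]
  refine squeeze_zero (fun _ => norm_nonneg _) (fun n => ?_) (by simpa using hl.sqrt)
  rw [← LL_sub (h n) h']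
  exact norm_LL_le ((h n).sub h') k

end Vale.Agent.P099
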