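import Vale.Agent.P099.Geom

namespace Vale.Agent.P099

open MeasureTheory Set Complex
open scoped ComplexConjugate

variable {V : Fin 3 → ℂ}

/-- Twice the direction angle of side `j`. -/
noncomputable def ang (V : Fin 3 → ℂ) (j : Fin 3) : UnitAddCircle :=
  ((Complex.arg (V (j + 2) - V (j + 1)) / Real.pi : ℝ) : UnitAddCircle)

lemma mirror_eq (j : Fin 3) (θ : UnitAddCircle) : mirror V j θ = ang V j - θ := rfl

lemma ang_mul_conj (j : Fin 3) :
    dir (ang V j) * conj (V (j + 2) - V (j + 1)) = V (j + 2) - V (j + 1) := by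
  rw [ang, dir_coe]
  set w := V (j + 2) - V (j + 1)
  have h := Complex.norm_mul_exp_arg_mul_I w
  have h2 : conj w = ‖w‖ * Complex.exp (-(w.arg * I)) := by
    conv_lhs => rw [← h]
    rw [map_mul, ← Complex.exp_conj]; simp
  have hπ : (Real.pi : ℂ) ≠ 0 := by exact_mod_cast Real.pi_ne_zero
  rw [h2, mul_left_comm, ← Complex.exp_add]
  conv_rhs => rw [← h]
  congr 2; push_cast; field_simp; ring

/-- Mirror image of a point in the line of side `j`. -/
noncomputable def rf (V : Fin 3 → ℂ) (j : Fin 3) (x : ℂ) : ℂ :=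
  V (j + 1) + dir (ang V j) * conj (x - V (j + 1))

/-- Mirror image of a phase point in the line of side `j`. -/
noncomputable def sig (V : Fin 3 → ℂ) (j : Fin 3) (p : Phase) : Phase :=
  (rf V j p.1, mirror V j p.2)

lemma dir_mirror (j : Fin 3) (θ : UnitAddCircle) :
    dir (mirror V j θ) = dir (ang V j) * conj (dir θ) := dir_sub _ _

lemma rel_sig_one (j : Fin 3) (p : Phase) :
    rel V (j + 1) (sig V j p) = conj (rel V (j + 1) p) := by
  simp only [rel, sig, rf, dir_mirror, map_mul, map_sub, conj_conj]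
  linear_combination (conj (V (j + 1)) - conj p.1) * dir p.2 * dir_mul_conj (ang V j)

lemma rel_sig_two (j : Fin 3) (p : Phase) :
    rel V (j + 2) (sig V j p) = conj (rel V (j + 2) p) := by
  have h := ang_mul_conj (V := V) j
  simp only [rel, sig, rf, dir_mirror, map_mul, map_sub, conj_conj] at h ⊢
  linear_combination (conj (V (j + 2)) - conj p.1) * dir p.2 * dir_mul_conj (ang V j) -
    conj (dir (ang V j)) * dir p.2 * h

@[simp] lemma sig_sig (j : Fin 3) (p : Phase) : sig V j (sig V j p) = p := by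
  refine Prod.ext ?_ (by simp [sig, mirror])
  simp only [sig, rf, add_sub_cancel_left, map_mul, conj_conj]
  linear_combination (p.1 - V (j + 1)) * dir_mul_conj (ang V j)

lemma sig_sh (j : Fin 3) (z : ℂ) (p : Phase) : sig V j (sh z p) = sh (conj z) (sig V j p) := by
  refine Prod.ext ?_ rfl
  simp only [sig, sh, rf, dir_mirror, map_add, map_sub, map_mul]; ring

lemma sig_move (j : Fin 3) (t : ℝ) (p : Phase) : sig V j (move t p) = move t (sig V j p) := by
  simp [move_eq_sh, sig_sh]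

lemma sig_rev (j : Fin 3) (p : Phase) : sig V j (rev p) = rev (sig V j p) := by
  refine Prod.ext rfl ?_
  simp only [sig, rev, mirror]
  have : (((1 / 2 : ℝ) : UnitAddCircle)) + ((1 / 2 : ℝ) : UnitAddCircle) = 0 := by
    rw [← AddCircle.coe_add]; norm_num [AddCircle.coe_period]
  rw [← sub_eq_zero, ← neg_eq_zero, ← this]; abel

lemma rf_segment {j : Fin 3} {x : ℂ} (h : x ∈ segment ℝ (V (j + 1)) (V (j + 2))) :
    rf V j x = x := by
  obtain ⟨a, b, -, -, hab, rfl⟩ := h
  obtain rfl : a = 1 - b := by linarith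
  have h := ang_mul_conj (V := V) j
  simp only [rf, real_smul, map_sub, map_add, map_mul, conj_ofReal] at h ⊢
  push_cast
  linear_combination (b : ℂ) * h

lemma en_sig {j : Fin 3} {p : Phase} : En V j (sig V j p) ↔ Ex V j p := by
  simp [Ex, En, rel_sig_one, rel_sig_two, and_comm]

lemma ex_sig {j : Fin 3} {p : Phase} : Ex V j (sig V j p) ↔ En V j p := by
  simp [Ex, En, rel_sig_one, rel_sig_two, and_comm]

lemma cr_sig (j : Fin 3) (p : Phase) : cr V j (sig V j p) = cr V j p := by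
  simp only [cr, rel_sig_one, rel_sig_two, cross, conj_re, conj_im]
  rw [← neg_div_neg_eq]; congr 1 <;> ring

open Classical in
/-- The unfolding map: reflect in the exit side. -/
noncomputable def gam (V : Fin 3 → ℂ) (p : Phase) : Phase :=
  if Ex V 0 p then sig V 0 p else if Ex V 1 p then sig V 1 p else if Ex V 2 p then sig V 2 p else p

open Classical in
/-- The exit time. -/
noncomputable def bb (V : Fin 3 → ℂ) (p : Phase) : ℝ :=
  if Ex V 0 p then cr V 0 p else if Ex V 1 p then cr V 1 p else if Ex V 2 p then cr V 2 p else 0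

lemma Ex.gam_eq {j : Fin 3} {p : Phase} (h : Ex V j p) : gam V p = sig V j p := by
  unfold gam
  split_ifs with h0 h1 h2
  · rw [h0.unique h]
  · rw [h1.unique h]
  · rw [h2.unique h]
  · fin_cases j <;> contradiction

lemma Ex.bb_eq {j : Fin 3} {p : Phase} (h : Ex V j p) : bb V p = cr V j p := by
  unfold bb
  split_ifs with h0 h1 h2
  · rw [h0.unique h]
  · rw [h1.unique h]
  · rw [h2.unique h]
  · fin_cases j <;> contradiction

lemma gam_of_not {p : Phase} (h : ¬∃ j, Ex V j p) : gam V p = p := by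
  push Not at h
  simp [gam, h]

lemma gam_move (t : ℝ) (p : Phase) : gam V (move t p) = move t (gam V p) := by
  by_cases h : ∃ j, Ex V j p
  · obtain ⟨j, h⟩ := h
    rw [h.gam_eq, (ex_move.2 h).gam_eq, sig_move]
  · rw [gam_of_not h, gam_of_not (by simpa only [ex_move] using h)]

lemma Ex.bb_move {j : Fin 3} {p : Phase} (h : Ex V j p) (t : ℝ) :
    bb V (move t p) = bb V p - t := by
  rw [h.bb_eq, (ex_move.2 h).bb_eq, h.cr_move]

lemma Ex.gam_inv {j : Fin 3} {p : Phase} (h : Ex V j p) : gam V (rev (gam V p)) = rev p := by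
  rw [h.gam_eq, (ex_rev.2 (en_sig.2 h)).gam_eq, sig_rev, sig_sig]

lemma Ex.bb_rev_gam {j : Fin 3} {p : Phase} (h : Ex V j p) :
    bb V (rev (gam V p)) = -bb V p := by
  rw [h.gam_eq, (ex_rev.2 (en_sig.2 h)).bb_eq, cr_rev, cr_sig, h.bb_eq]

lemma Ex.bounce_eq (hV : area V ≠ 0) {j : Fin 3} {p : Phase} (h : Ex V j p) :
    bounce V p = move (bb V p) (gam V p) := by
  have hm := h.mem_openSegment
  have he : ∃ j : Fin 3,
      (move (exitTime V p) p).1 ∈ openSegment ℝ (V (j + 1)) (V (j + 2)) :=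
    ⟨j, by rwa [h.exitTime_eq hV]⟩
  rw [bounce, dif_pos he]
  have hj : he.choose = j := side_unique hV he.choose_spec (by rwa [h.exitTime_eq hV])
  rw [hj, h.gam_eq, ← sig_move, h.bb_eq, h.exitTime_eq hV]
  exact Prod.ext (rf_segment (openSegment_subset_segment _ _ _ hm)).symm rfl

/-- The line of `p` crosses the triangle, entering and leaving through open sides. -/
def Cr (V : Fin 3 → ℂ) (p : Phase) : Prop := (∃ j, Ex V j p) ∧ ∃ j, Ex V j (rev p)

/-- The line of `p` avoids the vertices. -/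
def Nv (V : Fin 3 → ℂ) (p : Phase) : Prop := ∀ i, (rel V i p).im ≠ 0

lemma cr_rev_iff {p : Phase} : Cr V (rev p) ↔ Cr V p := by simp [Cr, and_comm]

lemma nv_rev_iff {p : Phase} : Nv V (rev p) ↔ Nv V p := by simp [Nv, rel_rev]

lemma cr_move_iff {p : Phase} {t : ℝ} : Cr V (move t p) ↔ Cr V p := by
  simp [Cr, rev_move, ex_move]

lemma Ex.exists_en (hV : area V ≠ 0) {j : Fin 3} {p : Phase} (h : Ex V j p) (hn : Nv V p) :
    ∃ i, En V i p := by
  rcases lt_or_gt_of_ne (mul_ne_zero hV (hn j)) with h0 | h0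
  · exact ⟨j + 1, by rw [(f3 j).2.1]; exact h0, by rw [(f3 j).1]; exact h.2⟩
  · exact ⟨j + 2, by rw [(f3 j).2.2.2]; exact h.1, by rw [(f3 j).2.2.1]; exact h0⟩

lemma Ex.cr_of_nv (hV : area V ≠ 0) {j : Fin 3} {p : Phase} (h : Ex V j p) (hn : Nv V p) :
    Cr V p :=
  ⟨⟨j, h⟩, (h.exists_en hV hn).imp fun _ => ex_rev.2⟩

lemma En.cr_of_nv (hV : area V ≠ 0) {j : Fin 3} {p : Phase} (h : En V j p) (hn : Nv V p) :
    Cr V p :=
  cr_rev_iff.1 ((ex_rev.2 h).cr_of_nv hV (nv_rev_iff.2 hn))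

lemma sum_lam_rel (hV : area V ≠ 0) (p : Phase) :
    lam V 0 p.1 * (rel V 0 p).im + lam V 1 p.1 * (rel V 1 p).im +
      lam V 2 p.1 * (rel V 2 p).im = 0 := by
  have h1 := lam_comb' hV 0 p.1
  have h2 := lam_sum' hV 0 p.1
  have h3 : (lam V 0 p.1 : ℂ) * rel V 0 p + lam V 1 p.1 * rel V 1 p +
      lam V 2 p.1 * rel V 2 p = 0 := by
    have h2' : (lam V 0 p.1 : ℂ) + lam V 1 p.1 + lam V 2 p.1 = 1 := by exact_mod_cast h2
    simp only [real_smul, zero_add] at h1
    simp only [rel]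
    linear_combination conj (dir p.2) * h1 - p.1 * conj (dir p.2) * h2'
  simpa using congrArg Complex.im h3

lemma cr_of_mem (hV : area V ≠ 0) {p : Phase} (hx : p.1 ∈ tri V) (hn : Nv V p) : Cr V p := by
  have h := sum_lam_rel hV p
  have h1 := lam_sum' hV 0 p.1
  have hl := (mem_tri hV).1 hx
  have l0 := hl 0; have l1 := hl 1; have l2 := hl 2
  simp only [zero_add] at h1
  have h' : lam V 0 p.1 * (area V * (rel V 0 p).im) + lam V 1 p.1 * (area V * (rel V 1 p).im) +
      lam V 2 p.1 * (area V * (rel V 2 p).im) = 0 := by linear_combination area V * h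
  suffices ∃ j, Ex V j p from this.elim fun j hj => hj.cr_of_nv hV hn
  rcases lt_or_gt_of_ne (mul_ne_zero hV (hn 0)) with a | a <;>
  rcases lt_or_gt_of_ne (mul_ne_zero hV (hn 1)) with b | b <;>
  rcases lt_or_gt_of_ne (mul_ne_zero hV (hn 2)) with c | c
  · exfalso
    have := mul_nonneg l0 (neg_pos.2 a).le
    have := mul_nonneg l1 (neg_pos.2 b).le
    have := mul_nonneg l2 (neg_pos.2 c).le
    have e0 : lam V 0 p.1 = 0 := by nlinarith
    have e1 : lam V 1 p.1 = 0 := by nlinarith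
    have e2 : lam V 2 p.1 = 0 := by nlinarith
    linarith
  · exact ⟨0, b, c⟩
  · exact ⟨2, a, b⟩
  · exact ⟨2, a, b⟩
  · exact ⟨1, c, a⟩
  · exact ⟨0, b, c⟩
  · exact ⟨1, c, a⟩
  · exfalso
    have := mul_nonneg l0 a.le
    have := mul_nonneg l1 b.le
    have := mul_nonneg l2 c.le
    have e0 : lam V 0 p.1 = 0 := by nlinarith
    have e1 : lam V 1 p.1 = 0 := by nlinarith
    have e2 : lam V 2 p.1 = 0 := by nlinarith
    linarith

lemma Cr.gam_cr (hV : area V ≠ 0) {p : Phase} (h : Cr V p) (hn : Nv V (gam V p)) :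
    Cr V (gam V p) := by
  obtain ⟨j, hj⟩ := h.1
  rw [hj.gam_eq] at hn ⊢
  exact (en_sig.2 hj).cr_of_nv hV hn

lemma Ex.exit_mem {j : Fin 3} {p : Phase} (h : Ex V j p) : (move (bb V p) p).1 ∈ tri V := by
  rw [h.bb_eq]; exact side_subset j h.mem_openSegment

lemma Cr.exit_mem {p : Phase} (h : Cr V p) : (move (bb V p) p).1 ∈ tri V :=
  h.1.elim fun _ hj => hj.exit_mem

lemma Cr.entry_mem {p : Phase} (h : Cr V p) : (move (-bb V (rev p)) p).1 ∈ tri V := by
  have := (cr_rev_iff.2 h).exit_mem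
  rwa [← neg_neg (bb V (rev p)), ← rev_move] at this

lemma Cr.le_bb (hV : area V ≠ 0) {p : Phase} (h : Cr V p) {s : ℝ} (hs : (move s p).1 ∈ tri V) :
    s ≤ bb V p := by
  obtain ⟨j, hj⟩ := h.1
  rw [hj.bb_eq]; exact hj.le_cr hV hs

lemma Cr.neg_le_bb (hV : area V ≠ 0) {p : Phase} (h : Cr V p) {s : ℝ}
    (hs : (move s p).1 ∈ tri V) : -s ≤ bb V (rev p) :=
  (cr_rev_iff.2 h).le_bb hV (by rw [← rev_move]; exact hs)

lemma Cr.entry_lt (hV : area V ≠ 0) {p : Phase} (h : Cr V p) : -bb V (rev p) < bb V p := by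
  refine lt_of_le_of_ne (h.le_bb hV h.entry_mem) fun he => ?_
  obtain ⟨j, hj⟩ := h.1
  obtain ⟨i, hi⟩ := h.2
  have h1 := hj.mem_openSegment
  have h2 := hi.mem_openSegment
  rw [← hj.bb_eq] at h1
  rw [← hi.bb_eq, ← neg_neg (bb V (rev p)), ← rev_move, he] at h2
  obtain rfl := side_unique hV h1 h2
  exact hj.not_en (ex_rev.1 hi)

lemma Cr.mem_tri {p : Phase} (h : Cr V p) (h1 : 0 ≤ bb V (rev p)) (h2 : 0 ≤ bb V p) :
    p.1 ∈ tri V := by
  rcases eq_or_lt_of_le (add_nonneg h1 h2) with h0 | h0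
  · have := h.exit_mem
    rwa [show bb V p = 0 by linarith, move_zero] at this
  · have := convex_tri h.entry_mem h.exit_mem (div_nonneg h2 h0.le) (div_nonneg h1 h0.le)
      (by field_simp; ring)
    convert this using 1
    have h0' : (bb V (rev p) : ℂ) + bb V p ≠ 0 := by exact_mod_cast h0.ne'
    simp only [move, real_smul]; push_cast
    field_simp; ring

lemma Cr.bb_pos (hV : area V ≠ 0) {p : Phase} (h : Cr V p) (hx : p.1 ∈ interior (tri V)) :
    0 < bb V p := by
  have hc : Continuous fun s : ℝ => (move s p).1 := by unfold move; fun_prop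
  have h1 : ∀ᶠ s in nhds (0 : ℝ), (move s p).1 ∈ interior (tri V) :=
    hc.continuousAt.eventually (isOpen_interior.mem_nhds (by simpa using hx))
  obtain ⟨s, hs, hs0⟩ := ((h1.filter_mono nhdsWithin_le_nhds).and
    (self_mem_nhdsWithin (s := Ioi (0 : ℝ)))).exists
  exact lt_of_lt_of_le hs0 (h.le_bb hV (interior_subset hs))

end Vale.Agent.P099
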