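import Vale.Agent.P099.Refl

namespace Vale.Agent.P099

open Set Complex
open scoped NNReal

variable {V : Fin 3 → ℂ}

/-- Sum of the positive parts of the barycentric coordinates. -/
noncomputable def sm (V : Fin 3 → ℂ) (x : ℂ) : ℝ := ∑ j, max (lam V j x) 0

/-- A Lipschitz retraction of the plane onto the triangle. -/
noncomputable def ret (V : Fin 3 → ℂ) (x : ℂ) : ℂ := ∑ j, (max (lam V j x) 0 / sm V x) • V j

/-- A compactly supported cut-off equal to one on the triangle. -/
noncomputable def cut (V : Fin 3 → ℂ) (x : ℂ) : ℝ := max (2 - sm V x) 0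

lemma one_le_sm (hV : area V ≠ 0) (x : ℂ) : 1 ≤ sm V x :=
  (lam_sum hV x).ge.trans (Finset.sum_le_sum fun _ _ => le_max_left _ _)

lemma sum_ratio (hV : area V ≠ 0) (x : ℂ) : ∑ j, max (lam V j x) 0 / sm V x = 1 := by
  rw [← Finset.sum_div]; exact div_self (zero_lt_one.trans_le (one_le_sm hV x)).ne'

lemma ret_mem (hV : area V ≠ 0) (x : ℂ) : ret V x ∈ tri V :=
  convex_tri.sum_mem (fun _ _ => div_nonneg (le_max_right _ _) (by linarith [one_le_sm hV x]))
    (sum_ratio hV x) fun j _ => mem_tri_vertex j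

lemma sm_of_mem (hV : area V ≠ 0) {x : ℂ} (h : x ∈ tri V) : sm V x = 1 := by
  simp only [sm, fun j => max_eq_left ((mem_tri hV).1 h j), lam_sum hV]

lemma ret_of_mem (hV : area V ≠ 0) {x : ℂ} (h : x ∈ tri V) : ret V x = x := by
  simp only [ret, sm_of_mem hV h, fun j => max_eq_left ((mem_tri hV).1 h j), div_one, lam_comb hV]

lemma cut_of_mem (hV : area V ≠ 0) {x : ℂ} (h : x ∈ tri V) : cut V x = 1 := by
  rw [cut, sm_of_mem hV h]; norm_num

lemma cut_nonneg (x : ℂ) : 0 ≤ cut V x := le_max_right _ _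

lemma cut_le_one (hV : area V ≠ 0) (x : ℂ) : cut V x ≤ 1 :=
  max_le (by linarith [one_le_sm hV x]) zero_le_one

lemma sum_three {M : Type*} [AddCommMonoid M] (f : Fin 3 → M) (j : Fin 3) :
    ∑ i, f i = f j + f (j + 1) + f (j + 2) := by
  fin_cases j <;> simp [Fin.sum_univ_three] <;> abel

lemma ret_segment (hV : area V ≠ 0) {j : Fin 3} {x : ℂ} (h : lam V j x < 0) :
    ret V x ∈ segment ℝ (V (j + 1)) (V (j + 2)) := by
  have h1 := sum_ratio hV x
  have h2 : 0 ≤ sm V x := by linarith [one_le_sm hV x]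
  rw [ret]
  rw [sum_three _ j, max_eq_right h.le, zero_div] at h1 ⊢
  rw [zero_add] at h1
  rw [zero_smul, zero_add]
  exact ⟨_, _, div_nonneg (le_max_right _ _) h2, div_nonneg (le_max_right _ _) h2, h1, rfl⟩

lemma cut_eq_zero (hV : area V ≠ 0) {x : ℂ} (h : 2 * ∑ j, ‖V j‖ < ‖x‖) : cut V x = 0 := by
  refine max_eq_right (not_lt.1 fun h1 => not_le.2 h ?_)
  have h2 : ∀ j, |lam V j x| ≤ 2 := fun j => by
    have a := lam_sum' hV j x
    rw [sm, sum_three _ j] at h1
    have b0 := le_max_left (lam V j x) 0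
    have b1 := le_max_left (lam V (j + 1) x) 0
    have b2 := le_max_left (lam V (j + 2) x) 0
    have c0 := le_max_right (lam V j x) 0
    have c1 := le_max_right (lam V (j + 1) x) 0
    have c2 := le_max_right (lam V (j + 2) x) 0
    exact abs_le.2 ⟨by linarith, by linarith⟩
  rw [← lam_comb hV x, Finset.mul_sum]
  refine (norm_sum_le _ _).trans (Finset.sum_le_sum fun j _ => ?_)
  rw [norm_smul, Real.norm_eq_abs]
  gcongr; exact h2 j

lemma abs_lam_sub (j : Fin 3) (x y : ℂ) :
    |lam V j x - lam V j y| ≤ 2 * dm V / |area V| * ‖x - y‖ := by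
  have h : lam V j x - lam V j y = cross (V (j + 2) - V (j + 1)) (x - y) / area V := by
    simp [lam, cross]; ring
  have h1 := norm_sub_le_dm (V := V) (mem_tri_vertex (j + 2)) (mem_tri_vertex (j + 1))
  rw [h, abs_div, div_mul_eq_mul_div]
  gcongr
  refine (abs_sub _ _).trans ?_
  rw [abs_mul, abs_mul]
  have a1 := (abs_re_le_norm _).trans h1
  have a2 := (abs_im_le_norm _).trans h1
  have a3 := abs_re_le_norm (x - y)
  have a4 := abs_im_le_norm (x - y)
  have := dm_nonneg (V := V)
  calc _ ≤ dm V * ‖x - y‖ + dm V * ‖x - y‖ := by gcongr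
    _ = _ := by ring

lemma abs_sm_sub (x y : ℂ) : |sm V x - sm V y| ≤ 3 * (2 * dm V / |area V| * ‖x - y‖) := by
  rw [sm, sm, ← Finset.sum_sub_distrib]
  refine (Finset.abs_sum_le_sum_abs _ _).trans ((Finset.sum_le_sum fun j _ =>
    (abs_max_sub_max_le_abs _ _ _).trans (abs_lam_sub j x y)).trans (by simp))

lemma lip_cut : ∃ K : ℝ≥0, LipschitzWith K (cut V) := by
  refine ⟨_, LipschitzWith.of_dist_le' (K := 3 * (2 * dm V / |area V|)) fun x y => ?_⟩
  rw [Real.dist_eq, dist_eq_norm, mul_assoc]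
  refine (abs_max_sub_max_le_abs _ _ _).trans ?_
  rw [sub_sub_sub_cancel_left, abs_sub_comm]
  exact abs_sm_sub x y

lemma lip_ret (hV : area V ≠ 0) : ∃ K : ℝ≥0, LipschitzWith K (ret V) := by
  refine ⟨_, LipschitzWith.of_dist_le' (K := 4 * (2 * dm V / |area V|) * ∑ j, ‖V j‖)
    fun x y => ?_⟩
  rw [dist_eq_norm, dist_eq_norm, ret, ret, ← Finset.sum_sub_distrib, Finset.mul_sum,
    Finset.sum_mul]
  refine (norm_sum_le _ _).trans (Finset.sum_le_sum fun j _ => ?_)
  rw [← sub_smul, norm_smul, Real.norm_eq_abs, mul_right_comm]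
  gcongr
  have h1 := (abs_max_sub_max_le_abs _ _ 0).trans (abs_lam_sub (V := V) j x y)
  have h2 := abs_sm_sub (V := V) x y
  have h3 := one_le_sm hV x
  have h4 := one_le_sm hV y
  have h5 : max (lam V j y) 0 ≤ sm V y :=
    Finset.single_le_sum (f := fun j => max (lam V j y) 0) (fun _ _ => le_max_right _ _)
      (Finset.mem_univ j)
  have h6 := le_max_right (lam V j y) 0
  generalize max (lam V j x) 0 = a at *
  generalize max (lam V j y) 0 = b at *
  generalize sm V x = s at *
  generalize sm V y = t at *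
  have e : a / s - b / t = (a - b) / s + b / t * ((t - s) / s) := by field_simp; ring
  have h7 : |b / t| ≤ 1 := by
    rw [abs_of_nonneg (by positivity)]; exact (div_le_one (by linarith)).2 h5
  rw [e]
  refine (abs_add_le _ _).trans ?_
  rw [abs_mul, abs_div (a - b), abs_div (t - s), abs_of_pos (by linarith : 0 < s), abs_sub_comm t]
  calc _ ≤ |a - b| + 1 * |s - t| := by
        gcongr <;> exact div_le_self (abs_nonneg _) h3
    _ ≤ _ := by linarith

end Vale.Agent.P099
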