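import Vale.Agent.P099.Virial2

namespace Vale.Agent.P099

open MeasureTheory Set Complex Filter Topology Asymptotics
open scoped ComplexConjugate InnerProductSpace NNReal Interval

set_option linter.unusedSectionVars false

variable {H : Type*} [NormedAddCommGroup H] [InnerProductSpace ℂ H] [CompleteSpace H]

namespace UGroup
variable (G : UGroup H)

lemma cont₂ : Continuous fun q : ℝ × H => G.U q.1 q.2 :=
  continuous_prod_of_continuous_lipschitzWith' _ 1 (fun t => (G.U t).lipschitz) G.cont

/-- Time averaging. -/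
noncomputable def tk (τ : ℝ) : H →L[ℂ] H :=
  LinearMap.mkContinuous
    { toFun := fun w => ∫ s in (0 : ℝ)..τ, G.U s w
      map_add' := fun v w => by
        simp only [map_add]
        exact intervalIntegral.integral_add ((G.cont v).intervalIntegrable _ _)
          ((G.cont w).intervalIntegrable _ _)
      map_smul' := fun c w => by simp only [map_smul, intervalIntegral.integral_smul]; rfl } |τ|
    fun w => by
      have := intervalIntegral.norm_integral_le_of_norm_le_const (a := 0) (b := τ) (C := ‖w‖)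
        (f := fun s => G.U s w) fun s _ => by simp
      simpa [mul_comm] using this

lemma tk_apply (τ : ℝ) (w : H) : G.tk τ w = ∫ s in (0 : ℝ)..τ, G.U s w := rfl

lemma norm_tk_le {τ : ℝ} (h0 : 0 ≤ τ) (h1 : τ ≤ 1) (w : H) : ‖G.tk τ w‖ ≤ ‖w‖ := by
  refine ((G.tk τ).le_of_opNorm_le (LinearMap.mkContinuous_norm_le _ (abs_nonneg _) _) w).trans ?_
  rw [abs_of_nonneg h0]; exact mul_le_of_le_one_left (norm_nonneg _) h1

lemma U_tk (t τ : ℝ) (w : H) : G.U t (G.tk τ w) = G.tk τ (G.U t w) := by
  rw [tk_apply, tk_apply, ← (G.U t).intervalIntegral_comp_comm]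
  simp only [G.add, add_comm]

lemma hasDerivAt_tk (τ : ℝ) (w : H) (t : ℝ) :
    HasDerivAt (fun t => G.U t (G.tk τ w)) (G.U t (G.U τ w - w)) t := by
  have e : ∀ t, G.U t (G.tk τ w) =
      (∫ s in (0 : ℝ)..(t + τ), G.U s w) - ∫ s in (0 : ℝ)..t, G.U s w := fun t => by
    rw [U_tk, tk_apply, intervalIntegral.integral_interval_sub_left
      ((G.cont w).intervalIntegrable _ _) ((G.cont w).intervalIntegrable _ _)]
    simp only [G.add]
    rw [intervalIntegral.integral_comp_add_right (fun s => G.U s w), zero_add, add_comm]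
  simp only [e, map_sub, G.add]
  exact (((G.cont w).integral_hasStrictDerivAt 0 (t + τ)).hasDerivAt.comp_add_const t τ).sub
    ((G.cont w).integral_hasStrictDerivAt 0 t).hasDerivAt

lemma norm_U_tk_sub (τ : ℝ) (w : H) (t : ℝ) : ‖G.U t (G.tk τ w) - G.tk τ w‖ ≤ 2 * ‖w‖ * |t| := by
  have := convex_univ.norm_image_sub_le_of_norm_hasDerivWithin_le (C := 2 * ‖w‖)
    (fun t _ => (G.hasDerivAt_tk τ w t).hasDerivWithinAt) (fun t _ => by
      rw [LinearIsometry.norm_map]
      exact (norm_sub_le _ _).trans (by simp [two_mul])) (mem_univ 0) (mem_univ t)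
  simpa [G.zero] using this

lemma tendsto_tk (w : H) :
    Tendsto (fun n : ℕ => ((n : ℂ) + 1) • G.tk (1 / (n + 1)) w) atTop (𝓝 w) := by
  have h1 : Tendsto (fun n : ℕ => ‖(n : ℝ) + 1‖) atTop atTop :=
    tendsto_norm_atTop_atTop.comp (tendsto_atTop_add_const_right _ _ tendsto_natCast_atTop_atTop)
  have h2 := ((G.cont w).integral_hasStrictDerivAt 0 0).hasDerivAt.hasFDerivAt.lim 1 h1
  convert h2 using 2
  · rw [← Complex.coe_smul, tk_apply]; simp
  · simp [G.zero]

lemma hasFDerivAt {W : ℝ → H} {W' a : H} (h1 : HasDerivAt W W' 0)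
    (h2 : HasDerivAt (fun t => G.U t (W 0)) a 0) :
    HasFDerivAt (fun z : ℂ => G.U (-z.re) (W z.im))
      (reCLM.smulRight (-a) + imCLM.smulRight W') 0 := by
  rw [hasDerivAt_iff_isLittleO_nhds_zero] at h1 h2
  rw [hasFDerivAt_iff_isLittleO_nhds_zero]
  have t1 : Tendsto (fun z : ℂ => z.im) (𝓝 0) (𝓝 0) := continuous_im.tendsto' _ _ rfl
  have t2 : Tendsto (fun z : ℂ => -z.re) (𝓝 0) (𝓝 0) := continuous_re.neg.tendsto' _ _ (by simp)
  have o1 : (fun z : ℂ => z.im) =O[𝓝 0] fun z => z := imCLM.isBigO_id _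
  have o2 : (fun z : ℂ => -z.re) =O[𝓝 0] fun z => z := (reCLM.isBigO_id _).neg_left
  have a1 : (fun z : ℂ => G.U (-z.re) (W (0 + z.im) - W 0 - z.im • W')) =o[𝓝 0] fun z => z := by
    refine IsLittleO.of_norm_left ?_
    simp only [LinearIsometry.norm_map]
    exact ((h1.comp_tendsto t1).trans_isBigO o1).norm_left
  have a2 := (h2.comp_tendsto t2).trans_isBigO o2
  have a3 : (fun z : ℂ => z.im • (G.U (-z.re) W' - W')) =o[𝓝 0] fun z => z := by
    have : (fun z : ℂ => G.U (-z.re) W' - W') =o[𝓝 0] fun _ => (1 : ℝ) := by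
      rw [isLittleO_one_iff]
      have := (((G.cont W').tendsto 0).comp t2).sub_const W'
      simpa [G.zero] using this
    have h3 := o1.norm_right.smul_isLittleO this
    exact IsLittleO.of_norm_right (by simpa using h3)
  refine ((a1.add a2).add a3).congr_left fun z => ?_
  simp only [Function.comp, zero_add, map_sub, ← Complex.coe_smul, map_smul, zero_re, zero_im,
    neg_zero, G.zero, add_apply, ContinuousLinearMap.smulRight_apply,
    reCLM_apply, imCLM_apply, ofReal_neg]
  module

end UGroup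

variable [MeasurableSpace H] [BorelSpace H] [SecondCountableTopology H]

/-- Averaging transversally to the direction of motion. -/
noncomputable def sa (η : ℝ) (w : Phase → H) (p : Phase) : H :=
  (1 / (2 * η)) • ∫ s in (-η)..η, w (sh (s * I) p)

lemma measurable_sh : Measurable fun q : ℝ × Phase => sh (q.1 * I) q.2 := by unfold sh; fun_prop

lemma measurable_intervalIntegral {E : Type*} [NormedAddCommGroup E] [NormedSpace ℝ E]
    [MeasurableSpace E] [BorelSpace E] [SecondCountableTopology E] {F : ℝ → Phase → E}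
    (h : Measurable fun q : ℝ × Phase => F q.1 q.2) {η : ℝ} (hη : 0 < η) :
    Measurable fun p => ∫ s in (-η)..η, F s p := by
  simp only [intervalIntegral.integral_of_le (neg_le_self hη.le)]
  exact (h.stronglyMeasurable.integral_prod_left').measurable

lemma BM.intervalIntegrable {w : ℝ → H} (h : BM w) (a b : ℝ) : IntervalIntegrable w volume a b :=
  ⟨h.integrable _, h.integrable _⟩

lemma BM.line {w : Phase → H} (h : BM w) (p : Phase) : BM fun s : ℝ => w (sh (s * I) p) :=
  h.comp (measurable_sh.comp measurable_prodMk_right)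

lemma norm_avg_le {F : ℝ → H} {η M : ℝ} (hη : 0 < η) (h : ∀ s, ‖F s‖ ≤ M) :
    ‖(1 / (2 * η)) • ∫ s in (-η)..η, F s‖ ≤ M := by
  have := intervalIntegral.norm_integral_le_of_norm_le_const (a := -η) (b := η) (C := M)
    (f := F) fun s _ => h s
  rw [abs_of_pos (by linarith)] at this
  rw [norm_smul, Real.norm_of_nonneg (by positivity)]
  calc _ ≤ 1 / (2 * η) * (M * (η - -η)) := by gcongr
    _ = _ := by field_simp; ring

lemma measurable_sa {w : Phase → H} (h : Measurable w) {η : ℝ} (hη : 0 < η) :
    Measurable (sa η w) :=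
  (measurable_intervalIntegral (h.comp measurable_sh) hη).const_smul _

lemma norm_sa_le {w : Phase → H} {η M : ℝ} (hη : 0 < η) (h : ∀ p, ‖w p‖ ≤ M) (p : Phase) :
    ‖sa η w p‖ ≤ M := norm_avg_le hη fun _ => h _

lemma BM.sa {w : Phase → H} (h : BM w) {η : ℝ} (hη : 0 < η) : BM (sa η w) :=
  ⟨measurable_sa h.meas hη, h.bdd.imp fun _ => norm_sa_le hη⟩

lemma sa_move {G : UGroup H} {w : Phase → H} (h : ∀ t p, w (move t p) = G.U (-t) (w p)) (η t : ℝ)
    (p : Phase) : sa η w (move t p) = G.U (-t) (sa η w p) := by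
  have : ∀ z, sh z (move t p) = move t (sh z p) := fun z => by simp [move_eq_sh, sh_sh, add_comm]
  simp only [sa, this, h, LinearIsometry.intervalIntegral_comp_comm, ← Complex.coe_smul, map_smul]

lemma sa_sh {w : Phase → H} (h : BM w) (η y : ℝ) (p : Phase) : sa η w (sh (y * I) p) =
    (1 / (2 * η)) • ((∫ s in (0 : ℝ)..(y + η), w (sh (s * I) p)) -
      ∫ s in (0 : ℝ)..(y + -η), w (sh (s * I) p)) := by
  rw [intervalIntegral.integral_interval_sub_left ((h.line p).intervalIntegrable _ _)
    ((h.line p).intervalIntegrable _ _), ← intervalIntegral.integral_comp_add_left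
    (fun s : ℝ => w (sh (s * I) p)), sa]
  simp only [sh_sh]; congr; ext; congr 2; push_cast; ring

lemma continuous_sa {w : Phase → H} (h : BM w) (η : ℝ) (p : Phase) :
    Continuous fun y : ℝ => sa η w (sh (y * I) p) := by
  simp only [sa_sh h]
  have := intervalIntegral.continuous_primitive (h.line p).intervalIntegrable 0
  fun_prop

/-- The transversal derivative of a double average. -/
noncomputable def sd (η : ℝ) (w : Phase → H) (p : Phase) : H :=
  (1 / (2 * η)) • (sa η w (sh (η * I) p) - sa η w (sh ((-η : ℝ) * I) p))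

lemma hasDerivAt_sa {w : Phase → H} (h : BM w) {η : ℝ} (hη : 0 < η) (p : Phase) (y : ℝ) :
    HasDerivAt (fun y : ℝ => sa η (sa η w) (sh (y * I) p)) (sd η w (sh (y * I) p)) y := by
  simp only [sa_sh (h.sa hη)]
  have c := continuous_sa h η p
  have := (((c.integral_hasStrictDerivAt 0 (y + η)).hasDerivAt.comp_add_const y η).sub
    ((c.integral_hasStrictDerivAt 0 (y + -η)).hasDerivAt.comp_add_const y (-η))).const_smul
    (1 / (2 * η))
  refine this.congr_deriv ?_
  simp only [sd, sh_sh]; congr 4 <;> push_cast <;> ring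

lemma norm_sd_le {w : Phase → H} {η : ℝ} (hη : 0 < η) (h : ∀ p, ‖w p‖ ≤ 1) (p : Phase) :
    ‖sd η w p‖ ≤ 1 / η := by
  rw [sd, norm_smul, Real.norm_of_nonneg (by positivity)]
  have := (norm_sub_le _ _).trans (add_le_add (norm_sa_le hη h (sh (η * I) p))
    (norm_sa_le hη h (sh ((-η : ℝ) * I) p)))
  calc _ ≤ 1 / (2 * η) * (1 + 1) := by gcongr
    _ = _ := by field_simp; ring

lemma measurable_sd {w : Phase → H} (h : Measurable w) {η : ℝ} (hη : 0 < η) :
    Measurable (sd η w) :=
  (((measurable_sa h hη).comp (mp_sh _).measurable).sub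
    ((measurable_sa h hη).comp (mp_sh _).measurable)).const_smul _

lemma integral_avg_le {μ : Measure Phase} [IsFiniteMeasure μ] {F : ℝ → Phase → H}
    (h : BM fun q : ℝ × Phase => F q.1 q.2) {η ε : ℝ} (hη : 0 < η)
    (hb : ∀ s, |s| ≤ η → ∫ p, ‖F s p‖ ∂μ ≤ ε) :
    ∫ p, ‖(1 / (2 * η)) • ∫ s in (-η)..η, F s p‖ ∂μ ≤ ε := by
  have i := (h.integrable ((volume.restrict (Ioc (-η) η)).prod μ)).norm
  simp only [intervalIntegral.integral_of_le (neg_le_self hη.le), norm_smul, integral_const_mul]
  rw [Real.norm_of_nonneg (by positivity)]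
  have h1 : ∫ p, ‖∫ s in Ioc (-η) η, F s p‖ ∂μ ≤ ∫ s in Ioc (-η) η, ε := by
    refine (integral_mono_of_nonneg (Eventually.of_forall fun _ => norm_nonneg _)
      i.integral_prod_right (Eventually.of_forall fun p => norm_integral_le_integral_norm _)).trans
      ?_
    rw [← integral_integral_swap i]
    exact setIntegral_mono_on i.integral_prod_left (integrableOn_const measure_Ioc_lt_top.ne)
      measurableSet_Ioc fun s hs => hb s (abs_le.2 ⟨hs.1.le, hs.2⟩)
  rw [setIntegral_const, Real.volume_real_Ioc_of_le (neg_le_self hη.le), smul_eq_mul] at h1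
  calc _ ≤ 1 / (2 * η) * ((η - -η) * ε) := by gcongr
    _ = _ := by field_simp; ring

lemma avg_sub {F : ℝ → H} (h : BM F) {η : ℝ} (hη : 0 < η) (c : H) :
    (1 / (2 * η)) • (∫ s in (-η)..η, F s) - c = (1 / (2 * η)) • ∫ s in (-η)..η, (F s - c) := by
  rw [intervalIntegral.integral_sub (h.intervalIntegrable _ _) intervalIntegrable_const,
    intervalIntegral.integral_const, smul_sub, smul_smul]
  congr 1
  rw [show 1 / (2 * η) * (η - -η) = 1 by field_simp; ring, one_smul]

lemma integral_sa_sub {μ : Measure Phase} [IsFiniteMeasure μ] {w : Phase → H} (h : BM w)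
    {η ε : ℝ} (hη : 0 < η) (hb : ∀ s : ℝ, |s| ≤ 2 * η → ∫ p, ‖w (sh (s * I) p) - w p‖ ∂μ ≤ ε) :
    ∫ p, ‖sa η (sa η w) p - w p‖ ∂μ ≤ ε ∧ ∫ p, ‖sd η w p‖ ∂μ ≤ ε / η := by
  have h1 : ∀ y : ℝ, |y| ≤ η → ∫ p, ‖sa η w (sh (y * I) p) - w p‖ ∂μ ≤ ε := fun y hy => by
    simp only [sa, fun p => avg_sub (h.line p) hη]
    refine integral_avg_le (F := fun s p => w (sh (s * I) (sh (y * I) p)) - w p)
      ((h.comp (measurable_sh.comp (measurable_fst.prodMk
        ((mp_sh _).measurable.comp measurable_snd)))).sub (h.comp measurable_snd)) hη fun s hs => ?_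
    have := hb (s + y) ((abs_add_le _ _).trans (by linarith))
    simpa only [sh_sh, ofReal_add, add_mul] using this
  have b := fun y : ℝ => ((h.sa hη).comp (mp_sh (y * I)).measurable).sub h
  constructor
  · rw [show sa η (sa η w) = fun p => (1 / (2 * η)) • ∫ s in (-η)..η, sa η w (sh (s * I) p) from rfl]
    simp only [fun p => avg_sub ((h.sa hη).line p) hη]
    exact integral_avg_le (F := fun s p => sa η w (sh (s * I) p) - w p)
      (((h.sa hη).comp measurable_sh).sub (h.comp measurable_snd)) hη h1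
  · have i1 := ((b η).integrable μ).norm
    have i2 := ((b (-η)).integrable μ).norm
    refine (integral_mono_of_nonneg (Eventually.of_forall fun _ => norm_nonneg _)
      ((i1.add i2).const_mul (1 / (2 * η))) (Eventually.of_forall fun p => ?_)).trans ?_
    · simp only [sd, norm_smul, Real.norm_of_nonneg (show 0 ≤ 1 / (2 * η) by positivity),
        Pi.add_apply]
      gcongr
      exact norm_sub_le_norm_sub_add_norm_sub _ _ _ |>.trans (by rw [norm_sub_rev (w p)])
    · rw [integral_const_mul, integral_add' i1 i2]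
      have a1 := h1 η (abs_of_pos hη).le
      have a2 := h1 (-η) (by rw [abs_neg, abs_of_pos hη])
      calc _ ≤ 1 / (2 * η) * (ε + ε) := by gcongr
        _ = _ := by field_simp; ring

lemma tendsto_sh {V : Fin 3 → ℂ} {w : Phase → H} (h : BM w) :
    Tendsto (fun s : ℝ => ∫ p, ‖w (sh (s * I) p) - w p‖ ∂mq V) (𝓝 0) (𝓝 0) := by
  set B : Set Phase := {p | p.1 ∈ Metric.closedBall (V 0) (dm V + 1)} with hB
  have mB : MeasurableSet B := measurable_fst measurableSet_closedBall
  have fB : IsFiniteMeasure (nu.restrict B) :=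
    isFiniteMeasure_restrict.2 (by rw [hB, nu_fst]; exact measure_closedBall_lt_top.ne)
  have m : MemLp (B.indicator w) 1 nu :=
    memLp_one_iff_integrable.2 ((integrable_indicator_iff mB).2 (h.integrable _))
  have c : Continuous fun s : ℝ => (⟨sh (s * I), continuous_sh.comp (Continuous.prodMk_right _)⟩ :
      C(Phase, Phase)) := ContinuousMap.continuous_of_continuous_uncurry _ (by
        change Continuous fun q : ℝ × Phase => sh (q.1 * I) q.2
        unfold sh; fun_prop)
  have t := (Continuous.compMeasurePreservingLp (continuous_const (y := m.toLp _)) c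
    (fun s => mp_sh _) (by simp)).sub (continuous_const (y := m.toLp _)) |>.norm.tendsto 0
  have e : ∀ s : ℝ, ‖Lp.compMeasurePreserving (sh (s * I)) (mp_sh _) (m.toLp _) - m.toLp _‖ =
      ∫ p, ‖B.indicator w (sh (s * I) p) - B.indicator w p‖ ∂nu := fun s => by
    rw [L1.norm_eq_integral_norm]
    refine integral_congr_ae ?_
    filter_upwards [Lp.coeFn_sub (Lp.compMeasurePreserving (sh (s * I)) (mp_sh _) (m.toLp _))
      (m.toLp _), Lp.coeFn_compMeasurePreserving (m.toLp _) (mp_sh (s * I)), m.coeFn_toLp,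
      (mp_sh (s * I)).quasiMeasurePreserving.ae m.coeFn_toLp] with p a b c d
    rw [a, Pi.sub_apply, b, c, Function.comp, d]
  simp only [ContinuousMap.coe_mk, Pi.sub_apply, e] at t
  simp only [ofReal_zero, zero_mul, sh_zero, sub_self, norm_zero, integral_zero] at t
  refine squeeze_zero' (Eventually.of_forall fun _ => integral_nonneg fun _ => norm_nonneg _) ?_ t
  filter_upwards [Metric.closedBall_mem_nhds (0 : ℝ) one_pos] with s hs
  have i := memLp_one_iff_integrable.1 m
  rw [mq, Measure.restrict_prod_eq_prod_univ]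
  refine le_trans (le_of_eq (setIntegral_congr_fun
    (isOpen_interior.measurableSet.prod MeasurableSet.univ) fun p hp => ?_))
    (setIntegral_le_integral (((mp_sh _).integrable_comp_of_integrable i).sub i).norm
      (Eventually.of_forall fun _ => norm_nonneg _))
  have h1 := norm_sub_le_dm (interior_subset hp.1) (mem_tri_vertex (V := V) 0)
  have h2 : p ∈ B := by simp only [hB, mem_ofPred_eq, mem_closedBall_iff_norm]; linarith
  have h3 : sh (s * I) p ∈ B := by
    simp only [hB, mem_ofPred_eq, mem_closedBall_iff_norm, sh]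
    rw [add_sub_right_comm]
    refine (norm_add_le _ _).trans (add_le_add h1 ?_)
    simpa [norm_dir] using hs
  simp [indicator_of_mem h2, indicator_of_mem h3]

end Vale.Agent.P099
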