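import Vale.Agent.P099.Modes
import Vale.Agent.P099.Ret
import Vale.Agent.P099.Alg

namespace Vale.Agent.P099

open MeasureTheory Set Complex Filter Topology
open scoped ComplexConjugate InnerProductSpace NNReal

set_option linter.unusedSectionVars false
set_option linter.unusedTactic false

variable {H : Type*} [NormedAddCommGroup H] [InnerProductSpace ℂ H] [CompleteSpace H]
  [MeasurableSpace H] [BorelSpace H] [SecondCountableTopology H]

/-- Regular approximants on the phase space of the plane. -/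
structure Appx (V : Fin 3 → ℂ) (G : UGroup H) (f A : Phase → H) (K : ℝ≥0) (R : ℝ) : Prop where
  bm : BM f
  bmA : BM A
  lip : ∀ θ, LipschitzWith K fun x => f (x, θ)
  supp : ∀ p : Phase, R < ‖p.1‖ → f p = 0
  diff : ∀ θ, ∀ᵐ x, DifferentiableAt ℝ (fun x => f (x, θ)) x
  gen : ∀ p, HasDerivAt (fun τ => G.U τ (f p)) (A p) 0
  genb : ∀ p τ, ‖G.U τ (f p) - f p‖ ≤ K * |τ|
  out : ∀ j x, lam V j x < 0 → ∀ᵐ θ ∂hr, f (x, mirror V j θ) = f (x, θ)

/-- Directional derivative in the position variable. -/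
noncomputable def gd (a : ℂ) (f : Phase → H) (p : Phase) : H :=
  limUnder atTop fun n => dq a n (fun x => f (x, p.2)) p.1

/-- The operator `∂₁ - i ∂₂`. -/
noncomputable def dpf (f : Phase → H) (p : Phase) : H := gd 1 f p - I • gd I f p

/-- The operator `∂₁ + i ∂₂`. -/
noncomputable def dmf (f : Phase → H) (p : Phase) : H := gd 1 f p + I • gd I f p

lemma gd_eq {f : Phase → H} {L : ℂ →L[ℝ] H} {x : ℂ} {θ : UnitAddCircle}
    (h : HasFDerivAt (fun x => f (x, θ)) L x) (a : ℂ) : gd a f (x, θ) = L a :=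
  (tendsto_dq h a).limUnder_eq

lemma measurable_dq {f : Phase → H} (hf : Measurable f) (a : ℂ) (n : ℕ) :
    Measurable fun p : Phase => dq a n (fun x => f (x, p.2)) p.1 := by
  unfold dq; fun_prop

lemma ae_nu_of_slices {P : Phase → Prop} (hP : MeasurableSet {p | P p})
    (h : ∀ θ, ∀ᵐ x, P (x, θ)) : ∀ᵐ x, ∀ᵐ θ ∂hr, P (x, θ) :=
  (Measure.ae_ae_comm (p := fun x θ => P (x, θ)) hP).2 (Eventually.of_forall h)

lemma map_re_im (L : ℂ →L[ℝ] H) (a : ℂ) : (a.re : ℂ) • L 1 + (a.im : ℂ) • L I = L a := by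
  rw [Complex.coe_smul, Complex.coe_smul, ← map_smul, ← map_smul, ← map_add]
  congr 1; simp

lemma SD.map {F F₁ F₂ : ℂ → H} (h : SD F F₁ F₂) (U : H →ₗᵢ[ℂ] H) :
    SD (fun x => U (F x)) (fun x => U (F₁ x)) fun x => U (F₂ x) := fun a => by
  filter_upwards [h a] with x hx
  convert (U.continuous.tendsto _).comp hx using 2
  · simp [dq]
  · rw [map_add, map_smul, map_smul]

lemma sd_id : SD (fun x : ℂ => x) (fun _ => 1) fun _ => I := fun a =>
  Eventually.of_forall fun x => by
    have : ∀ n : ℕ, (n : ℂ) + 1 ≠ 0 := fun n => by exact_mod_cast n.succ_ne_zero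
    simp [dq, mul_div_cancel₀ _ (this _)]

lemma sd_conj : SD (fun x : ℂ => conj x) (fun _ => 1) fun _ => -I := fun a =>
  Eventually.of_forall fun x => by
    have : ∀ n : ℕ, (n : ℂ) + 1 ≠ 0 := fun n => by exact_mod_cast n.succ_ne_zero
    have e : (a.re : ℂ) • (1 : ℂ) + (a.im : ℂ) • (-I) = conj a := by
      apply Complex.ext <;> simp
    rw [e]
    simp [dq, mul_div_cancel₀ _ (this _)]

lemma integrable_inner {α : Type*} [MeasurableSpace α] {φ ψ : α → H} (h : BM φ) (h' : BM ψ)
    (μ : Measure α) [IsFiniteMeasure μ] : Integrable (fun x => ⟪φ x, ψ x⟫_ℂ) μ := by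
  obtain ⟨C, hC⟩ := h.bdd
  obtain ⟨D, hD⟩ := h'.bdd
  refine (integrable_const (C * D)).mono' (h.meas.inner h'.meas).aestronglyMeasurable
    (Eventually.of_forall fun x => (norm_inner_le_norm _ _).trans ?_)
  exact mul_le_mul (hC x) (hD x) (norm_nonneg _) ((norm_nonneg _).trans (hC x))

lemma BM.isometry {α : Type*} [MeasurableSpace α] {φ : α → H} (h : BM φ) (U : H →ₗᵢ[ℂ] H) :
    BM fun p => U (φ p) :=
  ⟨U.continuous.measurable.comp h.meas, by simpa using h.bdd⟩

lemma UGroup.inner_left (G : UGroup H) (τ : ℝ) (v w : H) : ⟪v, G.U τ w⟫_ℂ = ⟪G.U (-τ) v, w⟫_ℂ := by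
  rw [← (G.U (-τ)).inner_map_map, G.add, neg_add_cancel, G.zero]

lemma ae_out {V : Fin 3 → ℂ} (hV : area V ≠ 0) :
    ∀ᵐ x, x ∉ interior (tri V) → ∃ j, ∀ᶠ y in 𝓝 x, lam V j y < 0 := by
  filter_upwards [measure_eq_zero_iff_ae_notMem.1 (convex_tri (V := V).addHaar_frontier volume)]
    with x h1 h2
  have h3 : x ∉ tri V := fun h => h1 ⟨subset_closure h, h2⟩
  rw [mem_tri hV] at h3
  push Not at h3
  exact h3.imp fun j hj => (continuous_lam j).continuousAt.eventually (gt_mem_nhds hj)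

namespace Appx

variable {V : Fin 3 → ℂ} {G : UGroup H} {f A : Phase → H} {K : ℝ≥0} {R : ℝ}

lemma bm_gd (h : Appx V G f A K R) (a : ℂ) : BM (gd a f) := by
  refine ⟨(StronglyMeasurable.limUnder fun n =>
    (measurable_dq h.bm.meas a n).stronglyMeasurable).measurable,
    max (K * ‖a‖) ‖Classical.choice (inferInstance : Nonempty H)‖, fun p => ?_⟩
  by_cases hp : ∃ c, Tendsto (fun n => dq a n (fun x => f (x, p.2)) p.1) atTop (𝓝 c)
  · exact le_max_of_le_left (le_of_tendsto' (tendsto_nhds_limUnder hp).norm fun n =>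
      norm_dq_le (h.lip _) a n _)
  · rw [gd, limUnder_of_not_tendsto hp]; exact le_max_right _ _

lemma bm_dp (h : Appx V G f A K R) : BM (dpf f) := (h.bm_gd 1).sub ((h.bm_gd I).const_smul I)

lemma bm_dm (h : Appx V G f A K R) : BM (dmf f) := (h.bm_gd 1).add ((h.bm_gd I).const_smul I)

lemma md_dp (h : Appx V G f A K R) (k : ℤ) (x : ℂ) :
    md (dpf f) k x = md (gd 1 f) k x - I • md (gd I f) k x := by
  rw [← md_smul, ← md_sub (h.bm_gd 1) ((h.bm_gd I).const_smul I)]; rfl

lemma md_dm (h : Appx V G f A K R) (k : ℤ) (x : ℂ) :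
    md (dmf f) k x = md (gd 1 f) k x + I • md (gd I f) k x := by
  rw [← md_smul, ← md_add (h.bm_gd 1) ((h.bm_gd I).const_smul I)]; rfl

lemma sd (h : Appx V G f A K R) (k : ℤ) : SD (md f k) (md (gd 1 f) k) (md (gd I f) k) := by
  intro a
  have b := ((h.bm_gd 1).const_smul a.re).add ((h.bm_gd I).const_smul a.im)
  have h1 := ae_nu_of_slices (measurableSet_tendsto_fun (l := atTop)
    (measurable_dq h.bm.meas a) b.meas) fun θ => (h.diff θ).mono fun x hx => by
      simpa only [gd_eq hx.hasFDerivAt, map_re_im] using tendsto_dq hx.hasFDerivAt a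
  filter_upwards [h1] with x hx
  rw [← md_smul, ← md_smul, ← md_add ((h.bm_gd 1).const_smul _) ((h.bm_gd I).const_smul _)]
  have e : ∀ n, dq a n (md f k) x =
      ∫ θ, fourier (-k) θ • dq a n (fun x => f (x, θ)) x ∂hr := fun n => by
    have b1 := h.bm.comp (g := fun p : Phase => (p.1 + a / (n + 1), p.2)) (by fun_prop)
    have := md_sub b1 h.bm k x
    exact (congrArg _ this.symm).trans (md_smul _ _ k x).symm
  simp only [e]
  refine tendsto_integral_of_dominated_convergence (fun _ => K * ‖a‖) (fun n => ?_)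
    (integrable_const _) (fun n => Eventually.of_forall fun θ => ?_)
    (hx.mono fun θ hθ => hθ.const_smul _)
  · exact ((map_continuous (fourier (-k))).measurable.smul ((measurable_dq h.bm.meas a n).comp
      (measurable_prodMk_left (x := x)))).aestronglyMeasurable
  · rw [norm_smul, norm_fourier, one_mul]; exact norm_dq_le (h.lip _) a n _

lemma lip_md (h : Appx V G f A K R) (k : ℤ) : LipschitzWith K (md f k) := by
  refine LipschitzWith.of_dist_le_mul fun x y => ?_
  have b1 := h.bm.comp (g := fun p : Phase => (x, p.2)) (by fun_prop)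
  have := md_sub b1 h.bm k y
  rw [dist_eq_norm, dist_eq_norm]
  refine (congrArg _ this).symm.trans_le (norm_coeff_le (fun θ => ?_) k)
  exact (h.lip θ).norm_sub_le x y

lemma supp_md (h : Appx V G f A K R) (k : ℤ) (x : ℂ) (hx : R < ‖x‖) : md f k x = 0 := by
  simp [md, fourierCoeff, fun θ => h.supp (x, θ) hx]

lemma id3 (hV : area V ≠ 0) (h : Appx V G f A K R) (m : ℤ) :
    ‖LL V (dpf f) m‖ ^ 2 - ‖LL V (dmf f) m‖ ^ 2 =
      ‖LL V (dpf f) (-m)‖ ^ 2 - ‖LL V (dmf f) (-m)‖ ^ 2 := by
  have e : ∀ m, ((‖LL V (dpf f) m‖ ^ 2 - ‖LL V (dmf f) m‖ ^ 2 : ℝ) : ℂ) = -2 * I *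
      ∫ x in interior (tri V), jac (md (gd 1 f) m) (md (gd I f) m) (md (gd 1 f) m)
        (md (gd I f) m) x := by
    intro m
    rw [norm_sq_LL h.bm_dp, norm_sq_LL h.bm_dm, ← integral_sub ((h.bm_dp.md m).integrable_sq _)
      ((h.bm_dm.md m).integrable_sq _), ← integral_complex_ofReal, ← integral_const_mul]
    congr 1; ext x
    rw [h.md_dp, h.md_dm, jac]
    push_cast
    have := fun v : H => (inner_self_eq_norm_sq_to_K (𝕜 := ℂ) v).symm
    simp only [coe_algebraMap] at this
    rw [this, this]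
    simp only [inner_sub_left, inner_sub_right, inner_add_left, inner_add_right, inner_smul_left,
      inner_smul_right, conj_I]
    ring
  have := inside (S := interior (tri V)) isOpen_interior.measurableSet (h.lip_md m) (h.lip_md m)
    (h.lip_md (-m)) (h.lip_md (-m)) (h.supp_md m) (h.supp_md (-m)) (h.sd m) (h.sd m) (h.sd (-m))
    (h.sd (-m)) ((ae_out hV).mono fun x hx hx' => by
      obtain ⟨j, hj⟩ := hx hx'
      refine ⟨fourier m (ang V j), fourier m (ang V j), 0, ?_,
        hj.mono fun y hy => md_mirror (h.out j y hy) m,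
        hj.mono fun y hy => by rw [add_zero]; exact md_mirror (h.out j y hy) m⟩
      rw [conj_mul', norm_fourier]; simp)
  exact_mod_cast (e m).trans ((congrArg _ this).trans (e (-m)).symm)

lemma id4_aux (hV : area V ≠ 0) (h : Appx V G f A K R) (k : ℤ) (τ : ℝ) :
    ⟪LL V (dmf f) (k + 1), LL V (fun p => G.U τ (f p)) k⟫_ℂ +
    ⟪LL V (fun p => G.U (-τ) (f p)) (k + 1), LL V (dpf f) k⟫_ℂ +
    (⟪LL V (dpf f) (-k - 1), LL V (fun p => G.U τ (f p)) (-k)⟫_ℂ +
    ⟪LL V (fun p => G.U (-τ) (f p)) (-k - 1), LL V (dmf f) (-k)⟫_ℂ) = 0 := by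
  obtain ⟨K₁, hK₁⟩ := lip_ret hV
  obtain ⟨C, hC⟩ := h.bm.bdd
  lift C to ℝ≥0 using (norm_nonneg _).trans (hC 0)
  have bd : ∀ m x, ‖md f m x‖ ≤ C := fun m x => norm_coeff_le (fun θ => hC (x, θ)) m
  have hK₂ : LipschitzWith K₁ fun x => conj (ret V x) := by
    have := Complex.conjLIE.lipschitz.comp hK₁
    rw [one_mul] at this; exact this
  have l : ∀ m n, LipschitzWith (max (2 * C * K) K₁) fun x => ⟪md f m x, G.U τ (md f n x)⟫_ℂ :=
    fun m n => (lipschitz_inner (h.lip_md m)
      (one_mul K ▸ (G.U τ).lipschitz.comp (h.lip_md n)) (bd m)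
      (by simpa using bd n)).weaken (le_max_left _ _)
  have s := fun m n => (h.sd m).inner (h.lip_md m).continuous ((h.sd n).map (G.U τ))
  have s1 := SD.of_differentiable (hK₁.ae_differentiableAt (μ := volume))
  have s2 := SD.of_differentiable (hK₂.ae_differentiableAt (μ := volume))
  have key := inside (S := interior (tri V)) (R := R) isOpen_interior.measurableSet (l (k + 1) k)
    (hK₁.weaken (le_max_right _ _)) (l (-k - 1) (-k)) (hK₂.weaken (le_max_right _ _))
    (fun x hx => by simp [h.supp_md _ x hx]) (fun x hx => by simp [h.supp_md _ x hx])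
    (s _ _) s1 (s _ _) s2 ((ae_out hV).mono fun x hx hx' => by
      obtain ⟨j, hj⟩ := hx hx'
      refine ⟨conj (dir (ang V j)), conj (dir (ang V j)),
        conj (V (j + 1)) - conj (dir (ang V j)) * V (j + 1), by simp [dir_mul_conj],
        hj.mono fun y hy => ?_, hj.mono fun y hy => ?_⟩
      · rw [show -k - 1 = -(k + 1) by ring, md_mirror (h.out j y hy), md_mirror (h.out j y hy),
          map_smul, inner_smul_left, inner_smul_right, fourier_add, ← dir_eq_fourier, map_mul,
          smul_eq_mul]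
        have : conj (fourier k (ang V j)) * fourier k (ang V j) = 1 := by
          rw [conj_mul', norm_fourier]; simp
        linear_combination conj (dir (ang V j)) * ⟪md f (k + 1) y, G.U τ (md f k y)⟫_ℂ * this
      · have := rf_segment (ret_segment hV hy)
        simp only [rf, map_sub, smul_eq_mul] at this ⊢
        linear_combination conj (dir (ang V j)) * this -
          (conj (ret V y) - conj (V (j + 1))) * conj_mul_dir (ang V j))
  have b := fun τ => h.bm.isometry (G.U τ)
  have i := fun {φ ψ : Phase → H} (h1 : BM φ) (h2 : BM ψ) m n =>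
    integrable_inner (h1.md m) (h2.md n) (vq V)
  have loc : ∀ᵐ x, x ∈ interior (tri V) → (fderiv ℝ (ret V) x 1 = 1 ∧ fderiv ℝ (ret V) x I = I) ∧
      fderiv ℝ (fun x => conj (ret V x)) x 1 = 1 ∧ fderiv ℝ (fun x => conj (ret V x)) x I = -I := by
    filter_upwards [sd_id.local s1, sd_conj.local s2] with x h1 h2 hx
    have h3 : ∀ᶠ y in 𝓝 x, ret V y = y := by
      filter_upwards [isOpen_interior.mem_nhds hx] with y hy using ret_of_mem hV (interior_subset hy)
    exact ⟨by simpa using h1 1 0 (by simpa using h3),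
      by simpa using h2 1 0 (h3.mono fun y hy => by simp [hy])⟩
  rw [inner_LL h.bm_dm (b _), inner_LL (b _) h.bm_dp, inner_LL h.bm_dp (b _),
    inner_LL (b _) h.bm_dm, ← integral_add (i h.bm_dm (b _) _ _) (i (b _) h.bm_dp _ _),
    ← integral_add (i h.bm_dp (b _) _ _) (i (b _) h.bm_dm _ _)]
  have e1 := setIntegral_congr_ae (μ := volume) (isOpen_interior (s := tri V)).measurableSet
    (g := fun x => I * conj (⟪md (dmf f) (k + 1) x, md (fun p => G.U τ (f p)) k x⟫_ℂ +
      ⟪md (fun p => G.U (-τ) (f p)) (k + 1) x, md (dpf f) k x⟫_ℂ)) (loc.mono fun x hx hx' => by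
      change jac (fun x => ⟪md (gd 1 f) (k + 1) x, G.U τ (md f k x)⟫_ℂ +
        ⟪md f (k + 1) x, G.U τ (md (gd 1 f) k x)⟫_ℂ) (fun x => ⟪md (gd I f) (k + 1) x,
        G.U τ (md f k x)⟫_ℂ + ⟪md f (k + 1) x, G.U τ (md (gd I f) k x)⟫_ℂ)
        (fun x => fderiv ℝ (ret V) x 1) (fun x => fderiv ℝ (ret V) x I) x = _
      simp only [jac, (hx hx').1.1, (hx hx').1.2, md_isometry, h.md_dp, h.md_dm, G.inner_left,
        inner_add_left, inner_sub_right, inner_smul_left, inner_smul_right, RCLike.inner_apply,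
        map_add, map_sub, map_mul, conj_I, map_neg, map_smul]
      linear_combination -(conj ⟪G.U (-τ) (md (gd I f) (k + 1) x), md f k x⟫_ℂ +
        conj ⟪G.U (-τ) (md f (k + 1) x), md (gd I f) k x⟫_ℂ) * I_mul_I)
  have e2 := setIntegral_congr_ae (μ := volume) (isOpen_interior (s := tri V)).measurableSet
    (g := fun x => -I * conj (⟪md (dpf f) (-k - 1) x, md (fun p => G.U τ (f p)) (-k) x⟫_ℂ +
      ⟪md (fun p => G.U (-τ) (f p)) (-k - 1) x, md (dmf f) (-k) x⟫_ℂ)) (loc.mono fun x hx hx' => by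
      change jac (fun x => ⟪md (gd 1 f) (-k - 1) x, G.U τ (md f (-k) x)⟫_ℂ +
        ⟪md f (-k - 1) x, G.U τ (md (gd 1 f) (-k) x)⟫_ℂ) (fun x => ⟪md (gd I f) (-k - 1) x,
        G.U τ (md f (-k) x)⟫_ℂ + ⟪md f (-k - 1) x, G.U τ (md (gd I f) (-k) x)⟫_ℂ)
        (fun x => fderiv ℝ (fun x => conj (ret V x)) x 1)
        (fun x => fderiv ℝ (fun x => conj (ret V x)) x I) x = _
      simp only [jac, (hx hx').2.1, (hx hx').2.2, md_isometry, h.md_dp, h.md_dm, G.inner_left,
        inner_sub_left, inner_add_right, inner_smul_left, inner_smul_right, RCLike.inner_apply,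
        map_add, map_sub, map_mul, conj_I, map_neg, map_smul]
      linear_combination -(conj ⟪G.U (-τ) (md (gd I f) (-k - 1) x), md f (-k) x⟫_ℂ +
        conj ⟪G.U (-τ) (md f (-k - 1) x), md (gd I f) (-k) x⟫_ℂ) * I_mul_I)
  rw [e1, e2, integral_const_mul, integral_const_mul, integral_conj, integral_conj] at key
  rw [← map_eq_zero (starRingEnd ℂ), map_add]
  have fin : ∀ X Y : ℂ, I * X = -I * Y → X + Y = 0 := fun X Y h => by
    linear_combination -I * h + (X + Y) * I_mul_I
  exact fin _ _ key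

end Appx

end Vale.Agent.P099
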