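import Vale.Agent.P099.Virial

namespace Vale.Agent.P099

open MeasureTheory Set Complex Filter Topology
open scoped ComplexConjugate InnerProductSpace NNReal

set_option linter.unusedSectionVars false
set_option linter.unnecessarySeqFocus false

variable {H : Type*} [NormedAddCommGroup H] [InnerProductSpace ℂ H] [CompleteSpace H]
  [MeasurableSpace H] [BorelSpace H] [SecondCountableTopology H]

lemma LL_smul {V : Fin 3 → ℂ} {φ : Phase → H} (h : BM φ) (c : ℂ) (k : ℤ) :
    LL V (fun p => c • φ p) k = c • LL V φ k := by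
  simpa using LL_lin (V := V) h h (h.const_smul c) (c := c) (d := 0) (k := k) (l := k) (m := k)
    fun x => by simp [md_smul]

lemma ae_mq {V : Fin 3 → ℂ} {P : Phase → Prop} (hP : MeasurableSet {p | P p})
    (h : ∀ θ, ∀ᵐ x, x ∈ interior (tri V) → P (x, θ)) : ∀ᵐ p ∂mq V, P p := by
  rw [Measure.ae_prod_iff_ae_ae hP, Measure.ae_ae_comm (p := fun x θ => P (x, θ)) hP]
  exact Eventually.of_forall fun θ => (ae_restrict_iff' isOpen_interior.measurableSet).2 (h θ)

namespace Appx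

variable {V : Fin 3 → ℂ} {G : UGroup H} {f A : Phase → H} {K : ℝ≥0} {R : ℝ}

lemma tendsto_gen (h : Appx V G f A K R) {s : ℝ} (hs : |s| = 1) (m : ℤ) :
    Tendsto (fun n : ℕ => ((n : ℂ) + 1) • (LL V (fun p => G.U (s / (n + 1)) (f p)) m -
      LL V (fun p => G.U 0 (f p)) m)) atTop (𝓝 ((s : ℂ) • LL V A m)) := by
  have b := fun τ => h.bm.isometry (G.U τ)
  have b1 := fun n : ℕ => ((b (s / (n + 1))).sub (b 0)).const_smul ((n : ℂ) + 1)
  simp only [← LL_sub (b _) (b _), ← LL_smul ((b _).sub (b _)), ← LL_smul h.bmA]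
  refine tendsto_LL b1 (h.bmA.const_smul _) ?_ m
  obtain ⟨C, hC⟩ := h.bmA.bdd
  have := tendsto_integral_of_dominated_convergence (μ := mq V) (f := fun _ => (0 : ℝ))
    (F := fun n p => ‖((n : ℂ) + 1) • (G.U (s / (n + 1)) (f p) - G.U 0 (f p)) - (s : ℂ) • A p‖ ^ 2)
    (fun _ => (K + C) ^ 2)
    (fun n => (((b1 n).sub (h.bmA.const_smul _)).integrable_sq _).aestronglyMeasurable)
    (integrable_const _) (fun n => Eventually.of_forall fun p => ?_)
    (Eventually.of_forall fun p => ?_)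
  · simpa using this
  · rw [Real.norm_of_nonneg (sq_nonneg _)]
    gcongr
    refine (norm_sub_le _ _).trans (add_le_add ?_ ?_)
    · have := h.genb p (s / (n + 1))
      rw [abs_div, hs, abs_of_pos (by positivity)] at this
      rw [norm_smul, norm_succ, G.zero]
      calc _ ≤ (n + 1 : ℝ) * (K * (1 / (n + 1))) := by gcongr
        _ = _ := by field_simp
    · rw [norm_smul, norm_real, Real.norm_eq_abs, hs, one_mul]; exact hC p
  · have h1 : Tendsto (fun n : ℕ => ‖(n : ℝ) + 1‖) atTop atTop :=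
      tendsto_norm_atTop_atTop.comp (tendsto_atTop_add_const_right _ _ tendsto_natCast_atTop_atTop)
    have h2 := (h.gen p).hasFDerivAt.lim s h1
    have h3 : Tendsto (fun n : ℕ => ((n : ℂ) + 1) • (G.U (s / (n + 1)) (f p) - G.U 0 (f p))) atTop
        (𝓝 ((s : ℂ) • A p)) := by
      convert h2 using 3
      · rw [← Complex.coe_smul, zero_add, smul_eq_mul, inv_mul_eq_div]; push_cast; rfl
      · simp
    simpa using (tendsto_iff_norm_sub_tendsto_zero.1 h3).pow 2

lemma id4 (hV : area V ≠ 0) (h : Appx V G f A K R) (k : ℤ) :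
    ⟪LL V (dmf f) (k + 1), LL V A k⟫_ℂ + ⟪LL V (dpf f) (-k - 1), LL V A (-k)⟫_ℂ =
    ⟪LL V A (k + 1), LL V (dpf f) k⟫_ℂ + ⟪LL V A (-k - 1), LL V (dmf f) (-k)⟫_ℂ := by
  have t1 := fun m => h.tendsto_gen (s := 1) (by simp) m
  have t2 := fun m => h.tendsto_gen (s := -1) (by simp) m
  have t := (((tendsto_const_nhds (x := LL V (dmf f) (k + 1))).inner (𝕜 := ℂ) (t1 k)).add
    ((t2 (k + 1)).inner (𝕜 := ℂ) (tendsto_const_nhds (x := LL V (dpf f) k)))).add
    (((tendsto_const_nhds (x := LL V (dpf f) (-k - 1))).inner (𝕜 := ℂ) (t1 (-k))).add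
    ((t2 (-k - 1)).inner (𝕜 := ℂ) (tendsto_const_nhds (x := LL V (dmf f) (-k)))))
  have e := tendsto_nhds_unique t (tendsto_const_nhds (x := 0).congr fun n => by
    have e1 := h.id4_aux hV k (1 / (n + 1))
    have e2 := h.id4_aux hV k 0
    simp only [inner_smul_left, inner_smul_right, inner_sub_left, inner_sub_right, neg_div,
      map_add, map_natCast, map_one, neg_zero] at e1 e2 ⊢
    linear_combination ((n : ℂ) + 1) * (e2 - e1))
  simp only [ofReal_one, one_smul, ofReal_neg, neg_smul, inner_neg_left] at e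
  linear_combination e

theorem main (hV : area V ≠ 0) (h : Appx V G f A K R) {γf υf : Phase → ℝ} (m1 : Measurable γf)
    (m2 : Measurable υf) (i1 : Integrable (fun p => γf p ^ 2) (mq V))
    (i2 : Integrable (fun p => υf p ^ 2) (mq V)) {γ υ : ℝ} (hγ : 0 ≤ γ) (hυ : 0 ≤ υ)
    (b1 : ∫ p, γf p ^ 2 ∂mq V ≤ γ ^ 2) (b2 : ∫ p, υf p ^ 2 ∂mq V ≤ υ ^ 2)
    (hb : ∀ θ, ∀ᵐ x, x ∈ interior (tri V) → ∀ L : ℂ →L[ℝ] H, HasFDerivAt (fun x => f (x, θ)) L x →
      ‖L (dir θ) + A (x, θ)‖ ≤ γf (x, θ) ∧ ‖L (I * dir θ)‖ ≤ υf (x, θ)) (k : ℤ) :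
    2 * (‖LL V A k‖ ^ 2 + ‖LL V A (-k)‖ ^ 2) ≤ (‖LL V A (k - 1)‖ ^ 2 + ‖LL V A (-(k - 1))‖ ^ 2) +
      (‖LL V A (k + 1)‖ ^ 2 + ‖LL V A (-(k + 1))‖ ^ 2) + 16 * (γ * υ) +
      4 * γ * (‖LL V A k‖ + ‖LL V A (-k)‖) ∧
    ∀ (a : ℂ) (δ : ℝ), 0 < δ → ∫ x in interior (tri V) ∩ {x | x + a ∈ interior (tri V)},
      ‖md f k (x + a) - md f k x‖ ≤ ‖a‖ * (δ * (vq V).real univ +
        (‖LL V A k‖ ^ 2 + ‖LL V A (-k)‖ ^ 2 + 8 * (γ * υ)) / δ) := by
  have c1 := (bm_fourier 1).smul h.bm_dp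
  have c2 := (bm_fourier (-1)).smul h.bm_dm
  set gf : Phase → H := fun p => (1 / 2 : ℂ) • (fourier 1 p.2 • dpf f p +
    fourier (-1) p.2 • dmf f p) + A p with hgf
  set yf : Phase → H := fun p => fourier 1 p.2 • dpf f p - fourier (-1) p.2 • dmf f p with hyf
  have c3 : BM gf := ((c1.add c2).const_smul _).add h.bmA
  have c4 : BM yf := c1.sub c2
  have hpt : ∀ᵐ p ∂mq V, ‖gf p‖ ≤ γf p ∧ ‖yf p‖ ≤ 2 * υf p := by
    refine ae_mq ((measurableSet_le c3.meas.norm m1).inter
      (measurableSet_le c4.meas.norm (m2.const_mul 2))) fun θ =>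
      ((h.diff θ).and (hb θ)).mono fun x hx hx' => ?_
    have hL := hx.1.hasFDerivAt
    obtain ⟨a1, a2⟩ := hx.2 hx' _ hL
    generalize fderiv ℝ (fun x => f (x, θ)) x = L at *
    have e1 : gf (x, θ) = L (dir θ) + A (x, θ) := by
      simp only [hgf, dpf, dmf, gd_eq hL, fourier_neg, ← dir_eq_fourier, ← map_re_im L (dir θ)]
      congr 1
      rw [re_eq_add_conj, im_eq_sub_conj]
      match_scalars <;> field_simp <;> ring_nf <;> simp [sub_eq_add_neg]
    have e2 : yf (x, θ) = (-2 * I) • L (I * dir θ) := by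
      simp only [hyf, dpf, dmf, gd_eq hL, fourier_neg, ← dir_eq_fourier,
        ← map_re_im L (I * dir θ), mul_re, mul_im, I_re, I_im, zero_mul, one_mul, zero_sub,
        zero_add, ofReal_neg]
      rw [re_eq_add_conj, im_eq_sub_conj]
      match_scalars <;> field_simp <;> ring_nf
    rw [e1, e2, norm_smul]
    exact ⟨a1, by simpa using a2⟩
  have Hg : ∀ s : Finset ℤ, ∑ k ∈ s, ‖LL V gf k‖ ^ 2 ≤ γ ^ 2 := fun s =>
    (bessel_LL c3 s).trans ((integral_mono_ae (c3.integrable_sq _) i1 (hpt.mono fun p hp => by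
      simp only; gcongr; exact hp.1)).trans b1)
  have ey : ∀ k, LL V yf k = LL V (dpf f) (k - 1) - LL V (dmf f) (k + 1) := fun k => by
    rw [LL_lin h.bm_dp h.bm_dm c4 (c := 1) (d := -1) (k := k - 1) (l := k + 1) fun x => by
      rw [md_sub c1 c2, md_fourier, md_fourier]; simp [sub_eq_add_neg]]
    simp [sub_eq_add_neg]
  have Hy : ∀ s : Finset ℤ, ∑ k ∈ s, ‖LL V (dpf f) (k - 1) - LL V (dmf f) (k + 1)‖ ^ 2 ≤
      (2 * υ) ^ 2 := fun s => by
    simp only [← ey]
    refine (bessel_LL c4 s).trans ((integral_mono_ae (c4.integrable_sq _) (i2.const_mul 4)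
      (hpt.mono fun p hp => ?_)).trans ?_)
    · calc ‖yf p‖ ^ 2 ≤ (2 * υf p) ^ 2 := by gcongr; exact hp.2
        _ = _ := by ring
    · rw [integral_const_mul]; linarith
  have H1 : ∀ k, LL V (dpf f) (k - 1) + LL V (dmf f) (k + 1) =
      (2 : ℂ) • (-LL V A k + LL V gf k) := fun k => by
    have e1 := LL_lin (V := V) h.bm_dp h.bm_dm (c1.add c2) (c := 1) (d := 1) (k := k - 1)
      (l := k + 1) (m := k) fun x => by rw [md_add c1 c2, md_fourier, md_fourier]; simp
    have e2 := LL_lin (V := V) (c1.add c2) h.bmA c3 (c := 1 / 2) (d := 1) (k := k) (l := k)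
      (m := k) fun x => by rw [md_add ((c1.add c2).const_smul _) h.bmA, md_smul]; simp
    rw [e2, e1]; module
  have key := fun k => by
    letI : InnerProductSpace ℝ (Lp H 2 (vq V)) := InnerProductSpace.complexToReal
    exact virial_alg (LL V (dpf f)) (LL V (dmf f)) (fun k => -LL V A k) (LL V gf) hγ
      (show 0 ≤ 2 * υ by positivity) (fun k => (H1 k).trans (by
        rw [← Complex.coe_smul]; norm_num)) (h.id3 hV) (fun k => by
        have := congrArg re (h.id4 hV k)
        simp only [inner_neg_left, real_inner_eq_re_inner ℂ, RCLike.re_to_complex, neg_re]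
        rw [← inner_conj_symm (LL V (dmf f) (k + 1)), ← inner_conj_symm (LL V (dpf f) (-k - 1))]
          at this
        simp only [add_re, conj_re] at this
        linarith) (summable_LL h.bm_dp) (summable_LL h.bm_dm)
      (by simpa using summable_LL h.bmA) Hg Hy k
  simp only [norm_neg] at key
  refine ⟨by linarith [(key k).2], fun a δ hδ => ?_⟩
  refine (translate_le (h.lip_md k) (h.sd k) convex_tri.interior isOpen_interior.measurableSet
    vol_fin a).trans ?_
  have j1 := (h.bm_dp.md k).integrable_sq (vq V)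
  have j2 := (h.bm_dm.md k).integrable_sq (vq V)
  refine (integral_mono_of_nonneg (Eventually.of_forall fun _ => norm_nonneg _)
    (g := fun x => ‖a‖ * (δ + (‖md (dpf f) k x‖ ^ 2 + ‖md (dmf f) k x‖ ^ 2) / (2 * δ)))
    ((((integrable_const δ).add ((j1.add j2).div_const _))).const_mul _)
    (Eventually.of_forall fun x => ?_)).trans ?_
  · have e : (a.re : ℂ) • md (gd 1 f) k x + (a.im : ℂ) • md (gd I f) k x =
        (a / 2) • md (dpf f) k x + (conj a / 2) • md (dmf f) k x := by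
      rw [h.md_dp, h.md_dm, re_eq_add_conj, im_eq_sub_conj]
      match_scalars <;> field_simp <;> ring_nf <;> simp [sub_eq_add_neg]
    simp only [e]
    refine (norm_add_le _ _).trans ?_
    simp only [norm_smul, norm_div, norm_conj, Complex.norm_ofNat]
    generalize ‖md (dpf f) k x‖ = s
    generalize ‖md (dmf f) k x‖ = t
    have : s / 2 + t / 2 ≤ δ + (s ^ 2 + t ^ 2) / (2 * δ) := by
      rw [← sub_le_iff_le_add', le_div_iff₀ (by positivity)]
      nlinarith [sq_nonneg (s - δ), sq_nonneg (t - δ), mul_pos hδ hδ, sq_nonneg s, sq_nonneg t]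
    calc _ = ‖a‖ * (s / 2 + t / 2) := by ring
      _ ≤ _ := by gcongr
  · have j3 : Integrable (fun x => (‖md (dpf f) k x‖ ^ 2 + ‖md (dmf f) k x‖ ^ 2) / (2 * δ))
        (vq V) := (j1.add j2).div_const _
    rw [integral_const_mul, integral_add (integrable_const δ) j3,
      integral_div, integral_add j1 j2, ← norm_sq_LL h.bm_dp, ← norm_sq_LL h.bm_dm, integral_const,
      smul_eq_mul, mul_comm _ δ]
    have a1 := (key k).1
    have a2 := (key (-k)).1
    rw [neg_neg] at a2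
    refine mul_le_mul_of_nonneg_left (add_le_add le_rfl ?_) (norm_nonneg _)
    rw [div_le_div_iff₀ (by positivity) hδ]
    nlinarith [sq_nonneg ‖LL V (dpf f) (-k)‖, sq_nonneg ‖LL V (dmf f) (-k)‖]

end Appx

end Vale.Agent.P099
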